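import Vale.Agent.P205.Full.Stmts

/-!
# Module OPEN: comparison of quadratic forms and the finite family of phases

On a compact surface a continuous form is bounded by a multiple of a positive definite one, a
spanning frame is uniformly spanning, and finitely many functions have differentials within
`1/100` of every unit covector.
-/

open scoped Manifold ContDiff RealInnerProductSpace
open Bundle Filter Topology

namespace Vale.Agent.P205.Full.Open

variable {M : Type} [TopologicalSpace M] [ChartedSpace R2 M] [IsManifold (𝓡 2) ∞ M]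
variable {N : ℕ}

/-- A field of bilinear forms on the tangent planes. -/
abbrev FormField (M : Type) [TopologicalSpace M] [ChartedSpace R2 M] [IsManifold (𝓡 2) ∞ M] :=
  (x : M) → LinearMap.BilinForm ℝ (TangentSpace (𝓡 2) x)

omit [IsManifold (𝓡 2) ∞ M] in
theorem finrank_tangent (x : M) : Module.finrank ℝ (TangentSpace (𝓡 2) x) = 2 :=
  finrank_euclideanSpace_fin

instance finite_tangent (x : M) : FiniteDimensional ℝ (TangentSpace (𝓡 2) x) :=
  inferInstanceAs (FiniteDimensional ℝ R2)

/-- The metric as a field of forms. -/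
noncomputable def metricForm (g : Metric M) : FormField M :=
  fun x => LinearMap.mk₂ ℝ (fun v w => g.inner x v w)
    (fun u v w => by simp) (fun a v w => by simp) (fun u v w => by simp) (fun a v w => by simp)

@[simp] theorem metricForm_apply (g : Metric M) (x : M) (v w : TangentSpace (𝓡 2) x) :
    metricForm g x v w = g.inner x v w := rfl

/-- Pull-back of the inner product by a differential. -/
noncomputable def pullForm {E : Type} [NormedAddCommGroup E] [InnerProductSpace ℝ E]
    (f : M → E) : FormField M :=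
  fun x => LinearMap.mk₂ ℝ
    (fun v w => (⟪(mfderiv (𝓡 2) 𝓘(ℝ, E) f x v : E), (mfderiv (𝓡 2) 𝓘(ℝ, E) f x w : E)⟫ : ℝ))
    (fun u v w => by rw [map_add]; exact inner_add_left _ _ _)
    (fun a v w => by rw [map_smul]; exact real_inner_smul_left _ _ _)
    (fun u v w => by rw [map_add]; exact inner_add_right _ _ _)
    (fun a v w => by rw [map_smul]; exact real_inner_smul_right _ _ _)

omit [IsManifold (𝓡 2) ∞ M] in
theorem span_eq_top_of_det {x : M} (q : LinearMap.BilinForm ℝ (TangentSpace (𝓡 2) x))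
    (u v : TangentSpace (𝓡 2) x) (hs : q v u = q u v)
    (hd : q u u * q v v - q u v ^ 2 ≠ 0) (w : TangentSpace (𝓡 2) x) :
    ∃ a b : ℝ, w = a • u + b • v := by
  have hli : LinearIndependent ℝ ![u, v] := by
    rw [LinearIndependent.pair_iff]
    intro a b hab
    have h1 : a * q u u + b * q u v = 0 := by
      have := congrArg (q u) hab
      simpa using this
    have h2 : a * q u v + b * q v v = 0 := by
      have := congrArg (q v) hab
      simpa [hs] using this
    have ha : a * (q u u * q v v - q u v ^ 2) = 0 := by linear_combination q v v * h1 - q u v * h2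
    have hb : b * (q u u * q v v - q u v ^ 2) = 0 := by linear_combination q u u * h2 - q u v * h1
    exact ⟨by simpa [hd] using ha, by simpa [hd] using hb⟩
  have hspan := hli.span_eq_top_of_card_eq_finrank (by simp [finrank_tangent])
  have hw : w ∈ Submodule.span ℝ (Set.range ![u, v]) := hspan ▸ Submodule.mem_top
  rw [Matrix.range_cons_cons_empty, Submodule.mem_span_pair] at hw
  obtain ⟨a, b, h⟩ := hw
  exact ⟨a, b, h.symm⟩

omit [IsManifold (𝓡 2) ∞ M] in
/-- A spanning family contains a pair with positive Gram determinant. -/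
theorem exists_det_pos {x : M} (V : Fin N → TangentSpace (𝓡 2) x)
    (hspan : Submodule.span ℝ (Set.range V) = ⊤)
    (q : LinearMap.BilinForm ℝ (TangentSpace (𝓡 2) x)) (hs : ∀ v w, q v w = q w v)
    (hq : ∀ v, v ≠ 0 → 0 < q v v) :
    ∃ i j, 0 < q (V i) (V i) * q (V j) (V j) - q (V i) (V j) ^ 2 := by
  obtain ⟨i, hi⟩ : ∃ i, V i ≠ 0 := by
    by_contra h
    simp only [not_exists, not_not] at h
    have hb : (⊤ : Submodule ℝ (TangentSpace (𝓡 2) x)) = ⊥ := by
      rw [← hspan, Submodule.span_eq_bot]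
      rintro v ⟨i, rfl⟩
      exact h i
    have h0 := congrArg (fun p : Submodule ℝ (TangentSpace (𝓡 2) x) => Module.finrank ℝ p) hb
    simp [finrank_tangent] at h0
  obtain ⟨j, hj⟩ : ∃ j, V j ∉ Submodule.span ℝ {V i} := by
    by_contra h
    simp only [not_exists, not_not] at h
    have hle : (⊤ : Submodule ℝ (TangentSpace (𝓡 2) x)) ≤ Submodule.span ℝ {V i} :=
      hspan ▸ Submodule.span_le.2 (Set.range_subset_iff.2 h)
    have h0 := Submodule.finrank_mono hle
    rw [finrank_top, finrank_tangent, finrank_span_singleton hi] at h0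
    omega
  refine ⟨i, j, ?_⟩
  have hii := hq _ hi
  set t := q (V i) (V j) / q (V i) (V i) with ht
  have hne : V j - t • V i ≠ 0 := fun h0 => hj (Submodule.mem_span_singleton.2
    ⟨t, (sub_eq_zero.1 h0).symm⟩)
  have := hq _ hne
  simp only [map_sub, map_smul, LinearMap.sub_apply, LinearMap.smul_apply, smul_eq_mul,
    hs (V j) (V i)] at this
  have htm : t * q (V i) (V i) = q (V i) (V j) := by rw [ht, div_mul_cancel₀ _ hii.ne']
  nlinarith [mul_pos this hii]

theorem two_by_two {a b c x y Δ : ℝ} (hΔ : Δ = a * c - b ^ 2) :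
    Δ * (x ^ 2 + y ^ 2) ≤ (a * x ^ 2 + 2 * b * x * y + c * y ^ 2) * (a + c) := by
  subst hΔ
  nlinarith [sq_nonneg (a * x + b * y), sq_nonneg (b * x + c * y)]

/-- A continuous form is bounded by a multiple of a positive definite one. -/
theorem exists_form_le [CompactSpace M] (V : Frame M N) (hspan : FrameSpans V)
    (p q : FormField M) (hps : ∀ x v w, p x v w = p x w v) (hqs : ∀ x v w, q x v w = q x w v)
    (hq : ∀ x v, v ≠ 0 → 0 < q x v v)
    (hpc : ∀ i k, Continuous fun x => p x (V i x) (V k x))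
    (hqc : ∀ i k, Continuous fun x => q x (V i x) (V k x)) :
    ∃ C, 0 < C ∧ ∀ x v, p x v v ≤ C * q x v v := by
  have key : ∀ x₀ : M, ∃ U ∈ 𝓝 x₀, ∃ C, 0 < C ∧ ∀ x ∈ U, ∀ v, p x v v ≤ C * q x v v := by
    intro x₀
    obtain ⟨i, j, hij⟩ := exists_det_pos (fun k => V k x₀) (hspan x₀) (q x₀) (hqs x₀) (hq x₀)
    set Δ := fun x => q x (V i x) (V i x) * q x (V j x) (V j x) - q x (V i x) (V j x) ^ 2 with hΔ
    set S := fun x => |p x (V i x) (V i x)| + 2 * |p x (V i x) (V j x)| + |p x (V j x) (V j x)|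
      with hS
    set T := fun x => q x (V i x) (V i x) + q x (V j x) (V j x) with hT
    have hΔc : Continuous Δ := ((hqc i i).mul (hqc j j)).sub ((hqc i j).pow 2)
    have hc : ContinuousAt (fun x => S x * T x / Δ x) x₀ :=
      (((((hpc i i).abs.add (continuous_const.mul (hpc i j).abs)).add (hpc j j).abs).mul
        ((hqc i i).add (hqc j j))).continuousAt).div hΔc.continuousAt hij.ne'
    refine ⟨{x | 0 < Δ x ∧ S x * T x / Δ x < |S x₀ * T x₀ / Δ x₀| + 1},
      inter_mem (hΔc.continuousAt.eventually_const_lt hij)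
        (hc.eventually_lt_const ((le_abs_self _).trans_lt (lt_add_one _))),
      |S x₀ * T x₀ / Δ x₀| + 1, by positivity, ?_⟩
    rintro x ⟨hpos, hlt⟩ v
    have hqn : ∀ w, 0 ≤ q x w w := fun w => by
      rcases eq_or_ne w 0 with rfl | hw
      · simp
      · exact (hq x w hw).le
    obtain ⟨a, b, rfl⟩ := span_eq_top_of_det (q x) (V i x) (V j x) (hqs x _ _) hpos.ne' v
    have hp' : p x (a • V i x + b • V j x) (a • V i x + b • V j x) ≤ S x * (a ^ 2 + b ^ 2) := by
      simp only [map_add, map_smul, LinearMap.add_apply, LinearMap.smul_apply, smul_eq_mul,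
        hps x (V j x) (V i x), hS]
      nlinarith [le_abs_self (p x (V i x) (V i x)), le_abs_self (p x (V j x) (V j x)),
        abs_nonneg (p x (V i x) (V i x)), abs_nonneg (p x (V j x) (V j x)),
        abs_nonneg (p x (V i x) (V j x)), sq_nonneg a, sq_nonneg b, sq_nonneg (a + b),
        sq_nonneg (a - b), le_abs_self (p x (V i x) (V j x)),
        neg_abs_le (p x (V i x) (V j x))]
    have hq' : Δ x * (a ^ 2 + b ^ 2) ≤
        q x (a • V i x + b • V j x) (a • V i x + b • V j x) * T x := by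
      refine (two_by_two rfl).trans (le_of_eq ?_)
      simp only [map_add, map_smul, LinearMap.add_apply, LinearMap.smul_apply, smul_eq_mul,
        hqs x (V j x) (V i x), hT]
      ring
    have hS0 : 0 ≤ S x := by positivity
    refine hp'.trans (le_trans ?_ (mul_le_mul_of_nonneg_right hlt.le (hqn _)))
    rw [div_mul_eq_mul_div, le_div_iff₀ hpos, mul_assoc]
    refine le_trans (le_of_eq ?_) (mul_le_mul_of_nonneg_left hq' hS0) |>.trans (le_of_eq ?_)
    · ring
    · ring
  choose U hU C hC hb using key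
  obtain ⟨t, ht⟩ := CompactSpace.elim_nhds_subcover U hU
  have ht' : ∀ x : M, ∃ y ∈ t, x ∈ U y := fun x => by
    simpa using ht.ge (Set.mem_univ x)
  refine ⟨1 + ∑ y ∈ t, C y, add_pos_of_pos_of_nonneg one_pos
    (Finset.sum_nonneg fun y _ => (hC y).le), fun x v => ?_⟩
  obtain ⟨y, hy, hxy⟩ := ht' x
  have hqn : 0 ≤ q x v v := by
    rcases eq_or_ne v 0 with rfl | hw
    · simp
    · exact (hq x v hw).le
  refine (hb y x hxy v).trans (mul_le_mul_of_nonneg_right ?_ hqn)
  linarith [Finset.single_le_sum (f := C) (fun z _ => (hC z).le) hy]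

/-- The derivative of a smooth function along a smooth vector field is smooth. -/
theorem contMDiff_D {E : Type} [NormedAddCommGroup E] [NormedSpace ℝ E] (V : Frame M N)
    (hV : FrameSmooth V) {f : M → E} (hf : ContMDiff (𝓡 2) 𝓘(ℝ, E) ∞ f) (i : Fin N) :
    ContMDiff (𝓡 2) 𝓘(ℝ, E) ∞ (D V i f) :=
  (contMDiff_snd_tangentBundle_modelSpace E 𝓘(ℝ, E)).comp
    ((hf.contMDiff_tangentMap (m := ∞) le_rfl).comp (hV i))

theorem contMDiff_gV (g : Metric M) (V : Frame M N) (hV : FrameSmooth V) (i k : Fin N) :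
    ContMDiff (𝓡 2) 𝓘(ℝ, ℝ) ∞ (gV g V i k) := by
  have h := g.contMDiff.clm_bundle_apply₂ (hV i) (hV k)
  exact fun x => (Bundle.contMDiffAt_totalSpace.1 (h x)).2

/-- The frame is uniformly spanning. -/
theorem exists_frame_lower [CompactSpace M] (g : Metric M) (V : Frame M N)
    (hV : FrameSmooth V) (hspan : FrameSpans V) :
    ∃ C, 0 < C ∧ ∀ x (v : TangentSpace (𝓡 2) x),
      g.inner x v v ≤ C * ∑ i, (g.inner x (V i x) v) ^ 2 := by
  let q : FormField M := fun x => LinearMap.mk₂ ℝ
    (fun v w => ∑ l, g.inner x (V l x) v * g.inner x (V l x) w)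
    (fun u v w => by simp [add_mul, Finset.sum_add_distrib])
    (fun a v w => by simp [Finset.mul_sum, mul_assoc])
    (fun u v w => by simp [mul_add, Finset.sum_add_distrib])
    (fun a v w => by simp [Finset.mul_sum, mul_left_comm])
  have hqa : ∀ x v w, q x v w = ∑ l, g.inner x (V l x) v * g.inner x (V l x) w :=
    fun x v w => rfl
  have hpos : ∀ x v, v ≠ 0 → 0 < q x v v := by
    intro x v hv
    rw [hqa]
    refine lt_of_le_of_ne (Finset.sum_nonneg fun l _ => mul_self_nonneg _) fun h0 => ?_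
    have hz := (Finset.sum_eq_zero_iff_of_nonneg fun l _ => mul_self_nonneg _).1 h0.symm
    have hall : ∀ w, g.inner x w v = 0 := by
      intro w
      have hw : w ∈ Submodule.span ℝ (Set.range fun i => V i x) := hspan x ▸ Submodule.mem_top
      induction hw using Submodule.span_induction with
      | mem w hw => obtain ⟨l, rfl⟩ := hw; exact mul_self_eq_zero.1 (hz l (Finset.mem_univ _))
      | zero => simp
      | add a b _ _ ha hb => simp [ha, hb]
      | smul a b _ hb => simp [hb]
    exact (g.pos x v hv).ne' (hall v)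
  have hgc := fun i k => (contMDiff_gV g V hV i k).continuous
  obtain ⟨C, hC, h⟩ := exists_form_le V hspan (metricForm g) q
    (fun x v w => g.symm x v w) (fun x v w => by simp [hqa, mul_comm]) hpos
    (fun i k => hgc i k)
    (fun i k => by
      simp only [hqa]
      exact continuous_finsetSum _ fun l _ => (hgc l i).mul (hgc l k))
  refine ⟨C, hC, fun x v => ?_⟩
  simpa [hqa, pow_two] using h x v

theorem inner_sq_le (g : Metric M) (x : M) (u v : TangentSpace (𝓡 2) x) :
    g.inner x u v ^ 2 ≤ g.inner x u u * g.inner x v v :=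
  LinearMap.BilinForm.apply_sq_le_of_symm (metricForm g x)
    (fun w => by
      rcases eq_or_ne w 0 with rfl | hw
      · simp
      · exact (g.pos x w hw).le)
    ⟨fun a b => g.symm x a b⟩ u v

theorem inner_self_nonneg' (g : Metric M) (x : M) (v : TangentSpace (𝓡 2) x) :
    0 ≤ g.inner x v v := by
  rcases eq_or_ne v 0 with rfl | hv
  · simp
  · exact (g.pos x v hv).le

/-- Finitely many functions whose differentials nearly represent every unit covector. -/
theorem exists_phases_tol [T2Space M] [CompactSpace M] (g : Metric M) (V : Frame M N)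
    (hV : FrameSmooth V) (hspan : FrameSpans V) {ε : ℝ} (hε : 0 < ε) :
    ∃ (P : ℕ) (y : Fin P → M → ℝ), (∀ p, ContMDiff (𝓡 2) 𝓘(ℝ, ℝ) ∞ (y p)) ∧
      ∀ x (u : TangentSpace (𝓡 2) x), g.inner x u u = 1 → ∃ p, ∀ v : TangentSpace (𝓡 2) x,
        |dR (y p) x v - g.inner x u v| ≤ ε * Real.sqrt (g.inner x v v) := by
  obtain ⟨n, φ, hφ, -, hinj⟩ :=
    exists_embedding_euclidean_of_compact (I := 𝓡 2) (M := M)
  let L := fun x => mfderiv (𝓡 2) 𝓘(ℝ, EuclideanSpace ℝ (Fin n)) φ x
  have hLc : ∀ i k, Continuous fun x => pullForm φ x (V i x) (V k x) := fun i k =>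
    (contMDiff_D V hV hφ i).continuous.inner (contMDiff_D V hV hφ k).continuous
  have hgc := fun i k => (contMDiff_gV g V hV i k).continuous
  have hpp : ∀ x v, v ≠ 0 → 0 < pullForm φ x v v := fun x v hv => by
    exact (real_inner_self_pos (x := (L x v : EuclideanSpace ℝ (Fin n)))).2
      fun h => hv (hinj x (h.trans (map_zero (L x)).symm))
  obtain ⟨C₁, hC₁, h₁⟩ := exists_form_le V hspan (metricForm g) (pullForm φ)
    (fun x v w => g.symm x v w) (fun x v w => real_inner_comm (L x w : EuclideanSpace ℝ (Fin n)) (L x v)) hpp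
    (fun i k => hgc i k) hLc
  obtain ⟨C₂, hC₂, h₂⟩ := exists_form_le V hspan (pullForm φ) (metricForm g)
    (fun x v w => real_inner_comm (L x w : EuclideanSpace ℝ (Fin n)) (L x v)) (fun x v w => g.symm x v w) (fun x v hv => g.pos x v hv)
    hLc (fun i k => hgc i k)
  obtain ⟨δ, hδ, hδC⟩ : ∃ δ > 0, δ * Real.sqrt C₂ ≤ ε :=
    ⟨ε / Real.sqrt C₂, by positivity, le_of_eq (div_mul_cancel₀ _ (by positivity))⟩
  obtain ⟨S, -, hSf, hS⟩ := finite_cover_balls_of_compact
    (isCompact_closedBall (0 : EuclideanSpace ℝ (Fin n)) (Real.sqrt C₁)) hδ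
  have := hSf.fintype
  let e := (Fintype.equivFin S).symm
  let lin := fun a : EuclideanSpace ℝ (Fin n) => innerSL ℝ a
  refine ⟨Fintype.card S, fun p => fun z => lin (e p : S) (φ z), fun p =>
    ((lin (e p : S)).contMDiff).comp hφ, fun x u hu => ?_⟩
  let T : TangentSpace (𝓡 2) x →ₗ[ℝ] Module.Dual ℝ (TangentSpace (𝓡 2) x) := pullForm φ x
  have hT : Function.Injective T := by
    refine LinearMap.ker_eq_bot.1 (LinearMap.ker_eq_bot'.2 fun w hw => ?_)
    by_contra hne
    exact (hpp x w hne).ne' (LinearMap.congr_fun hw w)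
  obtain ⟨w, hw⟩ := (LinearMap.injective_iff_surjective_of_finrank_eq_finrank
    Subspace.dual_finrank_eq.symm).1 hT (metricForm g x u)
  set a : EuclideanSpace ℝ (Fin n) := L x w with ha
  have haa : ‖a‖ ^ 2 = g.inner x u w := by
    rw [← real_inner_self_eq_norm_sq]
    exact LinearMap.congr_fun hw w
  have han : ‖a‖ ≤ Real.sqrt C₁ := by
    have hp : pullForm φ x w w = ‖a‖ ^ 2 := real_inner_self_eq_norm_sq a
    have h4 : (‖a‖ ^ 2) ^ 2 ≤ C₁ * ‖a‖ ^ 2 := by
      calc (‖a‖ ^ 2) ^ 2 ≤ g.inner x u u * g.inner x w w := haa ▸ inner_sq_le g x u w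
        _ = g.inner x w w := by rw [hu, one_mul]
        _ ≤ C₁ * ‖a‖ ^ 2 := hp ▸ h₁ x w
    refine (Real.le_sqrt (norm_nonneg _) hC₁.le).2 ?_
    rcases eq_or_lt_of_le (sq_nonneg ‖a‖) with h0 | h0
    · rw [← h0]; exact hC₁.le
    · exact le_of_mul_le_mul_right (by linarith [h4, pow_two (‖a‖ ^ 2)]) h0
  obtain ⟨b, hbS, hb⟩ := Set.mem_iUnion₂.1 (hS (mem_closedBall_zero_iff.2 han))
  refine ⟨e.symm ⟨b, hbS⟩, fun v => ?_⟩
  have hd : dR (fun z => lin b (φ z)) x v = ⟪b, (L x v : EuclideanSpace ℝ (Fin n))⟫ := by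
    have h := ((lin b).hasMFDerivAt (x := φ x)).comp x
      ((hφ.mdifferentiable (by simp)) x).hasMFDerivAt
    exact congrArg (fun T : TangentSpace (𝓡 2) x →L[ℝ] ℝ => T v) h.mfderiv
  simp only [Equiv.apply_symm_apply]
  obtain ⟨z, hz⟩ : ∃ z : EuclideanSpace ℝ (Fin n), z = L x v := ⟨_, rfl⟩
  have hLv : ‖z‖ ≤ Real.sqrt C₂ * Real.sqrt (g.inner x v v) := by
    rw [← Real.sqrt_mul hC₂.le, ← Real.sqrt_sq (norm_nonneg z), ← real_inner_self_eq_norm_sq, hz]
    exact Real.sqrt_le_sqrt (h₂ x v)
  have hg' : g.inner x u v = ⟪a, z⟫ := by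
    rw [hz]; exact (LinearMap.congr_fun hw v).symm
  have hd' : dR (fun z => lin b (φ z)) x v = ⟪b, z⟫ := by
    rw [hz]; exact hd
  rw [hd', hg', ← inner_sub_left]
  refine (abs_real_inner_le_norm _ _).trans ?_
  have hba : ‖b - a‖ ≤ δ := by
    rw [Metric.mem_ball, dist_eq_norm, norm_sub_rev] at hb
    exact hb.le
  refine (mul_le_mul hba hLv (norm_nonneg _) hδ.le).trans ?_
  rw [← mul_assoc]
  exact mul_le_mul_of_nonneg_right hδC (Real.sqrt_nonneg _)

/-- Finitely many functions whose differentials nearly represent every unit covector. -/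
theorem exists_phases [T2Space M] [CompactSpace M] (g : Metric M) (V : Frame M N)
    (hV : FrameSmooth V) (hspan : FrameSpans V) :
    ∃ (P : ℕ) (y : Fin P → M → ℝ), (∀ p, ContMDiff (𝓡 2) 𝓘(ℝ, ℝ) ∞ (y p)) ∧
      ∀ x (u : TangentSpace (𝓡 2) x), g.inner x u u = 1 → ∃ p, ∀ v : TangentSpace (𝓡 2) x,
        |dR (y p) x v - g.inner x u v| ≤ (1 / 100) * Real.sqrt (g.inner x v v) :=
  exists_phases_tol g V hV hspan (by norm_num)

end Vale.Agent.P205.Full.Open
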