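import Vale.Agent.P205.Full.Stage.Plane
import Vale.Agent.P205.Full.Stage.Calculus

/-!
# Module OPEN: the second fundamental form near an isometric immersion

If the pull-back metric is within `ρ` of `g`, then `sff` is a smooth function of the first
derivatives applied linearly to the second derivatives; bounds and a Lipschitz bound follow.
-/

open scoped Manifold ContDiff RealInnerProductSpace Topology
open Bundle Filter

namespace Vale.Agent.P205.Full.Open

variable {N : ℕ}

/-- `y ↦ ∑ i, ⟪a i, y⟫ a i`. -/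
noncomputable def outerOp (a : Fin N → R4) : R4 →L[ℝ] R4 :=
  ∑ i, (innerSL ℝ (a i)).smulRight (a i)

/-- The Gram family of `a`. -/
noncomputable def gram (a : Fin N → R4) : Fin N → Fin N → ℝ := fun i k => ⟪a i, a k⟫

/-- The second invariant of a family of scalars. -/
noncomputable def inv2 (G : Fin N → Fin N → ℝ) : ℝ :=
  ((∑ i, G i i) ^ 2 - ∑ i, ∑ k, G i k * G k i) / 2

/-- The projection on the normal plane as a function of the tangent vectors. -/
noncomputable def normalOp (a : Fin N → R4) : R4 →L[ℝ] R4 :=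
  ContinuousLinearMap.id ℝ R4 -
    (inv2 (gram a))⁻¹ • ((∑ i, gram a i i) • outerOp a - (outerOp a).comp (outerOp a))

theorem continuous_inv2 : Continuous (inv2 : (Fin N → Fin N → ℝ) → ℝ) := by
  unfold inv2; fun_prop

theorem continuous_gram : Continuous (gram : (Fin N → R4) → Fin N → Fin N → ℝ) := by
  unfold gram; fun_prop

theorem isOpen_immersive : IsOpen {a : Fin N → R4 | inv2 (gram a) ≠ 0} :=
  isOpen_ne_fun (continuous_inv2.comp continuous_gram) continuous_const

theorem contDiff_outerOp : ContDiff ℝ ∞ (outerOp : (Fin N → R4) → R4 →L[ℝ] R4) := by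
  unfold outerOp
  exact ContDiff.sum fun i _ => ((innerSL ℝ (E := R4)).contDiff.comp
    (contDiff_apply ℝ R4 i)).smulRight (contDiff_apply ℝ R4 i)

theorem contDiffOn_normalOp :
    ContDiffOn ℝ ∞ (normalOp : (Fin N → R4) → R4 →L[ℝ] R4)
      {a : Fin N → R4 | inv2 (gram a) ≠ 0} := by
  have hg : ∀ i k, ContDiff ℝ ∞ fun a : Fin N → R4 => gram a i k := fun i k =>
    (contDiff_apply ℝ R4 i).inner ℝ (contDiff_apply ℝ R4 k)
  have ht : ContDiff ℝ ∞ fun a : Fin N → R4 => ∑ i, gram a i i :=
    ContDiff.sum fun i _ => hg i i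
  have hd : ContDiff ℝ ∞ fun a : Fin N → R4 => inv2 (gram a) :=
    ((ht.pow 2).sub (ContDiff.sum fun i _ =>
      ContDiff.sum fun k _ => (hg i k).mul (hg k i))).div_const 2
  exact contDiffOn_const.sub ((hd.contDiffOn.inv fun a ha => ha).smul
    ((ht.smul contDiff_outerOp).sub (contDiff_outerOp.clm_comp contDiff_outerOp)).contDiffOn)

theorem tr2_eq (G : Fin N → Fin N → ℝ) : Plane.tr2 (Matrix.of G) = inv2 G := by
  simp [Plane.tr2, inv2, Matrix.trace, Matrix.mul_apply]

theorem outerOp_eq (a : Fin N → R4) :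
    outerOp a = Matrix.toEuclideanCLM (𝕜 := ℝ) (Plane.outer a) := by
  refine ContinuousLinearMap.ext fun y => ?_
  apply (WithLp.ofLp_injective (p := 2))
  funext p
  simp [outerOp, Plane.outer, Matrix.mulVec, dotProduct, PiLp.inner_apply, Finset.sum_mul]
  rw [Finset.sum_comm]
  exact Finset.sum_congr rfl fun i _ => Finset.sum_congr rfl fun q _ => by ring

theorem normalOp_eq (a : Fin N → R4) :
    normalOp a =
      Matrix.toEuclideanCLM (𝕜 := ℝ) ((1 : Matrix (Fin 4) (Fin 4) ℝ) - Plane.proj (Plane.outer a))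
    := by
  have h := Plane.outer_invariants a
  have h1 : (Plane.outer a).trace = ∑ i, gram a i i := by
    rw [h.1]; rfl
  have h2 : Plane.tr2 (Plane.outer a) = inv2 (gram a) := by
    rw [h.2]; exact tr2_eq _
  rw [Plane.proj, h1, h2, map_sub, map_one, map_smul, map_sub, map_smul, map_mul, ← outerOp_eq]
  rfl

section

variable {M : Type} [TopologicalSpace M] [ChartedSpace R2 M] [IsManifold (𝓡 2) ∞ M]

/-- The first derivatives of `F` along the frame. -/
noncomputable def dF (F : M → R4) (V : Frame M N) (x : M) : Fin N → R4 := fun i => D V i F x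

theorem injective_of_inv2 (F : M → R4) (V : Frame M N) (x : M)
    (h : inv2 (gram (dF F V x)) ≠ 0) :
    Function.Injective (mfderiv (𝓡 2) 𝓘(ℝ, R4) F x) := by
  let L : R2 →ₗ[ℝ] R4 := (mfderiv (𝓡 2) 𝓘(ℝ, R4) F x).toLinearMap
  by_contra hinj
  have hr : Module.finrank ℝ (LinearMap.range L) ≤ 1 := by
    by_contra hlt
    suffices hker : LinearMap.ker L = ⊥ from hinj (LinearMap.ker_eq_bot.1 hker)
    refine Submodule.finrank_eq_zero.1 ?_
    have := L.finrank_range_add_finrank_ker
    rw [finrank_euclideanSpace_fin] at this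
    omega
  obtain ⟨u, hu⟩ := finrank_le_one_iff.1 hr
  choose c hc using fun i => hu ⟨L (V i x), LinearMap.mem_range_self L _⟩
  have hci : ∀ i, dF F V x i = c i • (u : R4) := fun i => (congrArg Subtype.val (hc i)).symm
  apply h
  simp only [inv2, gram, hci, real_inner_smul_left, real_inner_smul_right, sub_eq_zero,
    div_eq_zero_iff, two_ne_zero, or_false]
  rw [pow_two, Finset.sum_mul_sum]
  exact Finset.sum_congr rfl fun i _ => Finset.sum_congr rfl fun k _ => by ring

theorem sff_eq_normalOp (V : Frame M N) (hs : FrameSpans V) (F : M → R4) (x : M)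
    (h : inv2 (gram (dF F V x)) ≠ 0) (i k : Fin N) :
    sff F V i k x = normalOp (dF F V x) (D V i (D V k F) x) := by
  rw [normalOp_eq]
  apply (WithLp.ofLp_injective (p := 2))
  rw [Matrix.ofLp_toEuclideanCLM]
  exact (Plane.normal_projection V hs F x (injective_of_inv2 F V x h) _).2.symm

/-- The metric in the frame, as a family. -/
noncomputable def gFam (g : Metric M) (V : Frame M N) (x : M) : Fin N → Fin N → ℝ :=
  fun i k => gV g V i k x

theorem inv2_gFam_ne_zero (g : Metric M) (V : Frame M N) (hs : FrameSpans V) (x : M) :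
    inv2 (gFam g V x) ≠ 0 := by
  obtain ⟨b, -, -, hd, he⟩ := Plane.exists_coord g V hs x
  rw [← tr2_eq, show Matrix.of (gFam g V x) = Matrix.of (fun i k => gV g V i k x) from rfl, he,
    Plane.tr2_factor]
  exact hd

/-- A compact set of tangent frames containing those of all nearly isometric maps. -/
theorem exists_jetSet [CompactSpace M] (g : Metric M) (V : Frame M N) (hV : FrameSmooth V)
    (hs : FrameSpans V) :
    ∃ ρ : ℝ, 0 < ρ ∧ ∃ S : Set (Fin N → R4), IsCompact S ∧ S ⊆ {a | inv2 (gram a) ≠ 0} ∧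
      ∀ (F : M → R4) (x : M), (∀ i k, |gV g V i k x - pullV F V i k x| ≤ ρ) → dF F V x ∈ S := by
  set T := Set.range (gFam g V) with hT
  have hTc : IsCompact T := isCompact_range
    (continuous_pi fun i => continuous_pi fun k => (contMDiff_gV g hV i k).continuous)
  have hU : IsOpen {G : Fin N → Fin N → ℝ | inv2 G ≠ 0} :=
    isOpen_ne_fun continuous_inv2 continuous_const
  have hTU : T ⊆ {G : Fin N → Fin N → ℝ | inv2 G ≠ 0} := by
    rintro _ ⟨x, rfl⟩; exact inv2_gFam_ne_zero g V hs x
  obtain ⟨ρ, hρ, hsub⟩ := hTc.exists_cthickening_subset_open hU hTU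
  have hKc : IsCompact (Metric.cthickening ρ T) := hTc.cthickening
  obtain ⟨R, hR⟩ := hKc.isBounded.subset_closedBall (0 : Fin N → Fin N → ℝ)
  refine ⟨ρ, hρ, gram ⁻¹' Metric.cthickening ρ T, ?_, fun a ha => hsub ha, fun F x hx => ?_⟩
  · refine Metric.isCompact_of_isClosed_isBounded
      (Metric.isClosed_cthickening.preimage continuous_gram) ?_
    refine (Metric.isBounded_closedBall (x := (0 : Fin N → R4)) (r := Real.sqrt |R|)).subset ?_
    intro a ha
    refine mem_closedBall_zero_iff.2 ((pi_norm_le_iff_of_nonneg (Real.sqrt_nonneg _)).2 fun i => ?_)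
    have h1 : ‖gram a‖ ≤ R := mem_closedBall_zero_iff.1 (hR ha)
    have h2 : |⟪a i, a i⟫| ≤ |R| :=
      ((norm_le_pi_norm (gram a i) i).trans (norm_le_pi_norm (gram a) i)).trans
        (h1.trans (le_abs_self R))
    rw [← Real.sqrt_sq (norm_nonneg (a i)), ← real_inner_self_eq_norm_sq]
    exact Real.sqrt_le_sqrt ((le_abs_self _).trans h2)
  · refine Metric.mem_cthickening_of_dist_le _ (gFam g V x) ρ T ⟨x, rfl⟩ ?_
    rw [dist_eq_norm]
    refine (pi_norm_le_iff_of_nonneg hρ.le).2 fun i => (pi_norm_le_iff_of_nonneg hρ.le).2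
      fun k => ?_
    show |pullV F V i k x - gV g V i k x| ≤ ρ
    rw [abs_sub_comm]
    exact hx i k

/-- Lipschitz bound of the normal projection near a compact set of frames. -/
theorem exists_normalOp_lipschitz {S : Set (Fin N → R4)} (hS : IsCompact S)
    (hSU : S ⊆ {a : Fin N → R4 | inv2 (gram a) ≠ 0}) :
    ∃ r C : ℝ, 0 < r ∧ 1 ≤ C ∧ (∀ a ∈ S, ‖normalOp a‖ ≤ C) ∧
      ∀ a ∈ S, ∀ b, ‖b - a‖ ≤ r → ‖normalOp b - normalOp a‖ ≤ C * ‖b - a‖ := by
  obtain ⟨r, hr, hsub⟩ := hS.exists_cthickening_subset_open isOpen_immersive hSU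
  obtain ⟨C₁, hC₁⟩ := hS.cthickening.exists_bound_of_continuousOn
    (((contDiffOn_normalOp (N := N)).continuousOn_fderiv_of_isOpen isOpen_immersive
      (by simp)).mono hsub)
  obtain ⟨C₂, hC₂⟩ := hS.exists_bound_of_continuousOn
    ((contDiffOn_normalOp (N := N)).continuousOn.mono hSU)
  refine ⟨r, max 1 (max C₁ C₂), hr, le_max_left _ _,
    fun a ha => (hC₂ a ha).trans ((le_max_right _ _).trans (le_max_right _ _)),
    fun a ha b hb => ?_⟩
  have hball : Metric.closedBall a r ⊆ Metric.cthickening r S := fun z hz =>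
    Metric.mem_cthickening_of_dist_le z a r S ha (Metric.mem_closedBall.1 hz)
  refine (convex_closedBall a r).norm_image_sub_le_of_norm_fderiv_le (𝕜 := ℝ) (fun z hz => ?_)
    (fun z hz => (hC₁ z (hball hz)).trans ((le_max_left _ _).trans (le_max_right _ _)))
    (Metric.mem_closedBall_self hr.le) (by rwa [Metric.mem_closedBall, dist_eq_norm])
  exact ((contDiffOn_normalOp (N := N)).differentiableOn (by simp)).differentiableAt
    (isOpen_immersive.mem_nhds (hsub (hball hz)))

end

end Vale.Agent.P205.Full.Open
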