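import Vale.Agent.P205.Full.Open.Chart

/-!
# P205 full, O2 (part 2): limits of smooth maps with summable frame derivatives
-/

open scoped Manifold ContDiff RealInnerProductSpace Topology
open Bundle Set Filter

namespace Vale.Agent.P205.Full.Open

variable {M : Type} [TopologicalSpace M] [ChartedSpace R2 M] [IsManifold (𝓡 2) ∞ M]
variable {E : Type} [NormedAddCommGroup E] [NormedSpace ℝ E]
variable {N : ℕ} {V : Frame M N}

/-- Frame derivatives of a smooth map are bounded on a compact surface. -/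
lemma exists_DW_bound [CompactSpace M] (hV : FrameSmooth V) {f : M → E}
    (hf : ContMDiff (𝓡 2) 𝓘(ℝ, E) ∞ f) (w : List (Fin N)) : ∃ C, ∀ x, ‖DW V w f x‖ ≤ C := by
  obtain ⟨C, hC⟩ := isCompact_univ.exists_bound_of_continuousOn
    (contMDiff_DW_ich hV hf w).continuous.continuousOn
  exact ⟨C, fun x => hC x (mem_univ x)⟩

lemma D_sub {f h : M → E} (hf : ContMDiff (𝓡 2) 𝓘(ℝ, E) ∞ f)
    (hh : ContMDiff (𝓡 2) 𝓘(ℝ, E) ∞ h) (i : Fin N) :
    D V i (fun x => f x - h x) = fun x => D V i f x - D V i h x := by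
  funext x
  obtain ⟨x₀, y, hy, rfl⟩ : ∃ x₀, ∃ y ∈ tgt x₀, ich x₀ y = x :=
    ⟨x, _, mem_extChartAt_target x, extChartAt_to_inv x⟩
  have h1 := differentiableAt_ich hy hf
  have h2 := differentiableAt_ich hy hh
  have h3 := h1.hasFDerivAt.sub h2.hasFDerivAt
  rw [D_ich (f := fun z => f z - h z) hy h3.differentiableAt, D_ich hy h1, D_ich hy h2]
  exact congrArg (fun L : R2 →L[ℝ] E => L _) h3.fderiv

lemma DW_sub (hV : FrameSmooth V) {f h : M → E} (hf : ContMDiff (𝓡 2) 𝓘(ℝ, E) ∞ f)
    (hh : ContMDiff (𝓡 2) 𝓘(ℝ, E) ∞ h) : ∀ w : List (Fin N),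
    DW V w (fun x => f x - h x) = fun x => DW V w f x - DW V w h x
  | [] => rfl
  | i :: w => by
    show D V i (DW V w fun x => f x - h x) = _
    rw [DW_sub hV hf hh w]
    exact D_sub (contMDiff_DW_ich hV hf w) (contMDiff_DW_ich hV hh w) i

variable [CompleteSpace E]

/-- A series of smooth maps with summable frame derivatives, term by term. -/
theorem tsum_smooth_aux (hV : FrameSmooth V) (hS : FrameSpans V) {f : ℕ → M → E}
    (hf : ∀ n, ContMDiff (𝓡 2) 𝓘(ℝ, E) ∞ (f n)) {u : List (Fin N) → ℕ → ℝ}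
    (hu : ∀ w, Summable (u w)) (hfu : ∀ w n x, ‖DW V w (f n) x‖ ≤ u w n) :
    ContMDiff (𝓡 2) 𝓘(ℝ, E) ∞ (fun x => ∑' n, f n x) ∧
      ∀ w x, HasSum (fun n => DW V w (f n) x) (DW V w (fun x => ∑' n, f n x) x) := by
  set G : List (Fin N) → M → E := fun w x => ∑' n, DW V w (f n) x with hG
  have hs : ∀ w x, HasSum (fun n => DW V w (f n) x) (G w x) := fun w x =>
    (Summable.of_norm_bounded (hu w) fun n => hfu w n x).hasSum
  set T : M → List (Fin N) → R2 → R2 →L[ℝ] E :=
    fun x₀ w y => ∑ i, (coef V x₀ i y).smulRight (G (i :: w) (ich x₀ y)) with hT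
  have hder : ∀ x₀ w, ∀ y ∈ tgt x₀, HasFDerivAt (G w ∘ ich x₀) (T x₀ w y) y := by
    intro x₀ w y hy
    obtain ⟨r, hr, hrs⟩ := Metric.nhds_basis_closedBall.mem_iff.1 ((isOpen_tgt x₀).mem_nhds hy)
    choose c hc using fun i : Fin N => (isCompact_closedBall y r).exists_bound_of_continuousOn
      ((contDiffOn_coef hV hS x₀ i).continuousOn.mono hrs)
    set L : ℕ → R2 → R2 →L[ℝ] E :=
      fun n z => ∑ i, (coef V x₀ i z).smulRight (DW V (i :: w) (f n) (ich x₀ z)) with hL
    have hLn : ∀ n z, z ∈ Metric.ball y r →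
        HasFDerivAt (DW V w (f n) ∘ ich x₀) (L n z) z := fun n z hz => by
      have hzt := hrs (Metric.ball_subset_closedBall hz)
      have hd := differentiableAt_ich hzt (contMDiff_DW_ich hV (hf n) w)
      exact hd.hasFDerivAt.congr_fderiv (fderiv_ich hS hzt hd)
    have hLb : ∀ n z, z ∈ Metric.ball y r → ‖L n z‖ ≤ ∑ i, c i * u (i :: w) n :=
      fun n z hz => (norm_sum_le _ _).trans <| Finset.sum_le_sum fun i _ => by
        rw [ContinuousLinearMap.norm_smulRight_apply]
        exact mul_le_mul (hc i z (Metric.ball_subset_closedBall hz)) (hfu _ n _) (norm_nonneg _)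
          ((norm_nonneg _).trans (hc i z (Metric.ball_subset_closedBall hz)))
    have h := hasFDerivAt_tsum_of_isPreconnected
      (summable_sum fun i _ => (hu (i :: w)).mul_left (c i)) Metric.isOpen_ball
      (convex_ball y r).isPreconnected hLn hLb (Metric.mem_ball_self hr)
      (hs w (ich x₀ y)).summable (Metric.mem_ball_self hr)
    refine h.congr_fderiv ?_
    refine HasSum.tsum_eq ?_
    exact hasSum_sum fun i _ => ((hs (i :: w) (ich x₀ y)).mapL
      (ContinuousLinearMap.smulRightL ℝ R2 E (coef V x₀ i y)))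
  have hD : ∀ i w, D V i (G w) = G (i :: w) := fun i w => by
    funext x
    obtain ⟨x₀, y, hy, rfl⟩ : ∃ x₀, ∃ y ∈ tgt x₀, ich x₀ y = x :=
      ⟨x, _, mem_extChartAt_target x, extChartAt_to_inv x⟩
    have h := hder x₀ w y hy
    rw [D_ich hy h.differentiableAt, h.fderiv]
    refine (hs (i :: w) _).unique ?_ |>.symm
    have hn : ∀ n, DW V (i :: w) (f n) (ich x₀ y) =
        ∑ j, coef V x₀ j y (cvec V x₀ i y) • DW V (j :: w) (f n) (ich x₀ y) := fun n => by
      have hd := differentiableAt_ich hy (contMDiff_DW_ich hV (hf n) w)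
      show D V i (DW V w (f n)) _ = _
      rw [D_ich hy hd, fderiv_ich hS hy hd, sum_apply]
      rfl
    simp only [hn, hT, sum_apply, ContinuousLinearMap.smulRight_apply]
    exact hasSum_sum fun j _ => (hs (j :: w) _).const_smul _
  have hDW : ∀ w, DW V w (G []) = G w := fun w => by
    induction w with
    | nil => rfl
    | cons i w ih =>
      show D V i (DW V w (G [])) = _
      rw [ih, hD]
  have hsm : ∀ k : ℕ, ∀ w x₀, ContDiffOn ℝ k (G w ∘ ich x₀) (tgt x₀) := by
    intro k
    induction k with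
    | zero =>
      intro w x₀
      exact contDiffOn_zero.2 fun y hy => (hder x₀ w y hy).continuousAt.continuousWithinAt
    | succ k ih =>
      intro w x₀
      push_cast
      rw [contDiffOn_succ_iff_fderiv_of_isOpen (isOpen_tgt x₀)]
      refine ⟨fun y hy => (hder x₀ w y hy).differentiableAt.differentiableWithinAt,
        fun h => absurd h (by simp), ?_⟩
      refine (ContDiffOn.sum fun i _ => ?_).congr fun y hy => (hder x₀ w y hy).fderiv
      exact (contDiffOn_infty.1 (contDiffOn_coef hV hS x₀ i) k).smulRight (ih (i :: w) x₀)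
  refine ⟨contMDiff_of_ich fun x₀ => contDiffOn_infty.2 fun k => hsm k [] x₀, fun w x => ?_⟩
  have := hs w x
  rwa [← hDW] at this

/-- A series of smooth maps with eventually summable frame derivatives is smooth and is
differentiated term by term. -/
theorem tsum_smooth [CompactSpace M] (hV : FrameSmooth V) (hS : FrameSpans V) {f : ℕ → M → E}
    (hf : ∀ n, ContMDiff (𝓡 2) 𝓘(ℝ, E) ∞ (f n)) {u : List (Fin N) → ℕ → ℝ}
    (hu : ∀ w, Summable (u w)) (hfu : ∀ w, ∀ᶠ n in atTop, ∀ x, ‖DW V w (f n) x‖ ≤ u w n) :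
    ContMDiff (𝓡 2) 𝓘(ℝ, E) ∞ (fun x => ∑' n, f n x) ∧
      ∀ w x, HasSum (fun n => DW V w (f n) x) (DW V w (fun x => ∑' n, f n x) x) := by
  choose C hC using fun (w : List (Fin N)) n => exists_DW_bound hV (hf n) w
  choose n₀ hn₀ using fun w => eventually_atTop.1 (hfu w)
  refine tsum_smooth_aux hV hS hf (u := fun w n => if n < n₀ w then C w n else u w n) (fun w => ?_)
    fun w n x => ?_
  · refine (summable_congr_cofinite ?_).2 (hu w)
    rw [Nat.cofinite_eq_atTop]
    exact eventually_atTop.2 ⟨n₀ w, fun n hn => if_neg (by omega)⟩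
  · split_ifs with h
    · exact hC w n x
    · exact hn₀ w n (by omega) x

/-- A sequence of smooth maps whose consecutive differences have eventually summable frame
derivatives converges with all frame derivatives to a smooth map. -/
theorem exists_limit [CompactSpace M] (hV : FrameSmooth V) (hS : FrameSpans V) {F : ℕ → M → E}
    (hF : ∀ n, ContMDiff (𝓡 2) 𝓘(ℝ, E) ∞ (F n)) {u : List (Fin N) → ℕ → ℝ}
    (hu : ∀ w, Summable (u w))
    (hFu : ∀ w, ∀ᶠ n in atTop, ∀ x, ‖DW V w (fun y => F (n + 1) y - F n y) x‖ ≤ u w n) :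
    ∃ G : M → E, ContMDiff (𝓡 2) 𝓘(ℝ, E) ∞ G ∧
      ∀ w x, Tendsto (fun n => DW V w (F n) x) atTop (𝓝 (DW V w G x)) := by
  set f : ℕ → M → E := fun n y => F (n + 1) y - F n y with hf
  obtain ⟨hs, hsum⟩ := tsum_smooth hV hS (f := f) (fun n => (hF (n + 1)).sub (hF n)) hu hFu
  set S : M → E := fun x => ∑' n, f n x
  have hG : ContMDiff (𝓡 2) 𝓘(ℝ, E) ∞ (fun x => F 0 x + S x) := (hF 0).add hs
  refine ⟨_, hG, fun w x => ?_⟩
  have h := ((hsum w x).tendsto_sum_nat).const_add (DW V w (F 0) x)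
  have h0 : DW V w S x = DW V w (fun x => F 0 x + S x) x - DW V w (F 0) x := by
    conv_lhs => rw [show S = fun x => (F 0 x + S x) - F 0 x from funext fun x => by abel]
    exact congrFun (DW_sub hV hG (hF 0) w) x
  rw [h0, add_sub_cancel] at h
  refine h.congr fun n => ?_
  simp only [hf, fun m : ℕ => congrFun (DW_sub hV (hF (m + 1)) (hF m) w) x]
  rw [Finset.sum_range_sub (fun m => DW V w (F m) x), add_sub_cancel]

/-- The limit theorem in the form used by the iteration: summable `Bd` bounds of every order. -/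
theorem exists_smooth_limit [T2Space M] [CompactSpace M] (V : Frame M N) (hV : FrameSmooth V)
    (hs : FrameSpans V) (F : ℕ → M → E) (hF : ∀ n, ContMDiff (𝓡 2) 𝓘(ℝ, E) ∞ (F n))
    (h : ∀ q : ℕ, ∃ (n₀ : ℕ) (b : ℕ → ℝ), Summable b ∧
      ∀ n ≥ n₀, Bd V q (b n) (fun _ => 1) (fun x => F (n + 1) x - F n x)) :
    ∃ G : M → E, ContMDiff (𝓡 2) 𝓘(ℝ, E) ∞ G ∧
      ∀ (w : List (Fin N)) (x : M),
        Tendsto (fun n => DW V w (F n) x) atTop (𝓝 (DW V w G x)) := by
  choose n₀ b hb hB using h
  refine exists_limit hV hs hF (u := fun w => b w.length) (fun w => hb _) fun w => ?_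
  filter_upwards [eventually_ge_atTop (n₀ w.length)] with n hn x
  simpa using hB w.length n hn w le_rfl x (mem_univ x)

/-- A smooth map whose pull-back metric agrees with `g` on a spanning frame is an isometric
immersion. -/
theorem isIsometricImmersion_of_pullV {g : Metric M} (hS : FrameSpans V) {F : M → R4}
    (hF : ContMDiff (𝓡 2) 𝓘(ℝ, R4) ∞ F) (h : ∀ i k x, pullV F V i k x = gV g V i k x) :
    IsIsometricImmersion g F := by
  refine ⟨hF, fun x v w => ?_⟩
  set T : TangentSpace (𝓡 2) x →L[ℝ] R4 := mfderiv (𝓡 2) 𝓘(ℝ, R4) F x with hT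
  show ⟪T v, T w⟫ = g.inner x v w
  have hv : v ∈ Submodule.span ℝ (range fun i => V i x) := by rw [hS x]; trivial
  have hw : w ∈ Submodule.span ℝ (range fun i => V i x) := by rw [hS x]; trivial
  induction hv, hw using Submodule.span_induction₂ with
  | mem_mem a b ha hb =>
    obtain ⟨i, rfl⟩ := ha
    obtain ⟨k, rfl⟩ := hb
    exact h i k x
  | zero_left => simp
  | zero_right => simp
  | add_left a b c _ _ _ h1 h2 => simp [inner_add_left, h1, h2]
  | add_right a b c _ _ _ h1 h2 => simp [inner_add_right, h1, h2]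
  | smul_left r a b _ _ h1 => simp [real_inner_smul_left, h1]
  | smul_right r a b _ _ h1 => simp [real_inner_smul_right, h1]

end Vale.Agent.P205.Full.Open
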