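import Vale.Agent.P205.Full.Stmts
import Vale.Agent.P205.Full.Stage.Calculus
import Vale.Agent.P205.Full.Stage.Plane
import Vale.Agent.P205.Full.Open.Limit

/-!
# P205 full, OPEN: openness of the set of immersible metrics

From quantitative openness with constants uniform near a metric: if a metric has an isometric
immersion in `R4` whose second fundamental form vanishes nowhere, so have all metrics close to it
in some `C^J`.
-/

open scoped Manifold ContDiff RealInnerProductSpace
open Bundle Filter Topology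

namespace Vale.Agent.P205.Full.Open

noncomputable section

/-- Quantitative openness with constants uniform near `g₀`. -/
def OpennessUniformProp : Prop :=
  ∀ (M : Type) [TopologicalSpace M] [T2Space M] [CompactSpace M] [ChartedSpace R2 M]
    [IsManifold (𝓡 2) ∞ M] (g₀ : Metric M) (N : ℕ) (V : Frame M N),
    FrameSmooth V → FrameSpans V →
    ∃ (J e : ℕ) (A₀ ρ : ℝ), 0 < ρ ∧ ∀ g : Metric M,
      (∀ i k, Bd V J ρ (fun _ => 1) (fun x => gV g V i k x - gV g₀ V i k x)) →
      ∀ A : ℝ, A₀ ≤ A → ∀ F : M → R4,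
      ContMDiff (𝓡 2) 𝓘(ℝ, R4) ∞ F → Bd V J A (fun _ => 1) F →
      (∀ x, 1 ≤ A * sffSize F V x) →
      (∀ i k, Bd V J (A ^ e)⁻¹ (fun _ => 1) (fun x => gV g V i k x - pullV F V i k x)) →
      ∃ F', IsIsometricImmersion g F'

variable {M : Type} [TopologicalSpace M] [ChartedSpace R2 M] [IsManifold (𝓡 2) ∞ M]
variable {N : ℕ} {V : Frame M N}

lemma injective_of_isometric {g : Metric M} {F : M → R4} (hF : IsIsometricImmersion g F) (x : M) :
    Function.Injective (mfderiv (𝓡 2) 𝓘(ℝ, R4) F x) := by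
  refine (injective_iff_map_eq_zero _).2 fun v hv => ?_
  by_contra hne
  have h := hF.2 x v v
  have h0 := g.pos x v hne
  rw [hv] at h
  have h1 : (0 : ℝ) = g.inner x v v := (inner_zero_left _).symm.trans h
  exact h0.ne h1

lemma continuous_sff (hV : FrameSmooth V) (hs : FrameSpans V) {F : M → R4}
    (hF : ContMDiff (𝓡 2) 𝓘(ℝ, R4) ∞ F)
    (hinj : ∀ x, Function.Injective (mfderiv (𝓡 2) 𝓘(ℝ, R4) F x)) (i k : Fin N) :
    Continuous (sff F V i k) := by
  have hd : ∀ l, Continuous (D V l F) := fun l => (Full.contMDiff_D hV l hF).continuous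
  have hdd : Continuous (D V i (D V k F)) :=
    (Full.contMDiff_D hV i (Full.contMDiff_D hV k hF)).continuous
  have ho : Continuous fun x => Plane.outer fun l => D V l F x := by
    refine continuous_matrix fun p q => ?_
    show Continuous fun x => ∑ l, D V l F x p * D V l F x q
    refine continuous_finsetSum _ fun l _ => ?_
    exact ((PiLp.continuous_apply 2 (fun _ => ℝ) p).comp (hd l)).mul
      ((PiLp.continuous_apply 2 (fun _ => ℝ) q).comp (hd l))
  have htr : Continuous fun x => Plane.tr2 (Plane.outer fun l => D V l F x) := by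
    unfold Plane.tr2
    exact ((ho.matrix_trace.pow 2).sub (ho.matrix_mul ho).matrix_trace).div_const 2
  have hp : Continuous fun x => Plane.proj (Plane.outer fun l => D V l F x) := by
    unfold Plane.proj
    exact (htr.inv₀ fun x => (Plane.normal_projection V hs F x (hinj x) 0).1).smul
      ((ho.matrix_trace.smul ho).sub (ho.matrix_mul ho))
  have he : sff F V i k = fun x => WithLp.toLp 2
      (((1 : Matrix (Fin 4) (Fin 4) ℝ) - Plane.proj (Plane.outer fun l => D V l F x)).mulVec
        (D V i (D V k F) x).ofLp) := by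
    funext x
    rw [(Plane.normal_projection V hs F x (hinj x) _).2]
    rfl
  rw [he]
  exact (PiLp.continuous_toLp 2 _).comp
    ((continuous_const.sub hp).matrix_mulVec ((PiLp.continuous_ofLp 2 _).comp hdd))

lemma exists_sff_lower [CompactSpace M] (hV : FrameSmooth V) (hs : FrameSpans V) {F : M → R4}
    (hF : ContMDiff (𝓡 2) 𝓘(ℝ, R4) ∞ F)
    (hinj : ∀ x, Function.Injective (mfderiv (𝓡 2) 𝓘(ℝ, R4) F x))
    (hne : ∀ x, ∃ i k, sff F V i k x ≠ 0) :
    ∃ A : ℝ, 0 < A ∧ ∀ x, 1 ≤ A * sffSize F V x := by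
  have hc : Continuous (sffSize F V) :=
    continuous_finsetSum _ fun i _ => continuous_finsetSum _ fun k _ =>
      (continuous_sff hV hs hF hinj i k).norm
  have hpos : ∀ x, 0 < sffSize F V x := fun x => by
    obtain ⟨i, k, h⟩ := hne x
    refine Finset.sum_pos' (fun a _ => Finset.sum_nonneg fun b _ => norm_nonneg _)
      ⟨i, Finset.mem_univ i, ?_⟩
    exact Finset.sum_pos' (fun b _ => norm_nonneg _) ⟨k, Finset.mem_univ k, norm_pos_iff.2 h⟩
  rcases isEmpty_or_nonempty M with hM | hM
  · exact ⟨1, one_pos, fun x => isEmptyElim x⟩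
  obtain ⟨x₀, -, hx₀⟩ := isCompact_univ.exists_isMinOn Set.univ_nonempty hc.continuousOn
  refine ⟨(sffSize F V x₀)⁻¹, inv_pos.2 (hpos x₀), fun x => ?_⟩
  rw [← div_eq_inv_mul, one_le_div (hpos x₀)]
  exact hx₀ (Set.mem_univ x)

/-- Openness of isometric immersibility at metrics with a nowhere totally geodesic immersion. -/
theorem openness_of (hU : OpennessUniformProp) [T2Space M] [CompactSpace M] (g₀ : Metric M)
    (hV : FrameSmooth V) (hs : FrameSpans V) {F₀ : M → R4} (hF₀ : IsIsometricImmersion g₀ F₀)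
    (hne : ∀ x, ∃ i k, sff F₀ V i k x ≠ 0) :
    ∃ (J : ℕ) (δ : ℝ), 0 < δ ∧ ∀ g : Metric M,
      (∀ i k, Bd V J δ (fun _ => 1) (fun x => gV g V i k x - gV g₀ V i k x)) →
      ∃ F, IsIsometricImmersion g F := by
  obtain ⟨J, e, A₀, ρ, hρ, h⟩ := hU M g₀ N V hV hs
  obtain ⟨A₁, hA₁0, hA₁⟩ :=
    exists_sff_lower hV hs hF₀.1 (injective_of_isometric hF₀) hne
  obtain ⟨C, hC0, hC⟩ := exists_bd_of_contMDiff hV J hF₀.1
  set A := max (max A₀ A₁) C + 1 with hA
  have hA0 : A₀ ≤ A := by linarith [le_max_left A₀ A₁, le_max_left (max A₀ A₁) C]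
  have hA1 : A₁ ≤ A := by linarith [le_max_right A₀ A₁, le_max_left (max A₀ A₁) C]
  have hAC : C ≤ A := by linarith [le_max_right (max A₀ A₁) C]
  have hApos : 0 < A := hA₁0.trans_le hA1
  refine ⟨J, min ρ (A ^ e)⁻¹, lt_min hρ (by positivity), fun g hg => ?_⟩
  refine h g (fun i k => (hg i k).mono_const (min_le_left _ _) fun x _ => zero_le_one) A hA0 F₀
    hF₀.1 (hC.mono_const hAC fun x _ => zero_le_one) (fun x => ?_) fun i k => ?_
  · refine (hA₁ x).trans (mul_le_mul_of_nonneg_right hA1 ?_)
    exact Finset.sum_nonneg fun a _ => Finset.sum_nonneg fun b _ => norm_nonneg _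
  · have he : pullV F₀ V i k = gV g₀ V i k := funext fun x => hF₀.2 x (V i x) (V k x)
    rw [he]
    exact (hg i k).mono_const (min_le_right _ _) fun x _ => zero_le_one

end

end Vale.Agent.P205.Full.Open
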