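import Vale.Agent.P205.Full.Open.RoundDefs
import Vale.Agent.P205.Full.Open.Corollary

/-!
# Module OPEN: quantitative openness with constants uniform near a metric

The fixed data are stable under small changes of the metric and the schedule needs a bound of the
metric to a fixed order only.
-/

open scoped Manifold ContDiff RealInnerProductSpace
open Bundle

namespace Vale.Agent.P205.Full.Open

/-- The fixed data exist uniformly near a metric. -/
def CtxStableProp : Prop :=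
  ∀ (M : Type) [TopologicalSpace M] [T2Space M] [CompactSpace M] [ChartedSpace R2 M]
    [IsManifold (𝓡 2) ∞ M] (g : Metric M) (N : ℕ) (V : Frame M N), FrameSmooth V → FrameSpans V →
    ∃ (P : ℕ) (y : Fin P → M → ℝ) (CF ρ : ℝ) (S : Set (Fin N → R4)) (η : ℝ), IsCompact S ∧
      S ⊆ {a | (∑ i, (⟪a i, a i⟫ : ℝ)) ^ 2 ≠ ∑ i, ∑ k, (⟪a i, a k⟫ : ℝ) * ⟪a k, a i⟫} ∧
      0 < ρ ∧ 0 < η ∧
      ∀ g' : Metric M, (∀ i k x, |gV g' V i k x - gV g V i k x| ≤ η) → Ctx g' V y CF ρ S

/-- The iteration for one metric, with thresholds from finitely many norms of the metric. -/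
def IterationProp : Prop :=
  ∀ (M : Type) [TopologicalSpace M] [T2Space M] [CompactSpace M] [ChartedSpace R2 M]
    [IsManifold (𝓡 2) ∞ M] (N P : ℕ) (V : Frame M N) (y : Fin P → M → ℝ) (CF ρ : ℝ)
    (S : Set (Fin N → R4)), IsCompact S →
    S ⊆ {a | (∑ i, (⟪a i, a i⟫ : ℝ)) ^ 2 ≠ ∑ i, ∑ k, (⟪a i, a k⟫ : ℝ) * ⟪a k, a i⟫} →
    0 < ρ →
    ∃ K₀ : ℕ, ∀ Bg : ℝ, ∃ A₀ : ℝ, ∀ g : Metric M, Ctx g V y CF ρ S →
      (∀ i k, Bd V K₀ Bg (fun _ => 1) (gV g V i k)) →
      ∀ A : ℝ, A₀ ≤ A → ∀ F₀ : M → R4, Base g V A F₀ → ∃ F, IsIsometricImmersion g F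

/-- Uniform quantitative openness from stable data and the iteration. -/
theorem opennessUniform_of (hC : CtxStableProp) (hI : IterationProp) : OpennessUniformProp := by
  intro M _ _ _ _ _ g₀ N V hV hs
  obtain ⟨P, y, CF, ρ, S, η, hS, hdet, hρ, hη, hctx⟩ := hC M g₀ N V hV hs
  obtain ⟨K₀, hK⟩ := hI M N P V y CF ρ S hS hdet hρ
  choose C hC0 hCb using fun p : Fin N × Fin N =>
    exists_bd_of_contMDiff hV K₀ (contMDiff_gV g₀ hV p.1 p.2)
  obtain ⟨A₀, hA⟩ := hK (∑ p, C p + 1)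
  refine ⟨max 108 K₀, 264, A₀, min η 1, lt_min hη one_pos, fun g hg A hA₀ F hF hb hsff hr => ?_⟩
  refine hA g (hctx g fun i k x => ?_) (fun i k => ?_) A hA₀ F
    ⟨hF, hb.mono_order (le_max_left _ _), hsff, fun i k => (hr i k).mono_order (le_max_left _ _)⟩
  · have h := (hg i k).norm_le (Set.mem_univ x)
    rw [mul_one, Real.norm_eq_abs] at h
    exact h.trans (min_le_left _ _)
  · have h := BdOn.add hV (fun x _ => (contMDiff_gV g₀ hV i k x))
      (fun x _ => (contMDiff_gV g hV i k x).sub (contMDiff_gV g₀ hV i k x)) (hCb (i, k))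
      ((hg i k).mono_order (le_max_right _ _))
    have he : (fun x => gV g₀ V i k x + (gV g V i k x - gV g₀ V i k x)) = gV g V i k :=
      funext fun x => add_sub_cancel _ _
    rw [he] at h
    refine h.mono_const (add_le_add ?_ (min_le_right _ _)) fun x _ => zero_le_one
    exact Finset.single_le_sum (fun p _ => hC0 p) (Finset.mem_univ (i, k))

end Vale.Agent.P205.Full.Open
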