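import Vale.Agent.P205.Full.Open.RoundDefs
import Vale.Agent.P205.Full.Open.Compare
import Vale.Agent.P205.Full.Open.Sff
import Vale.Agent.P205.Full.Open.Uniform

/-!
# Module OPEN: the fixed data of the iteration, stable under small changes of the metric
-/

open scoped Manifold ContDiff RealInnerProductSpace
open Bundle

namespace Vale.Agent.P205.Full.Open

variable {M : Type} [TopologicalSpace M] [ChartedSpace R2 M] [IsManifold (𝓡 2) ∞ M]
variable {N : ℕ}

/-- Every tangent vector is a combination of the frame with controlled coefficients. -/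
theorem exists_coeff {g : Metric M} {V : Frame M N} {C : ℝ} (hC : 0 ≤ C)
    (h : ∀ x (v : TangentSpace (𝓡 2) x), g.inner x v v ≤ C * ∑ i, (g.inner x (V i x) v) ^ 2)
    (x : M) (v : TangentSpace (𝓡 2) x) :
    ∃ c : Fin N → ℝ, ∑ i, c i • V i x = v ∧ ∑ i, c i ^ 2 ≤ C * g.inner x v v := by
  let S : TangentSpace (𝓡 2) x →ₗ[ℝ] TangentSpace (𝓡 2) x :=
    { toFun := fun w => ∑ i, g.inner x (V i x) w • V i x
      map_add' := fun a b => by simp [add_smul, Finset.sum_add_distrib]
      map_smul' := fun a b => by simp [Finset.smul_sum, smul_smul] }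
  have hSv : ∀ w u, g.inner x (S w) u = ∑ i, g.inner x (V i x) w * g.inner x (V i x) u := by
    intro w u
    simp [S, map_sum, sum_apply]
  have hinj : Function.Injective S := by
    refine (injective_iff_map_eq_zero _).2 fun w hw => ?_
    by_contra hne
    have h1 := h x w
    have h2 : ∑ i, (g.inner x (V i x) w) ^ 2 = 0 := by
      simpa [hw, sq] using (hSv w w).symm
    rw [h2, mul_zero] at h1
    exact absurd (g.pos x w hne) (not_lt.2 h1)
  obtain ⟨w, hw⟩ := (LinearMap.injective_iff_surjective (f := S)).1 hinj v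
  refine ⟨fun i => g.inner x (V i x) w, hw, ?_⟩
  set s := ∑ i, (g.inner x (V i x) w) ^ 2 with hs
  have e1 : s = g.inner x v w := by
    rw [← hw, hSv]
    exact Finset.sum_congr rfl fun i _ => sq _
  have e2 : s ^ 2 ≤ g.inner x v v * (C * s) := by
    calc s ^ 2 = (g.inner x v w) ^ 2 := by rw [e1]
      _ ≤ g.inner x v v * g.inner x w w := inner_sq_le g x v w
      _ ≤ _ := mul_le_mul_of_nonneg_left (h x w) (inner_self_nonneg' g x v)
  rcases (Finset.sum_nonneg fun i _ => sq_nonneg (g.inner x (V i x) w) : (0 : ℝ) ≤ s).eq_or_lt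
    with h0 | h0
  · exact h0.symm.le.trans (mul_nonneg hC (inner_self_nonneg' g x v))
  · exact le_of_mul_le_mul_right (by linarith [sq s]) h0

/-- Metrics with close frame components are close as forms. -/
theorem inner_near {g g₂ : Metric M} {V : Frame M N} {C η : ℝ} (hC : 0 ≤ C)
    (h : ∀ x (v : TangentSpace (𝓡 2) x), g.inner x v v ≤ C * ∑ i, (g.inner x (V i x) v) ^ 2)
    (x : M) (hη : ∀ i k, |gV g₂ V i k x - gV g V i k x| ≤ η) (hη0 : 0 ≤ η)
    (v w : TangentSpace (𝓡 2) x) :
    |g₂.inner x v w - g.inner x v w| ≤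
      η * (N * C) * (Real.sqrt (g.inner x v v) * Real.sqrt (g.inner x w w)) := by
  obtain ⟨a, ha, ha2⟩ := exists_coeff hC h x v
  obtain ⟨b, hb, hb2⟩ := exists_coeff hC h x w
  have key : ∀ (u : TangentSpace (𝓡 2) x) (c : Fin N → ℝ), ∑ i, c i ^ 2 ≤ C * g.inner x u u →
      ∑ i, |c i| ≤ Real.sqrt (N * C) * Real.sqrt (g.inner x u u) := by
    intro u c hc
    rw [← Real.sqrt_mul (mul_nonneg (Nat.cast_nonneg N) hC)]
    refine Real.le_sqrt_of_sq_le ?_
    calc (∑ i, |c i|) ^ 2
        ≤ (Finset.univ : Finset (Fin N)).card * ∑ i, |c i| ^ 2 := sq_sum_le_card_mul_sum_sq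
      _ ≤ N * (C * g.inner x u u) := by
          simp only [sq_abs, Finset.card_univ, Fintype.card_fin]
          exact mul_le_mul_of_nonneg_left hc (Nat.cast_nonneg N)
      _ = _ := by ring
  have hexp : g₂.inner x v w - g.inner x v w =
      ∑ i, ∑ k, a i * b k * (gV g₂ V i k x - gV g V i k x) := by
    rw [← ha, ← hb]
    simp only [gV, map_sum, map_smul, sum_apply, smul_apply, smul_eq_mul, mul_sub,
      Finset.sum_sub_distrib, Finset.mul_sum]
    congr 1 <;> rw [Finset.sum_comm] <;>
      exact Finset.sum_congr rfl fun i _ => Finset.sum_congr rfl fun k _ => by ring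
  rw [hexp]
  refine (Finset.abs_sum_le_sum_abs _ _).trans ?_
  calc ∑ i, |∑ k, a i * b k * (gV g₂ V i k x - gV g V i k x)|
      ≤ ∑ i, ∑ k, |a i| * |b k| * η := Finset.sum_le_sum fun i _ =>
        (Finset.abs_sum_le_sum_abs _ _).trans <| Finset.sum_le_sum fun k _ => by
          rw [abs_mul, abs_mul]
          exact mul_le_mul_of_nonneg_left (hη i k) (by positivity)
    _ = η * ((∑ i, |a i|) * ∑ k, |b k|) := by
        rw [Finset.sum_mul_sum, Finset.mul_sum]
        simp only [Finset.mul_sum]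
        exact Finset.sum_congr rfl fun i _ => Finset.sum_congr rfl fun k _ => by ring
    _ ≤ η * ((Real.sqrt (N * C) * Real.sqrt (g.inner x v v)) *
          (Real.sqrt (N * C) * Real.sqrt (g.inner x w w))) :=
        mul_le_mul_of_nonneg_left (mul_le_mul (key v a ha2) (key w b hb2)
          (Finset.sum_nonneg fun k _ => abs_nonneg _) (by positivity)) hη0
    _ = _ := by
        linear_combination
          η * Real.sqrt (g.inner x v v) * Real.sqrt (g.inner x w w) *
            Real.mul_self_sqrt (mul_nonneg (Nat.cast_nonneg N) hC)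

/-- The fixed data exist, with the same values for all metrics near `g`. -/
theorem exists_ctx_near [T2Space M] [CompactSpace M] (g : Metric M) (V : Frame M N)
    (hV : FrameSmooth V) (hs : FrameSpans V) :
    ∃ (P : ℕ) (y : Fin P → M → ℝ) (CF ρ : ℝ) (S : Set (Fin N → R4)), IsCompact S ∧
      S ⊆ {a | (∑ i, (⟪a i, a i⟫ : ℝ)) ^ 2 ≠ ∑ i, ∑ k, (⟪a i, a k⟫ : ℝ) * ⟪a k, a i⟫} ∧
      0 < ρ ∧ ∃ η : ℝ, 0 < η ∧ ∀ g₂ : Metric M,
        (∀ i k x, |gV g₂ V i k x - gV g V i k x| ≤ η) → Ctx g₂ V y CF ρ S := by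
  obtain ⟨C, hC, hlow⟩ := exists_frame_lower g V hV hs
  obtain ⟨ρ, hρ, S, hS, hSsub, hjet⟩ := exists_jetSet g V hV hs
  obtain ⟨P, y, hy, hrich⟩ := exists_phases_tol g V hV hs (show (0 : ℝ) < 1 / 400 by norm_num)
  choose Mg hMg using fun i : Fin N => isCompact_univ.exists_bound_of_continuousOn
    (contMDiff_gV g V hV i i).continuous.continuousOn
  set η := min (min (ρ / 2) 1) (1 / (1000 * (N * C + 1))) with hηdef
  have hden : (0 : ℝ) < 1000 * (N * C + 1) := by positivity
  have hη : 0 < η := lt_min (lt_min (half_pos hρ) one_pos) (div_pos one_pos hden)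
  have hκ : η * (N * C) ≤ 1 / 1000 := by
    have h1 : η * (1000 * (N * C + 1)) ≤ 1 :=
      (le_div_iff₀ hden).1 (min_le_right _ _)
    nlinarith
  refine ⟨P, y, max (2 * C) (∑ i, |Mg i| + N), ρ / 2, S, hS, fun a ha h => hSsub ha ?_,
    half_pos hρ, η, hη, fun g₂ hg₂ => ?_⟩
  · show inv2 (gram a) = 0
    simp only [inv2, gram]
    rw [h, sub_self, zero_div]
  have hnear := fun x v w => inner_near hC.le hlow x (fun i k => hg₂ i k x) hη.le v w
  have hcmp : ∀ x (v : TangentSpace (𝓡 2) x),
      |g₂.inner x v v - g.inner x v v| ≤ 1 / 1000 * g.inner x v v := fun x v => by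
    refine (hnear x v v).trans ?_
    rw [Real.mul_self_sqrt (inner_self_nonneg' g x v)]
    exact mul_le_mul_of_nonneg_right hκ (inner_self_nonneg' g x v)
  refine ⟨hV, hs, hy, fun x v => ?_, fun x v => ?_, fun x u hu => ?_, fun F x hF => ?_⟩
  · obtain ⟨c, hc, hc2⟩ := exists_coeff hC.le hlow x v
    set T := ∑ i, (g₂.inner x (V i x) v) ^ 2
    have hT : 0 ≤ T := Finset.sum_nonneg fun i _ => sq_nonneg _
    have h1 : g₂.inner x v v = ∑ i, c i * g₂.inner x (V i x) v := by
      conv_lhs => rw [show g₂.inner x v = g₂.inner x (∑ i, c i • V i x) by rw [hc]]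
      simp [map_sum, sum_apply]
    have h2 := Finset.sum_mul_sq_le_sq_mul_sq Finset.univ c fun i => g₂.inner x (V i x) v
    rw [← h1] at h2
    have h4 : (g₂.inner x v v) ^ 2 ≤ C * g.inner x v v * T :=
      h2.trans (mul_le_mul_of_nonneg_right hc2 hT)
    have h5 : g.inner x v v ≤ 2 * g₂.inner x v v := by
      have := (abs_le.1 (hcmp x v)).1
      linarith [inner_self_nonneg' g x v]
    have h6 : (g₂.inner x v v) ^ 2 ≤ 2 * C * T * g₂.inner x v v :=
      h4.trans (by nlinarith [mul_le_mul_of_nonneg_left h5 (mul_nonneg hC.le hT)])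
    refine le_trans ?_ (mul_le_mul_of_nonneg_right (le_max_left _ _) hT)
    rcases (inner_self_nonneg' g₂ x v).eq_or_lt with h0 | h0
    · rw [← h0]; positivity
    · exact le_of_mul_le_mul_right (by linarith [sq (g₂.inner x v v)]) h0
  · calc ∑ i, (g₂.inner x (V i x) v) ^ 2
        ≤ ∑ i, g₂.inner x (V i x) (V i x) * g₂.inner x v v :=
          Finset.sum_le_sum fun i _ => inner_sq_le g₂ x _ _
      _ ≤ ∑ i, (|Mg i| + 1) * g₂.inner x v v := Finset.sum_le_sum fun i _ => by
          refine mul_le_mul_of_nonneg_right ?_ (inner_self_nonneg' g₂ x v)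
          have h1 := (abs_le.1 (hg₂ i i x)).2
          have h2 : |gV g V i i x| ≤ |Mg i| :=
            (hMg i x (Set.mem_univ x)).trans (le_abs_self _)
          have h3 : η ≤ 1 := (min_le_left _ _).trans (min_le_right _ _)
          simp only [gV] at h1 h2
          linarith [le_abs_self (g.inner x (V i x) (V i x))]
      _ ≤ max (2 * C) (∑ i, |Mg i| + N) * g₂.inner x v v := by
          rw [← Finset.sum_mul]
          refine mul_le_mul_of_nonneg_right ?_ (inner_self_nonneg' g₂ x v)
          simp [Finset.sum_add_distrib]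
  · set q := Real.sqrt (g.inner x u u) with hq
    have hb := abs_le.1 (hcmp x u)
    rw [hu] at hb
    have hguu : 0 < g.inner x u u := by
      nlinarith [inner_self_nonneg' g x u, hb.1, hb.2]
    have hq0 : 0 < q := Real.sqrt_pos.2 hguu
    have hq2 : q ^ 2 = g.inner x u u := Real.sq_sqrt hguu.le
    obtain ⟨p, hp⟩ := hrich x (q⁻¹ • u) (by
      simp only [map_smul, smul_apply, smul_eq_mul]
      rw [← hq2]; field_simp)
    refine ⟨p, fun v => ?_⟩
    set r := Real.sqrt (g.inner x v v) with hr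
    have e1 := hp v
    simp only [map_smul, smul_apply, smul_eq_mul] at e1
    have e2 : |g.inner x u v| ≤ q * r := by
      rw [hq, hr, ← Real.sqrt_mul hguu.le]
      exact Real.abs_le_sqrt (inner_sq_le g x u v)
    have hbq : |q - 1| ≤ 1 / 500 := by
      rw [abs_le]; constructor <;> nlinarith [hq2, hb.1, hb.2]
    have e3 : |q⁻¹ * g.inner x u v - g.inner x u v| ≤ 1 / 500 * r := by
      rw [show q⁻¹ * g.inner x u v - g.inner x u v = (1 - q) / q * g.inner x u v by field_simp,
        abs_mul, abs_div, abs_of_pos hq0, div_mul_eq_mul_div, div_le_iff₀ hq0, abs_sub_comm]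
      calc |q - 1| * |g.inner x u v| ≤ 1 / 500 * (q * r) :=
            mul_le_mul hbq e2 (abs_nonneg _) (by norm_num)
        _ = _ := by ring
    have e4 : |g.inner x u v - g₂.inner x u v| ≤ 1 / 500 * r := by
      rw [abs_sub_comm]
      refine (hnear x u v).trans ?_
      calc η * (N * C) * (q * r) ≤ 1 / 1000 * (2 * r) :=
            mul_le_mul hκ (mul_le_mul_of_nonneg_right (by linarith [(abs_le.1 hbq).2])
              (Real.sqrt_nonneg _)) (by positivity) (by norm_num)
        _ = _ := by ring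
    have e5 : r ≤ 3 / 2 * Real.sqrt (g₂.inner x v v) := by
      rw [show (3 / 2 : ℝ) = Real.sqrt (9 / 4) by
          rw [show (9 / 4 : ℝ) = (3 / 2) ^ 2 by norm_num, Real.sqrt_sq (by norm_num)],
        ← Real.sqrt_mul (by norm_num)]
      refine Real.sqrt_le_sqrt ?_
      linarith [(abs_le.1 (hcmp x v)).1, inner_self_nonneg' g x v]
    have := abs_sub_le (dR (y p) x v) (q⁻¹ * g.inner x u v) (g₂.inner x u v)
    have := abs_sub_le (q⁻¹ * g.inner x u v) (g.inner x u v) (g₂.inner x u v)
    linarith [Real.sqrt_nonneg (g.inner x v v)]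
  · refine hjet F x fun i k => ?_
    have h1 := hF i k
    have h2 := hg₂ i k x
    have h3 : η ≤ ρ / 2 := (min_le_left _ _).trans (min_le_left _ _)
    have h4 := abs_sub_le (gV g V i k x) (gV g₂ V i k x) (pullV F V i k x)
    rw [abs_sub_comm] at h2
    linarith

/-- The fixed data exist uniformly near a metric. -/
theorem ctxStable : CtxStableProp := by
  intro M _ _ _ _ _ g N V hV hs
  obtain ⟨P, y, CF, ρ, S, hS, hsub, hρ, η, hη, h⟩ := exists_ctx_near g V hV hs
  exact ⟨P, y, CF, ρ, S, η, hS, hsub, hρ, hη, h⟩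

/-- The fixed data exist. -/
theorem ctx : CtxProp := by
  intro M _ _ _ _ _ g N V hV hs
  obtain ⟨P, y, CF, ρ, S, hS, hsub, hρ, η, hη, h⟩ := exists_ctx_near g V hV hs
  exact ⟨P, y, CF, ρ, S, hS, hsub, hρ, h g fun i k x => by simpa using hη.le⟩

end Vale.Agent.P205.Full.Open
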