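import Vale.Agent.P205.Full.Open.Schedule
import Vale.Agent.P205.Full.Open.Uniform

/-!
# P205 full, O4 in the form consumed by uniform openness (helper9)
-/

namespace Vale.Agent.P205.Full.Open

/-- The iteration for one metric follows from the round. -/
theorem iteration_of (hR : RoundProp) : IterationProp :=
  exists_immersion_of_ctx hR

end Vale.Agent.P205.Full.Open
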