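import Vale.Agent.P205.Full.Open.RoundDefs
import Vale.Agent.P205.Full.Open.Limit
import Vale.Agent.P205.Full.Stage.Calculus

/-!
# P205 full, O4: the schedule of rounds (helper9)

Rounds are repeated with the scale `t` replaced by `t ^ 8`. The level goes up whenever the new
scale is below the threshold of the next level, so it tends to infinity; the increments of every
fixed order are then summable, and the limit is exactly isometric.
-/

open scoped Manifold ContDiff RealInnerProductSpace Topology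
open Bundle Filter

namespace Vale.Agent.P205.Full.Open

section

variable {M : Type} [TopologicalSpace M] [ChartedSpace R2 M] [IsManifold (𝓡 2) ∞ M]
variable {N : ℕ} {g : Metric M} {V : Frame M N} {F₀ F : M → R4} {A t : ℝ}

/-- The invariant is monotone in the level. -/
theorem State.mono {L L' : ℕ} (h : State g V F₀ A L' t F) (hL : L ≤ L') (ht : 0 < t)
    (ht1 : t ≤ 1) : State g V F₀ A L t F where
  smooth := h.smooth
  near := h.near
  res i k w hw x hx :=
    (h.res i k w (by omega) x hx).trans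
      (by simpa using pow_le_pow_of_le_one ht.le ht1 (by omega : 8 * L + 1 ≤ 8 * L' + 1))
  high q hq := h.high q (by omega)

/-- A start map satisfies the invariant at level `4` and scale `(A ^ 8)⁻¹`. -/
theorem Base.state (hV : FrameSmooth V) (hA : 1 ≤ A) (h : Base g V A F₀) :
    State g V F₀ A 4 (A ^ 8)⁻¹ F₀ where
  smooth := h.smooth
  near w _ x _ := by
    rw [DW_sub hV h.smooth h.smooth]
    simp
  res i k w hw x hx := by
    have := h.res i k w (by omega) x hx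
    rw [inv_pow, ← pow_mul]
    simpa using this
  high q hq w hw x hx := by
    refine (h.bd w (by omega) x hx).trans ?_
    simp only [mul_one, one_div, inv_inv, ← pow_mul]
    exact le_self_pow₀ hA (by positivity)

/-- Iteration of the rounds: the limit is an isometric immersion. -/
theorem exists_immersion_of_step [T2Space M] [CompactSpace M] (hV : FrameSmooth V)
    (hs : FrameSpans V) (θ : ℕ → ℝ) (hθ : ∀ L, 4 ≤ L → 0 < θ L ∧ θ L ≤ 1 / 2)
    (step : ∀ L, 4 ≤ L → ∀ t : ℝ, 0 < t → t ≤ θ L → t * A ^ 8 ≤ 1 → ∀ F : M → R4,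
      State g V F₀ A L t F → ∃ F' : M → R4, State g V F₀ A (L + 1) (t ^ 8) F' ∧
        ∀ q : ℕ, 2 * q ≤ L → Bd V q t (fun _ => 1) (fun x => F' x - F x))
    (hA : 1 ≤ A) (ht₀ : (A ^ 8)⁻¹ ≤ θ 4) (h₀ : Base g V A F₀) :
    ∃ F : M → R4, IsIsometricImmersion g F := by
  let P : ℕ × ℝ × (M → R4) → Prop := fun s =>
    4 ≤ s.1 ∧ 0 < s.2.1 ∧ s.2.1 ≤ θ s.1 ∧ s.2.1 * A ^ 8 ≤ 1 ∧ State g V F₀ A s.1 s.2.1 s.2.2
  have hA8 : 0 < A ^ 8 := pow_pos (lt_of_lt_of_le one_pos hA) 8
  have hnext : ∀ s : {s // P s}, ∃ s' : {s // P s}, s'.1.2.1 = s.1.2.1 ^ 8 ∧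
      s'.1.1 = (if s.1.2.1 ^ 8 ≤ θ (s.1.1 + 1) then s.1.1 + 1 else s.1.1) ∧
      ∀ q : ℕ, 2 * q ≤ s.1.1 → Bd V q s.1.2.1 (fun _ => 1) (fun x => s'.1.2.2 x - s.1.2.2 x) := by
    rintro ⟨⟨L, t, F⟩, hL, ht, htθ, htA, hst⟩
    dsimp only at hL ht htθ htA hst ⊢
    obtain ⟨F', hF', hinc⟩ := step L hL t ht htθ htA F hst
    have ht1 : t ≤ 1 := htθ.trans ((hθ L hL).2.trans (by norm_num))
    have ht8 : t ^ 8 ≤ t := pow_le_of_le_one ht.le ht1 (by norm_num)
    have htA' : t ^ 8 * A ^ 8 ≤ 1 := (mul_le_mul_of_nonneg_right ht8 hA8.le).trans htA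
    by_cases hup : t ^ 8 ≤ θ (L + 1)
    · exact ⟨⟨(L + 1, t ^ 8, F'), by omega, pow_pos ht 8, hup, htA', hF'⟩, rfl,
        by simp [hup], hinc⟩
    · exact ⟨⟨(L, t ^ 8, F'), hL, pow_pos ht 8, ht8.trans htθ, htA',
        hF'.mono (by omega) (pow_pos ht 8) (ht8.trans ht1)⟩, rfl, by simp [hup], hinc⟩
  choose next hnt hnL hninc using hnext
  let u : ℕ → {s // P s} := fun n => next^[n]
    ⟨(4, (A ^ 8)⁻¹, F₀), le_refl 4, inv_pos.mpr hA8, ht₀, (inv_mul_cancel₀ hA8.ne').le,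
      h₀.state hV hA⟩
  have hu : ∀ n, u (n + 1) = next (u n) := fun n => Function.iterate_succ_apply' _ _ _
  let L : ℕ → ℕ := fun n => (u n).1.1
  let τ : ℕ → ℝ := fun n => (u n).1.2.1
  let G : ℕ → M → R4 := fun n => (u n).1.2.2
  have hL4 : ∀ n, 4 ≤ L n := fun n => (u n).2.1
  have hτ0 : ∀ n, 0 < τ n := fun n => (u n).2.2.1
  have hτθ : ∀ n, τ n ≤ θ (L n) := fun n => (u n).2.2.2.1
  have hτs : ∀ n, τ (n + 1) = τ n ^ 8 := fun n => by
    change (u (n + 1)).1.2.1 = _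
    rw [hu, hnt]
  have hLs : ∀ n, L (n + 1) = if τ (n + 1) ≤ θ (L n + 1) then L n + 1 else L n := fun n => by
    change (u (n + 1)).1.1 = _
    rw [hu, hnL, hτs]
  have hτ2 : ∀ n, τ n ≤ 1 / 2 := fun n => (hτθ n).trans (hθ _ (hL4 n)).2
  have hτgeo : ∀ n, τ n ≤ (1 / 2) ^ n := by
    intro n
    induction n with
    | zero => exact (hτ2 0).trans (by norm_num)
    | succ n ih =>
      rw [hτs, pow_succ', pow_succ' (1 / 2 : ℝ)]
      have h7 : τ n ^ 7 ≤ τ n := pow_le_of_le_one (hτ0 n).le ((hτ2 n).trans (by norm_num))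
        (by norm_num)
      exact mul_le_mul (hτ2 n) (h7.trans ih) (by positivity [hτ0 n]) (by norm_num)
  have hsum : Summable τ :=
    Summable.of_nonneg_of_le (fun n => (hτ0 n).le) hτgeo
      (summable_geometric_of_lt_one (by norm_num) (by norm_num))
  have hτlim : Tendsto τ atTop (𝓝 0) := hsum.tendsto_atTop_zero
  have hmono : Monotone L := monotone_nat_of_le_succ fun n => by
    rw [hLs]
    split_ifs <;> omega
  have hLinf : ∀ l, ∃ n₀, ∀ n ≥ n₀, l ≤ L n := by
    intro l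
    induction l with
    | zero => exact ⟨0, fun n _ => Nat.zero_le _⟩
    | succ l ih =>
      obtain ⟨n₀, hn₀⟩ := ih
      by_contra hcon
      push Not at hcon
      have hconst : ∀ n ≥ n₀, L n = l := fun n hn => by
        obtain ⟨m, hm, hlm⟩ := hcon n
        have := hmono hm
        have := hn₀ n hn
        omega
      have hl : 4 ≤ l := hconst n₀ le_rfl ▸ hL4 n₀
      obtain ⟨n₁, hn₁⟩ := eventually_atTop.mp
        (hτlim.eventually (Iio_mem_nhds (hθ (l + 1) (by omega)).1))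
      have h := hLs (max n₀ n₁)
      rw [hconst _ (le_max_left _ _), hconst _ ((le_max_left _ _).trans (Nat.le_succ _)),
        if_pos (hn₁ _ ((le_max_right _ _).trans (Nat.le_succ _))).le] at h
      omega
  have hinc : ∀ q : ℕ, ∃ (n₀ : ℕ) (b : ℕ → ℝ), Summable b ∧
      ∀ n ≥ n₀, Bd V q (b n) (fun _ => 1) (fun x => G (n + 1) x - G n x) := fun q => by
    obtain ⟨n₀, hn₀⟩ := hLinf (2 * q)
    refine ⟨n₀, τ, hsum, fun n hn => ?_⟩
    have h := hninc (u n) q (hn₀ n hn)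
    rwa [← hu n] at h
  obtain ⟨Φ, hΦ, hlim⟩ := exists_smooth_limit V hV hs G (fun n => (u n).2.2.2.2.2.smooth) hinc
  refine ⟨Φ, isIsometricImmersion_of_pullV hs hΦ fun i k x => ?_⟩
  have h1 : Tendsto (fun n => pullV (G n) V i k x) atTop (𝓝 (pullV Φ V i k x)) :=
    (hlim [i] x).inner (hlim [k] x)
  have h2 : Tendsto (fun n => gV g V i k x - pullV (G n) V i k x) atTop (𝓝 0) := by
    refine squeeze_zero_norm (fun n => ?_) hτlim
    refine ((u n).2.2.2.2.2.res i k [] (by simp) x (Set.mem_univ x)).trans ?_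
    rw [mul_one]
    exact pow_le_of_le_one (hτ0 n).le ((hτ2 n).trans (by norm_num)) (by omega)
  have h3 := tendsto_nhds_unique h2 (h1.const_sub (gV g V i k x))
  linarith

end

/-- Export for one metric: the threshold depends on it only through `Ctx` and the bound `Bg` of
`K₀` orders. -/
theorem exists_immersion_of_ctx (hR : RoundProp) :
    ∀ (M : Type) [TopologicalSpace M] [T2Space M] [CompactSpace M] [ChartedSpace R2 M]
      [IsManifold (𝓡 2) ∞ M] (N P : ℕ) (V : Frame M N) (y : Fin P → M → ℝ) (CF ρ : ℝ)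
      (S : Set (Fin N → R4)), IsCompact S →
      S ⊆ {a | (∑ i, (⟪a i, a i⟫ : ℝ)) ^ 2 ≠ ∑ i, ∑ k, (⟪a i, a k⟫ : ℝ) * ⟪a k, a i⟫} →
      0 < ρ → ∃ K₀ : ℕ, ∀ Bg : ℝ, ∃ A₀ : ℝ, ∀ g : Metric M, Ctx g V y CF ρ S →
        (∀ i k, Bd V K₀ Bg (fun _ => 1) (gV g V i k)) →
        ∀ A : ℝ, A₀ ≤ A → ∀ F₀ : M → R4, Base g V A F₀ →
          ∃ F : M → R4, IsIsometricImmersion g F := by
  intro M _ _ _ _ _ N P V y CF ρ S hS hSd hρ
  obtain ⟨A₁, hA₁⟩ := hR M N P V y CF ρ S hS hSd hρ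
  choose K hK using hA₁
  choose θ hθ0 hθ2 hθ using hK
  refine ⟨K 4 le_rfl, fun Bg => ⟨max A₁ (max 2 (1 / θ 4 le_rfl Bg)),
    fun g hctx hgB A hA F₀ hbase => ?_⟩⟩
  -- bounds of the metric at the higher levels
  have hb : ∀ L : ℕ, ∀ hL : 4 ≤ L, ∃ B : ℝ,
      (∀ i k, Bd V (K L hL) B (fun _ => 1) (gV g V i k)) ∧ (L = 4 → B = Bg) := by
    intro L hL
    by_cases h4 : L = 4
    · subst h4
      exact ⟨Bg, hgB, fun _ => rfl⟩
    · choose C hC0 hC using fun p : Fin N × Fin N =>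
        exists_bd_of_contMDiff hctx.smooth_V (K L hL) (contMDiff_gV g hctx.smooth_V p.1 p.2)
      refine ⟨∑ p, C p, fun i k w hw x hx => (hC (i, k) w hw x hx).trans ?_, fun h => absurd h h4⟩
      simpa using Finset.single_le_sum (fun p _ => hC0 p) (Finset.mem_univ (i, k))
  choose B hB hB4 using hb
  let Θ : ℕ → ℝ := fun L => if hL : 4 ≤ L then θ L hL (B L hL) else 1 / 2
  have hA2 : 2 ≤ A := (le_max_left _ _).trans ((le_max_right _ _).trans hA)
  have h4pos := hθ0 4 le_rfl Bg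
  refine exists_immersion_of_step hctx.smooth_V hctx.spans Θ
    (fun L hL => by simpa only [Θ, dif_pos hL] using ⟨hθ0 L hL _, hθ2 L hL _⟩)
    (fun L hL t ht htθ htA F hst => ?_) (by linarith) ?_ hbase
  · simp only [Θ, dif_pos hL] at htθ
    exact hθ L hL (B L hL) g hctx (hB L hL) A F₀ ((le_max_left _ _).trans hA) (by linarith)
      hbase t ht htθ htA F hst
  · simp only [Θ, dif_pos (le_refl 4), hB4 4 le_rfl rfl]
    calc (A ^ 8)⁻¹ ≤ A⁻¹ := inv_anti₀ (by linarith) (le_self_pow₀ (by linarith) (by norm_num))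
      _ ≤ (1 / θ 4 le_rfl Bg)⁻¹ :=
          inv_anti₀ (by positivity) ((le_max_right _ _).trans ((le_max_right _ _).trans hA))
      _ = θ 4 le_rfl Bg := by rw [one_div, inv_inv]

/-- **O4.** Openness from the round and the existence of the fixed data. -/
theorem openness_of_round (hR : RoundProp) (hC : CtxProp) : OpennessProp := by
  intro M _ _ _ _ _ g N V hV hs
  obtain ⟨P, y, CF, ρ, S, hS, hSd, hρ, hctx⟩ := hC M g N V hV hs
  obtain ⟨K₀, hK₀⟩ := exists_immersion_of_ctx hR M N P V y CF ρ S hS hSd hρ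
  choose C hC0 hC' using fun p : Fin N × Fin N =>
    exists_bd_of_contMDiff hV K₀ (contMDiff_gV g hV p.1 p.2)
  obtain ⟨A₀, hA₀⟩ := hK₀ (∑ p, C p)
  refine ⟨108, 264, A₀, fun A hA F hF hbd hsff hres =>
    hA₀ g hctx (fun i k w hw x hx => (hC' (i, k) w hw x hx).trans ?_) A hA F
      ⟨hF, hbd, hsff, hres⟩⟩
  simpa using Finset.single_le_sum (fun p _ => hC0 p) (Finset.mem_univ (i, k))

end Vale.Agent.P205.Full.Open
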