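import Vale.Agent.P205.Full.Open.Round
import Vale.Agent.P205.Full.Open.Schedule
import Vale.Agent.P205.Full.Open.Context
import Vale.Agent.P205.Full.Open.Iteration
import Vale.Agent.P205.Full.Open.Corollary

/-!
# Module OPEN assembled: quantitative openness from the stage lemma
-/

namespace Vale.Agent.P205.Full.Open

/-- Quantitative openness. -/
theorem openness_of_stage (hSt : StageProp) : OpennessProp :=
  openness_of_round (round hSt) ctx

/-- Quantitative openness, uniform near a metric. -/
theorem opennessUniform_of_stage (hSt : StageProp) : OpennessUniformProp :=
  opennessUniform_of ctxStable (iteration_of (round hSt))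

end Vale.Agent.P205.Full.Open
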