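import Vale.Agent.P205.Full.Defs

/-!
# P205 full, O2 (part 1): frame derivatives in a chart

For a smooth spanning frame, chart derivatives and frame derivatives bound each other on
compact subsets of a chart.
-/

open scoped Manifold ContDiff RealInnerProductSpace Topology
open Bundle Set Filter

namespace Vale.Agent.P205.Full.Open

variable {M : Type} [TopologicalSpace M] [ChartedSpace R2 M] [IsManifold (𝓡 2) ∞ M]
variable {E : Type} [NormedAddCommGroup E] [NormedSpace ℝ E]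
variable {N : ℕ} {V : Frame M N}

/-- The inverse chart at `x₀`. -/
noncomputable abbrev ich (x₀ : M) : R2 → M := (extChartAt (𝓡 2) x₀).symm

/-- The open target of the chart at `x₀`. -/
abbrev tgt (x₀ : M) : Set R2 := (extChartAt (𝓡 2) x₀).target

lemma isOpen_tgt (x₀ : M) : IsOpen (tgt x₀) := isOpen_extChartAt_target x₀

lemma ich_mem {x₀ : M} {y : R2} (hy : y ∈ tgt x₀) : ich x₀ y ∈ (chartAt R2 x₀).source := by
  simpa only [extChartAt_source] using (extChartAt (𝓡 2) x₀).map_target hy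

lemma ich_left_inv {x₀ x : M} (hx : x ∈ (chartAt R2 x₀).source) :
    ich x₀ (extChartAt (𝓡 2) x₀ x) = x :=
  (extChartAt (𝓡 2) x₀).left_inv (by rwa [extChartAt_source])

/-- The vector field `V i` in the chart at `x₀`. -/
noncomputable def cvec (V : Frame M N) (x₀ : M) (i : Fin N) (y : R2) : R2 :=
  mfderiv (𝓡 2) 𝓘(ℝ, R2) (extChartAt (𝓡 2) x₀) (ich x₀ y) (V i (ich x₀ y))

lemma contDiffOn_cvec (hV : FrameSmooth V) (x₀ : M) (i : Fin N) :
    ContDiffOn ℝ ∞ (cvec V x₀ i) (tgt x₀) := by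
  set e := trivializationAt R2 (fun x : M => TangentSpace (𝓡 2) x) x₀ with he
  have h1 := (e.contMDiffOn_section_baseSet_iff (s := V i)).1 (hV i).contMDiffOn
  have h2 : ContMDiffOn (𝓡 2) 𝓘(ℝ, R2) ∞ (fun x =>
      (mfderiv (𝓡 2) 𝓘(ℝ, R2) (extChartAt (𝓡 2) x₀) x (V i x) : R2))
      (chartAt R2 x₀).source := by
    have hb : e.baseSet = (chartAt R2 x₀).source := by simp [he]
    rw [← hb]
    refine h1.congr fun x hx => ?_
    rw [← TangentBundle.continuousLinearMapAt_trivializationAt (hb ▸ hx)]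
    exact congrFun ((trivializationAt R2 (fun x : M => TangentSpace (𝓡 2) x) x₀).coe_linearMapAt_of_mem (R := ℝ) hx) (V i x)
  exact (contMDiffOn_iff_contDiffOn.1
    (h2.comp (contMDiffOn_extChartAt_symm x₀) fun y hy => ich_mem hy))

/-- A function is differentiated along `V i` by differentiating in the chart along `cvec`. -/
lemma D_ich {x₀ : M} {y : R2} (hy : y ∈ tgt x₀) {f : M → E}
    (hf : DifferentiableAt ℝ (f ∘ ich x₀) y) (i : Fin N) :
    D V i f (ich x₀ y) = fderiv ℝ (f ∘ ich x₀) y (cvec V x₀ i y) := by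
  have hx := ich_mem hy
  have h2 : extChartAt (𝓡 2) x₀ (ich x₀ y) = y := (extChartAt (𝓡 2) x₀).right_inv hy
  have h3 := hasMFDerivAt_extChartAt (I := 𝓡 2) hx
  have h4 : HasFDerivAt (f ∘ ich x₀) (fderiv ℝ (f ∘ ich x₀) y)
      (extChartAt (𝓡 2) x₀ (ich x₀ y)) := by
    rw [h2]; exact hf.hasFDerivAt
  have h5 := h4.hasMFDerivAt.comp (ich x₀ y) h3
  have h6 : f =ᶠ[𝓝 (ich x₀ y)] (f ∘ ich x₀) ∘ extChartAt (𝓡 2) x₀ :=
    eventuallyEq_of_mem ((chartAt R2 x₀).open_source.mem_nhds hx) fun z hz => by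
      simp only [Function.comp_apply]
      rw [ich_left_inv hz]
  unfold D
  rw [(h5.congr_of_eventuallyEq h6).mfderiv]
  simp only [cvec, h3.mfderiv]
  rfl

/-- Smooth functions read in a chart are smooth. -/
lemma contDiffOn_ich (x₀ : M) {f : M → E} (hf : ContMDiff (𝓡 2) 𝓘(ℝ, E) ∞ f) :
    ContDiffOn ℝ ∞ (f ∘ ich x₀) (tgt x₀) :=
  contMDiffOn_iff_contDiffOn.1 (hf.comp_contMDiffOn (contMDiffOn_extChartAt_symm x₀))

lemma differentiableAt_ich {x₀ : M} {y : R2} (hy : y ∈ tgt x₀) {f : M → E}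
    (hf : ContMDiff (𝓡 2) 𝓘(ℝ, E) ∞ f) : DifferentiableAt ℝ (f ∘ ich x₀) y :=
  ((contDiffOn_ich x₀ hf).contDiffAt ((isOpen_tgt x₀).mem_nhds hy)).differentiableAt (by simp)

/-- Smoothness is checked in the charts. -/
lemma contMDiff_of_ich {f : M → E} (h : ∀ x₀, ContDiffOn ℝ ∞ (f ∘ ich x₀) (tgt x₀)) :
    ContMDiff (𝓡 2) 𝓘(ℝ, E) ∞ f := by
  intro x
  have hs : (chartAt R2 x).source = (extChartAt (𝓡 2) x).source := (extChartAt_source _ _).symm
  have h1 : ContMDiffOn (𝓡 2) 𝓘(ℝ, E) ∞ ((f ∘ ich x) ∘ extChartAt (𝓡 2) x)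
      (chartAt R2 x).source :=
    (contMDiffOn_iff_contDiffOn.2 (h x)).comp contMDiffOn_extChartAt fun z hz =>
      (extChartAt (𝓡 2) x).map_source (hs ▸ hz)
  refine ((h1.congr fun z hz => ?_) x (mem_chart_source R2 x)).contMDiffAt
    ((chartAt R2 x).open_source.mem_nhds (mem_chart_source R2 x))
  simp only [Function.comp_apply]
  rw [ich_left_inv hz]

lemma contMDiff_D_ich (hV : FrameSmooth V) {f : M → E} (hf : ContMDiff (𝓡 2) 𝓘(ℝ, E) ∞ f)
    (i : Fin N) : ContMDiff (𝓡 2) 𝓘(ℝ, E) ∞ (D V i f) :=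
  contMDiff_of_ich fun x₀ =>
    (((contDiffOn_ich x₀ hf).fderiv_of_isOpen (isOpen_tgt x₀) (m := ∞) le_rfl).clm_apply
      (contDiffOn_cvec hV x₀ i)).congr fun _ hy => D_ich hy (differentiableAt_ich hy hf) i

lemma contMDiff_DW_ich (hV : FrameSmooth V) {f : M → E} (hf : ContMDiff (𝓡 2) 𝓘(ℝ, E) ∞ f) :
    ∀ w : List (Fin N), ContMDiff (𝓡 2) 𝓘(ℝ, E) ∞ (DW V w f)
  | [] => hf
  | i :: w => contMDiff_D_ich hV (contMDiff_DW_ich hV hf w) i

lemma DW_concat (w : List (Fin N)) (i : Fin N) (f : M → E) :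
    DW V (w ++ [i]) f = DW V w (D V i f) := by
  simp [DW, List.foldr_append]

/-! ## The dual coefficients -/

/-- The frame operator in the chart. -/
noncomputable def cop (V : Frame M N) (x₀ : M) (y : R2) : R2 →L[ℝ] R2 :=
  ∑ i, (innerSL ℝ (cvec V x₀ i y)).smulRight (cvec V x₀ i y)

/-- The dual covector of `cvec`. -/
noncomputable def coef (V : Frame M N) (x₀ : M) (i : Fin N) (y : R2) : R2 →L[ℝ] ℝ :=
  (innerSL ℝ (cvec V x₀ i y)).comp (cop V x₀ y).inverse

lemma span_cvec (hS : FrameSpans V) {x₀ : M} {y : R2} (hy : y ∈ tgt x₀) :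
    Submodule.span ℝ (range fun i => cvec V x₀ i y) = ⊤ := by
  have hi := isInvertible_mfderiv_extChartAt (I := 𝓡 2)
    (show ich x₀ y ∈ (extChartAt (𝓡 2) x₀).source from (extChartAt (𝓡 2) x₀).map_target hy)
  obtain ⟨L, hL⟩ := hi
  set T := mfderiv (𝓡 2) 𝓘(ℝ, R2) (extChartAt (𝓡 2) x₀) (ich x₀ y) with hT
  have hsur : Function.Surjective T := by rw [← hL]; exact L.surjective
  have h := congrArg (Submodule.map T.toLinearMap) (hS (ich x₀ y))
  rw [Submodule.map_span, Submodule.map_top, LinearMap.range_eq_top.2 hsur, ← range_comp] at h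
  exact h

lemma cop_invertible (hS : FrameSpans V) {x₀ : M} {y : R2} (hy : y ∈ tgt x₀) :
    (cop V x₀ y).IsInvertible := by
  have hinj : Function.Injective (cop V x₀ y).toLinearMap := by
    refine (injective_iff_map_eq_zero _).2 fun v hv => ?_
    have h0 : ∑ i, ⟪cvec V x₀ i y, v⟫ * ⟪cvec V x₀ i y, v⟫ = 0 := by
      have := congrArg (fun z => ⟪z, v⟫) (hv : cop V x₀ y v = 0)
      simpa [cop, sum_inner, real_inner_smul_left, innerSL_apply_apply] using this
    have h1 : ∀ i, ⟪cvec V x₀ i y, v⟫ = 0 := fun i =>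
      mul_self_eq_zero.1 ((Finset.sum_eq_zero_iff_of_nonneg
        fun j _ => mul_self_nonneg _).1 h0 i (Finset.mem_univ i))
    have h2 : Submodule.span ℝ (range fun i => cvec V x₀ i y) ≤
        LinearMap.ker (innerSL ℝ v).toLinearMap := by
      rw [Submodule.span_le]
      rintro _ ⟨i, rfl⟩
      simpa [real_inner_comm] using h1 i
    rw [span_cvec hS hy] at h2
    exact inner_self_eq_zero.1 (h2 (x := v) trivial)
  exact ⟨(LinearEquiv.ofInjectiveEndo _ hinj).toContinuousLinearEquiv, by ext v; rfl⟩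

lemma contDiffOn_coef (hV : FrameSmooth V) (hS : FrameSpans V) (x₀ : M) (i : Fin N) :
    ContDiffOn ℝ ∞ (coef V x₀ i) (tgt x₀) := by
  have hu : ∀ j, ContDiffOn ℝ ∞ (cvec V x₀ j) (tgt x₀) := contDiffOn_cvec hV x₀
  have hop : ContDiffOn ℝ ∞ (cop V x₀) (tgt x₀) := by
    unfold cop
    exact ContDiffOn.sum fun j _ =>
      ((innerSL ℝ).contDiff.comp_contDiffOn (hu j)).smulRight (hu j)
  have hinv : ContDiffOn ℝ ∞ (fun y => (cop V x₀ y).inverse) (tgt x₀) := fun y hy =>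
    (cop_invertible hS hy).contDiffAt_map_inverse.comp_contDiffWithinAt y (hop y hy)
  exact ((innerSL ℝ).contDiff.comp_contDiffOn (hu i)).clm_comp hinv

lemma sum_coef_smul (hS : FrameSpans V) {x₀ : M} {y : R2} (hy : y ∈ tgt x₀) (v : R2) :
    ∑ i, coef V x₀ i y v • cvec V x₀ i y = v := by
  have := (cop_invertible hS hy).self_apply_inverse v
  simpa [cop, coef] using this

/-- A linear map on `ℝ²` in terms of its values on the frame. -/
lemma eq_sum_coef (hS : FrameSpans V) {x₀ : M} {y : R2} (hy : y ∈ tgt x₀) (L : R2 →L[ℝ] E) :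
    L = ∑ i, (coef V x₀ i y).smulRight (L (cvec V x₀ i y)) := by
  ext v
  conv_lhs => rw [← sum_coef_smul hS hy v]
  simp

lemma fderiv_ich (hS : FrameSpans V) {x₀ : M} {y : R2} (hy : y ∈ tgt x₀) {f : M → E}
    (hf : DifferentiableAt ℝ (f ∘ ich x₀) y) :
    fderiv ℝ (f ∘ ich x₀) y = ∑ i, (coef V x₀ i y).smulRight (D V i f (ich x₀ y)) := by
  conv_lhs => rw [eq_sum_coef hS hy (fderiv ℝ (f ∘ ich x₀) y)]
  simp [D_ich hy hf]

/-! ## Bounds -/

lemma norm_bilin_le {F G H : Type*} [NormedAddCommGroup F] [NormedSpace ℝ F]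
    [NormedAddCommGroup G] [NormedSpace ℝ G] [NormedAddCommGroup H] [NormedSpace ℝ H]
    (B : F →L[ℝ] G →L[ℝ] H) (hB : ‖B‖ ≤ 1) {s : Set R2} (hs : IsOpen s) {f : R2 → F}
    {g : R2 → G} (hf : ContDiffOn ℝ ∞ f s) (hg : ContDiffOn ℝ ∞ g s) {y : R2} (hy : y ∈ s)
    {j : ℕ} {a b : ℝ} (ha : ∀ i ≤ j, ‖iteratedFDeriv ℝ i f y‖ ≤ a)
    (hb : ∀ i ≤ j, ‖iteratedFDeriv ℝ i g y‖ ≤ b) :
    ‖iteratedFDeriv ℝ j (fun z => B (f z) (g z)) y‖ ≤ 2 ^ j * (a * b) := by
  have h := B.norm_iteratedFDerivWithin_le_of_bilinear_of_le_one hf hg hs.uniqueDiffOn hy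
    (n := j) (by exact_mod_cast le_top) hB
  have ha0 : 0 ≤ a := (norm_nonneg _).trans (ha j le_rfl)
  rw [iteratedFDerivWithin_of_isOpen j hs hy] at h
  refine h.trans ?_
  have hsum : (2 : ℝ) ^ j = ∑ i ∈ Finset.range (j + 1), (j.choose i : ℝ) := by
    exact_mod_cast (Nat.sum_range_choose j).symm
  rw [hsum, Finset.sum_mul]
  refine Finset.sum_le_sum fun i hi => ?_
  have hij : i ≤ j := Nat.le_of_lt_succ (Finset.mem_range.1 hi)
  rw [iteratedFDerivWithin_of_isOpen i hs hy, iteratedFDerivWithin_of_isOpen (j - i) hs hy,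
    mul_assoc]
  exact mul_le_mul_of_nonneg_left
    (mul_le_mul (ha i hij) (hb _ (Nat.sub_le _ _)) (norm_nonneg _) ha0) (Nat.cast_nonneg _)

lemma exists_bound {F : Type*} [NormedAddCommGroup F] [NormedSpace ℝ F] {s K : Set R2}
    (hs : IsOpen s) (hK : IsCompact K) (hKs : K ⊆ s) {f : R2 → F} (hf : ContDiffOn ℝ ∞ f s)
    (k : ℕ) : ∃ C : ℝ, 0 ≤ C ∧ ∀ j ≤ k, ∀ y ∈ K, ‖iteratedFDeriv ℝ j f y‖ ≤ C := by
  have h : ∀ j : ℕ, ∃ C, ∀ y ∈ K, ‖iteratedFDeriv ℝ j f y‖ ≤ C := fun j => by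
    refine hK.exists_bound_of_continuousOn ?_
    exact ((hf.continuousOn_iteratedFDerivWithin (by exact_mod_cast le_top) hs.uniqueDiffOn).congr
      fun y hy => (iteratedFDerivWithin_of_isOpen j hs hy).symm).mono hKs
  choose C hC using h
  refine ⟨∑ j ∈ Finset.range (k + 1), |C j|, Finset.sum_nonneg fun j _ => abs_nonneg _,
    fun j hj y hy => ((hC j y hy).trans (le_abs_self _)).trans ?_⟩
  exact Finset.single_le_sum (f := fun j => |C j|) (fun i _ => abs_nonneg _)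
    (Finset.mem_range.2 (Nat.lt_succ_of_le hj))

variable (E) in
/-- Chart derivatives are bounded by frame derivatives, pointwise on a compact set. -/
theorem exists_iteratedFDeriv_le (hV : FrameSmooth V) (hS : FrameSpans V) (x₀ : M) {K : Set R2}
    (hK : IsCompact K) (hKs : K ⊆ tgt x₀) (k : ℕ) :
    ∃ C : ℝ, 0 < C ∧ ∀ f : M → E, ContMDiff (𝓡 2) 𝓘(ℝ, E) ∞ f → ∀ y ∈ K, ∀ B : ℝ,
      (∀ w : List (Fin N), w.length ≤ k → ‖DW V w f (ich x₀ y)‖ ≤ B) →
      ∀ j ≤ k, ‖iteratedFDeriv ℝ j (f ∘ ich x₀) y‖ ≤ C * B := by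
  induction k with
  | zero =>
    refine ⟨1, one_pos, fun f _ y _ B hB j hj => ?_⟩
    obtain rfl : j = 0 := by omega
    simpa [norm_iteratedFDeriv_zero, DW] using hB [] le_rfl
  | succ k ih =>
    obtain ⟨C, hC, hCf⟩ := ih
    choose a ha0 ha using fun i : Fin N =>
      exists_bound (isOpen_tgt x₀) hK hKs (contDiffOn_coef hV hS x₀ i) k
    have hnn : 0 ≤ ∑ i, 2 ^ k * (a i * C) :=
      Finset.sum_nonneg fun i _ => mul_nonneg (by positivity) (mul_nonneg (ha0 i) hC.le)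
    refine ⟨C + ∑ i, 2 ^ k * (a i * C), by linarith, fun f hf y hy B hB j hj => ?_⟩
    have hB0 : 0 ≤ B := (norm_nonneg _).trans (hB [] (by simp))
    rcases Nat.lt_or_eq_of_le hj with hj | rfl
    · refine (hCf f hf y hy B (fun w hw => hB w (by omega)) j (by omega)).trans ?_
      exact mul_le_mul_of_nonneg_right (by linarith) hB0
    rw [← norm_iteratedFDeriv_fderiv]
    set Bi := ContinuousLinearMap.smulRightL ℝ R2 E
    have hev : fderiv ℝ (f ∘ ich x₀) =ᶠ[𝓝 y]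
        fun z => ∑ i, Bi (coef V x₀ i z) ((D V i f ∘ ich x₀) z) :=
      eventuallyEq_of_mem ((isOpen_tgt x₀).mem_nhds (hKs hy)) fun z hz => by
        rw [fderiv_ich hS hz (differentiableAt_ich hz hf)]
        rfl
    rw [(hev.iteratedFDeriv ℝ k).eq_of_nhds]
    have hd : ∀ i, ContDiffOn ℝ ∞ (D V i f ∘ ich x₀) (tgt x₀) := fun i =>
      contDiffOn_ich x₀ (contMDiff_D_ich hV hf i)
    rw [iteratedFDeriv_fun_sum_apply fun i _ => ?_]
    swap
    · exact (contDiffOn_infty.1 ((contDiffOn_coef hV hS x₀ i).smulRight (hd i)) k).contDiffAt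
        ((isOpen_tgt x₀).mem_nhds (hKs hy))
    refine (norm_sum_le _ _).trans ?_
    calc ∑ i, ‖iteratedFDeriv ℝ k (fun z => Bi (coef V x₀ i z) ((D V i f ∘ ich x₀) z)) y‖
        ≤ ∑ i, 2 ^ k * (a i * (C * B)) := Finset.sum_le_sum fun i _ =>
          norm_bilin_le Bi (ContinuousLinearMap.opNorm_le_bound₂ _ zero_le_one fun c e => by
              simp [Bi]) (isOpen_tgt x₀) (contDiffOn_coef hV hS x₀ i) (hd i) (hKs hy)
            (fun l hl => ha i l hl y hy)
            (hCf _ (contMDiff_D_ich hV hf i) y hy B fun w hw => by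
              rw [← DW_concat]
              exact hB _ (by simp; omega))
      _ = (∑ i, 2 ^ k * (a i * C)) * B := by rw [Finset.sum_mul]; congr 1; ext i; ring
      _ ≤ _ := mul_le_mul_of_nonneg_right (by linarith) hB0

variable (E) in
/-- Frame derivatives are bounded by chart derivatives, pointwise on a compact set. -/
theorem exists_DW_le (hV : FrameSmooth V) (x₀ : M) {K : Set R2} (hK : IsCompact K)
    (hKs : K ⊆ tgt x₀) (n k : ℕ) :
    ∃ C : ℝ, 0 < C ∧ ∀ f : M → E, ContMDiff (𝓡 2) 𝓘(ℝ, E) ∞ f → ∀ y ∈ K, ∀ B : ℝ,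
      (∀ l ≤ k + n, ‖iteratedFDeriv ℝ l (f ∘ ich x₀) y‖ ≤ B) →
      ∀ w : List (Fin N), w.length ≤ n → ∀ j ≤ k,
        ‖iteratedFDeriv ℝ j (DW V w f ∘ ich x₀) y‖ ≤ C * B := by
  induction n generalizing k with
  | zero =>
    refine ⟨1, one_pos, fun f _ y _ B hB w hw j hj => ?_⟩
    obtain rfl : w = [] := List.length_eq_zero_iff.1 (by omega)
    simpa [DW] using hB j (by omega)
  | succ n ih =>
    obtain ⟨C, hC, hCf⟩ := ih (k + 1)
    choose a ha0 ha using fun i : Fin N =>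
      exists_bound (isOpen_tgt x₀) hK hKs (contDiffOn_cvec hV x₀ i) k
    set A := ∑ i, a i with hA
    have hA0 : 0 ≤ A := Finset.sum_nonneg fun i _ => ha0 i
    have hnn : 0 ≤ 2 ^ k * (C * A) := by positivity
    refine ⟨C + 2 ^ k * (C * A), by linarith, fun f hf y hy B hB w hw j hj => ?_⟩
    have hB0 : 0 ≤ B := (norm_nonneg _).trans (hB 0 (Nat.zero_le _))
    have hrec := hCf f hf y hy B fun l hl => hB l (by omega)
    match w, hw with
    | [], _ =>
      refine (hrec [] (by simp) j (by omega)).trans ?_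
      exact mul_le_mul_of_nonneg_right (by linarith) hB0
    | i :: w, hw =>
      have hg := contMDiff_DW_ich hV hf w
      have hev : DW V (i :: w) f ∘ ich x₀ =ᶠ[𝓝 y] fun z =>
          (ContinuousLinearMap.id ℝ (R2 →L[ℝ] E)) (fderiv ℝ (DW V w f ∘ ich x₀) z)
            (cvec V x₀ i z) :=
        eventuallyEq_of_mem ((isOpen_tgt x₀).mem_nhds (hKs hy)) fun z hz =>
          D_ich hz (differentiableAt_ich hz hg) i
      rw [(hev.iteratedFDeriv ℝ j).eq_of_nhds]
      have hai : ∀ l ≤ j, ‖iteratedFDeriv ℝ l (cvec V x₀ i) y‖ ≤ A := fun l hl =>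
        (ha i l (by omega) y hy).trans
          (Finset.single_le_sum (f := a) (fun i _ => ha0 i) (Finset.mem_univ i))
      refine (norm_bilin_le _ ContinuousLinearMap.norm_id_le (isOpen_tgt x₀)
        ((contDiffOn_ich x₀ hg).fderiv_of_isOpen (isOpen_tgt x₀) (m := ∞) le_rfl)
        (contDiffOn_cvec hV x₀ i) (hKs hy) (a := C * B)
        (fun l hl => by
          rw [norm_iteratedFDeriv_fderiv]
          exact hrec w (by simp at hw; omega) (l + 1) (by omega)) hai).trans ?_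
      have h2 : (2 : ℝ) ^ j ≤ 2 ^ k := pow_le_pow_right₀ one_le_two hj
      calc (2 : ℝ) ^ j * (C * B * A) ≤ 2 ^ k * (C * B * A) :=
            mul_le_mul_of_nonneg_right h2 (by positivity)
        _ ≤ (C + 2 ^ k * (C * A)) * B := by nlinarith [mul_nonneg hC.le hB0]

variable (E) in
/-- On a compact subset of a chart domain: chart derivatives from frame derivatives. -/
theorem exists_chart_bound (hV : FrameSmooth V) (hS : FrameSpans V) (x₀ : M) {K : Set M}
    (hK : IsCompact K) (hKs : K ⊆ (chartAt R2 x₀).source) (k : ℕ) :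
    ∃ C : ℝ, 0 < C ∧ ∀ f : M → E, ContMDiff (𝓡 2) 𝓘(ℝ, E) ∞ f → ∀ x ∈ K, ∀ B : ℝ,
      (∀ w : List (Fin N), w.length ≤ k → ‖DW V w f x‖ ≤ B) →
      ∀ j ≤ k, ‖iteratedFDeriv ℝ j (f ∘ ich x₀) (extChartAt (𝓡 2) x₀ x)‖ ≤ C * B := by
  have hKs' : K ⊆ (extChartAt (𝓡 2) x₀).source := by rwa [extChartAt_source]
  obtain ⟨C, hC, h⟩ := exists_iteratedFDeriv_le E hV hS x₀
    (hK.image_of_continuousOn ((continuousOn_extChartAt x₀).mono hKs'))
    (image_subset_iff.2 fun x hx => (extChartAt (𝓡 2) x₀).map_source (hKs' hx)) k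
  refine ⟨C, hC, fun f hf x hx B hB => h f hf _ (mem_image_of_mem _ hx) B fun w hw => ?_⟩
  rw [ich_left_inv (hKs hx)]
  exact hB w hw

variable (E) in
/-- On a compact subset of a chart domain: frame derivatives from chart derivatives. -/
theorem exists_frame_bound (hV : FrameSmooth V) (x₀ : M) {K : Set M}
    (hK : IsCompact K) (hKs : K ⊆ (chartAt R2 x₀).source) (k : ℕ) :
    ∃ C : ℝ, 0 < C ∧ ∀ f : M → E, ContMDiff (𝓡 2) 𝓘(ℝ, E) ∞ f → ∀ x ∈ K, ∀ B : ℝ,
      (∀ l ≤ k, ‖iteratedFDeriv ℝ l (f ∘ ich x₀) (extChartAt (𝓡 2) x₀ x)‖ ≤ B) →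
      ∀ w : List (Fin N), w.length ≤ k → ‖DW V w f x‖ ≤ C * B := by
  have hKs' : K ⊆ (extChartAt (𝓡 2) x₀).source := by rwa [extChartAt_source]
  obtain ⟨C, hC, h⟩ := exists_DW_le E hV x₀
    (hK.image_of_continuousOn ((continuousOn_extChartAt x₀).mono hKs'))
    (image_subset_iff.2 fun x hx => (extChartAt (𝓡 2) x₀).map_source (hKs' hx)) k 0
  refine ⟨C, hC, fun f hf x hx B hB w hw => ?_⟩
  have h0 := h f hf _ (mem_image_of_mem _ hx) B (fun l hl => hB l (by omega)) w hw 0 le_rfl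
  rw [norm_iteratedFDeriv_zero, Function.comp_apply,
    ich_left_inv (hKs hx)] at h0
  exact h0

end Vale.Agent.P205.Full.Open
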