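import Vale.Agent.P205.Full.Open.RoundData

/-!
# Module OPEN, O3: one round of the iteration, from the stage lemma
-/

open scoped Manifold ContDiff RealInnerProductSpace Topology
open Bundle Filter

namespace Vale.Agent.P205.Full.Open

/-- What the round gives to the stage lemma, and what it keeps for itself. -/
structure Mid {M : Type} [TopologicalSpace M] [ChartedSpace R2 M] [IsManifold (𝓡 2) ∞ M]
    {N P : ℕ} (g : Metric M) (V : Frame M N) (y : Fin P → M → ℝ) (K L : ℕ) (B Cm δ t : ℝ)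
    (F F₁ : M → R4) (H : M → ℝ) : Prop where
  data : StageData g (sc (t ^ 4) V) F₁ (fun _ => t ^ 4) H (fun _ => (t ^ (4 * L)) ^ 2)
    (fun p x => (t ^ 4)⁻¹ * y p x) (fun _ _ => 1) K B δ
  small : ∀ x, t ^ (4 * L) ≤ δ * t ^ 4 * H x
  ratio : ∀ x, t ^ (4 * L) / (t ^ 4 * H x) ≤ t ^ 4
  close : ∀ q : ℕ, 2 * q ≤ L → Bd V q (Cm * t ^ 2) (fun _ => 1) (fun x => F₁ x - F x)
  grow : ∀ q : ℕ, q ≤ 24 * L + 36 → Bd V q (Cm * (1 / t) ^ (2 * q + 1)) (fun _ => 1) F₁

theorem scale_bounds {t A : ℝ} (ht : 0 < t) (hA : 1 ≤ A) (h : t * A ^ 8 ≤ 1) :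
    t * A ≤ 1 ∧ t * A ^ 2 ≤ 1 ∧ t ≤ (A ^ 8)⁻¹ ∧ (A ^ 8)⁻¹ ≤ 1 := by
  refine ⟨?_, mul_pow_le_one ht.le hA h (by norm_num), ?_,
    inv_le_one_of_one_le₀ (one_le_pow₀ hA)⟩
  · simpa using mul_pow_le_one ht.le hA h (n := 1) (by norm_num)
  · rw [← one_div, le_div_iff₀ (by positivity)]; exact h

theorem exists_slack {t : ℝ} (ht : 0 < t) (ht1 : t ≤ 1) (L : ℕ) :
    ∃ a : ℝ, 0 ≤ a ∧ a ≤ 1 ∧ a * a = 1 - (t ^ (4 * L)) ^ 2 ∧ |a - 1| ≤ t ^ (8 * L) := by
  have e : (t ^ (4 * L)) ^ 2 = t ^ (8 * L) := by rw [← pow_mul]; ring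
  rw [e]
  have h0 : 0 ≤ t ^ (8 * L) := by positivity
  have h1 : t ^ (8 * L) ≤ 1 := pow_le_one₀ ht.le ht1
  refine ⟨Real.sqrt (1 - t ^ (8 * L)), Real.sqrt_nonneg _, Real.sqrt_le_one.2 (by linarith),
    Real.mul_self_sqrt (by linarith), ?_⟩
  have h2 : Real.sqrt (1 - t ^ (8 * L)) ≤ 1 := Real.sqrt_le_one.2 (by linarith)
  rw [abs_of_nonpos (by linarith)]
  nlinarith [Real.mul_self_sqrt (show 0 ≤ 1 - t ^ (8 * L) by linarith),
    Real.sqrt_nonneg (1 - t ^ (8 * L))]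

variable {M : Type} [TopologicalSpace M] [ChartedSpace R2 M] [IsManifold (𝓡 2) ∞ M] {N : ℕ}

/-- The shrunk smoothed map is close to the current one. -/
theorem close_of {V : Frame M N} (hV : FrameSmooth V) {F G : M → R4}
    (hF : ContMDiff (𝓡 2) 𝓘(ℝ, R4) ∞ F) (hG : ContMDiff (𝓡 2) 𝓘(ℝ, R4) ∞ G) {L q : ℕ}
    {Cs t a : ℝ} (hq : q ≤ 4 * L + 2) (hL : 4 ≤ L) (ht : 0 < t) (ht1 : t ≤ 1) (hCs : 0 ≤ Cs)
    (ha0 : 0 ≤ a) (ha1 : a ≤ 1) (haσ : |a - 1| ≤ t ^ (8 * L))
    (hnear : Bd V q (Cs * t ^ (20 * L + 9 - q)) (fun _ => 1) (fun x => G x - F x))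
    (hhigh : Bd V q ((1 / t) ^ (q + 1)) (fun _ => 1) F) :
    Bd V q ((Cs + 1) * t ^ 2) (fun _ => 1) (fun x => a • G x - F x) := by
  intro w hw x hx
  have h1 := hnear w hw x hx
  have h2 := hhigh w hw x hx
  rw [DW_sub hV w (hG x) (hF x), mul_one] at h1
  rw [mul_one] at h2
  rw [DW_sub hV w (contMDiff_const_smul a hG x) (hF x), DW_const_smul hV a w (hG x), mul_one]
  have e : a • DW V w G x - DW V w F x =
      a • (DW V w G x - DW V w F x) + (a - 1) • DW V w F x := by module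
  rw [e]
  refine (norm_add_le _ _).trans ?_
  rw [norm_smul, norm_smul, Real.norm_eq_abs, Real.norm_eq_abs, abs_of_nonneg ha0, add_mul, one_mul]
  refine add_le_add ((mul_le_of_le_one_left (norm_nonneg _) ha1).trans (h1.trans
    (mul_le_mul_of_nonneg_left (pow_le_pow_of_le_one ht.le ht1 (by omega)) hCs))) ?_
  exact (mul_le_mul haσ h2 (norm_nonneg _) (by positivity)).trans
    (pow_mul_inv_pow_le ht ht1 (by omega))

theorem exists_mid [T2Space M] [CompactSpace M] {P : ℕ} (V : Frame M N) (hV : FrameSmooth V)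
    (hs : FrameSpans V) (y : Fin P → M → ℝ) (hy : ∀ p, ContMDiff (𝓡 2) 𝓘(ℝ, ℝ) ∞ (y p))
    (CF ρ : ℝ) (S S' : Set (Fin N → R4)) (hS' : IsCompact S')
    (hS'U : S' ⊆ {a | inv2 (gram a) ≠ 0}) (R A₁ : ℝ) (hR : 1 ≤ R) (hA₁ : 2 ≤ A₁)
    (hnorm : ∀ a ∈ S', ‖a‖ ≤ R)
    (hnear : ∀ (g : Metric M) (A : ℝ) (F₀ F : M → R4),
      Ctx g V y CF ρ S → A₁ ≤ A → Base g V A F₀ → ContMDiff (𝓡 2) 𝓘(ℝ, R4) ∞ F →
      Bd V 2 (4 * (A ^ 8)⁻¹) (fun _ => 1) (fun x => F x - F₀ x) →
      ∀ x, dF F V x ∈ S' ∧ 1 ≤ 3 * A * sffSize F V x)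
    (L : ℕ) (hL : 4 ≤ L) (K : ℕ) (Bg : ℝ) :
    ∃ B Cm : ℝ, 1 ≤ B ∧ 1 ≤ Cm ∧ ∀ δ : ℝ, 0 < δ → ∃ θ : ℝ, 0 < θ ∧ θ ≤ 1 / 2 ∧
      ∀ g : Metric M, Ctx g V y CF ρ S → (∀ i k, Bd V K Bg (fun _ => 1) (gV g V i k)) →
      ∀ (A : ℝ) (F₀ : M → R4), A₁ ≤ A → Base g V A F₀ →
      ∀ t : ℝ, 0 < t → t ≤ θ → t * A ^ 8 ≤ 1 → ∀ F : M → R4, State g V F₀ A L t F →
        ∃ (F₁ : M → R4) (H : M → ℝ), Mid g V y K L B Cm δ t F F₁ H := by
  obtain ⟨Cs, hCs1, hsmo⟩ := exists_smoothed V hV hs L (K + 24 * L + 36 + 2)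
  have hCs0 : 0 ≤ Cs := by linarith
  obtain ⟨Csh, hCsh1, hshape⟩ := exists_shape N K hS' hS'U R Cs (by linarith) hCs0 hnorm
  choose cy hcy0 hcy using fun (p : Fin P) (i : Fin N) =>
    exists_bd_of_contMDiff hV K (contMDiff_D hV i (hy p))
  set Cd : ℝ := Csh + (R + 2 * Cs) with hCd
  set Cy : ℝ := ∑ p, ∑ i, cy p i with hCy
  have hCy0 : 0 ≤ Cy := Finset.sum_nonneg fun p _ => Finset.sum_nonneg fun i _ => hcy0 p i
  set B : ℝ := 1 + |CF| + |Bg| + Cy + Cd with hB
  have := abs_nonneg CF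
  have := abs_nonneg Bg
  set Cm : ℝ := 2 + 2 * Cs with hCm
  refine ⟨B, Cm, by rw [hB]; linarith, by rw [hCm]; linarith, fun δ hδ => ?_⟩
  set Cres : ℝ := 1 + |Bg| + (2 ^ (4 * L + 1) * Cs + 2 ^ (4 * L + 1) * (2 * Cs * Cs)) +
    2 ^ K * (2 * Cs) * (2 * Cs) with hCres
  have hCres0 : 0 ≤ Cres := by rw [hCres]; positivity
  set Big : ℝ := Cres + Cm + 3 * ((N : ℝ) ^ 2 + 1) with hBig
  have hBig0 : 0 < Big := by rw [hBig, hCm]; positivity
  have hN0 : (0 : ℝ) ≤ 3 * ((N : ℝ) ^ 2 + 1) := by positivity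
  refine ⟨min (1 / 2) (min (δ / Big) (1 / Big)), by positivity, min_le_left _ _, ?_⟩
  intro g hctx hg A F₀ hA hBase t ht htθ htA F hF
  have htB : t * Big ≤ δ := (le_div_iff₀ hBig0).1
    (htθ.trans ((min_le_right _ _).trans (min_le_left _ _)))
  have htB1 : t * Big ≤ 1 := (le_div_iff₀ hBig0).1
    (htθ.trans ((min_le_right _ _).trans (min_le_right _ _)))
  have ht1 : t ≤ 1 := htθ.trans ((min_le_left _ _).trans (by norm_num))
  have hA2 : 2 ≤ A := hA₁.trans hA
  have hA1 : 1 ≤ A := by linarith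
  obtain ⟨tA, tA2, htA8, hA8⟩ := scale_bounds ht hA1 htA
  have hF2 : Bd V 2 (2 * A) (fun _ => 1) F := fun w hw x hx => by
    have h1 := hF.near w hw x hx
    rw [DW_sub hV w (hF.smooth x) (hBase.smooth x)] at h1
    have h2 := hBase.bd w (by omega) x hx
    have := norm_le_insert' (DW V w F x) (DW V w F₀ x)
    simp only [mul_one] at h1 h2 ⊢
    linarith
  obtain ⟨G, hG, hGnear, hGup⟩ := hsmo t ht ht1 (2 * A) (by linarith) F hF.smooth hF2 hF.high
  obtain ⟨a, ha0, ha1, ha2, haσ⟩ := exists_slack ht ht1 L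
  have hup : Up V (K + 24 * L + 36 + 2) Cs A t (fun z => a • G z) := fun v hv w hw x => by
    rw [DW_const_smul hV a w (hG x), norm_smul, Real.norm_eq_abs, abs_of_nonneg ha0]
    exact (mul_le_of_le_one_left (norm_nonneg _) ha1).trans (hGup v hv w hw x)
  have hclose : ∀ q : ℕ, 2 * q ≤ L ∨ q = 2 →
      Bd V q (Cm * t ^ 2) (fun _ => 1) (fun x => a • G x - F x) := fun q hq =>
    (close_of hV hF.smooth hG (by omega) hL ht ht1 hCs0 ha0 ha1 haσ (hGnear q (by omega))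
      (hF.high q (by omega))).mono_const
      (mul_le_mul_of_nonneg_right (by rw [hCm]; linarith) (by positivity)) fun _ _ => zero_le_one
  have hnear₁ : Bd V 2 (4 * (A ^ 8)⁻¹) (fun _ => 1) (fun x => a • G x - F₀ x) :=
    fun w hw x hx => by
    have hs1 := contMDiff_const_smul a hG x
    have h1 := hclose 2 (Or.inr rfl) w hw x hx
    have h2 := hF.near w hw x hx
    rw [DW_sub hV w hs1 (hF.smooth x), mul_one] at h1
    rw [DW_sub hV w (hF.smooth x) (hBase.smooth x), mul_one] at h2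
    rw [DW_sub hV w hs1 (hBase.smooth x), mul_one]
    have h3 := norm_sub_le_norm_sub_add_norm_sub (DW V w (fun z => a • G z) x) (DW V w F x)
      (DW V w F₀ x)
    have h4 : Cm * t ^ 2 ≤ t := by
      have h5 : t * Cm ≤ 1 := le_trans
        (mul_le_mul_of_nonneg_left (by rw [hBig]; linarith) ht.le) htB1
      calc Cm * t ^ 2 = t * (t * Cm) := by ring
        _ ≤ t := mul_le_of_le_one_right ht.le h5
    linarith
  have hfacts := hnear g A F₀ _ hctx hA hBase (contMDiff_const_smul a hG) hnear₁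
  obtain ⟨hsS, hsm, hsize, hle, hbS, hbu⟩ := hshape M V _ A t _ hV hs
    (contMDiff_const_smul a hG) ht ht1 hA1 tA2 (by omega) hup (fun x => (hfacts x).1)
    (fun x => (hfacts x).2)
  set sS : M → ℝ := sSize (fun z => a • G z) V with hsSdef
  have hpos : ∀ x, 0 < sS x := fun x => by
    by_contra h
    have h0 := mul_nonpos_of_nonneg_of_nonpos
      (show 0 ≤ 3 * A * ((N : ℝ) ^ 2 + 1) by positivity) (not_lt.1 h)
    linarith [hsize x]
  have hlow : ∀ x, t ^ 6 ≤ (3 * ((N : ℝ) ^ 2 + 1) * t) * t ^ 4 * sS x := fun x => by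
    calc t ^ 6 ≤ t ^ 6 * (3 * A * (((N : ℝ) ^ 2 + 1) * sS x)) :=
          le_mul_of_one_le_right (by positivity) (hsize x)
      _ = (3 * ((N : ℝ) ^ 2 + 1) * t) * t ^ 4 * sS x * (t * A) := by ring
      _ ≤ _ := mul_le_of_le_one_right (by have := (hpos x).le; positivity) tA
  have h16 : t ^ (4 * L) ≤ t ^ 16 := pow_le_pow_of_le_one ht.le ht1 (by omega)
  have hD : ∀ i, ∀ w : List (Fin N), w.length ≤ K → ∀ x,
      (t ^ 4) ^ w.length * ‖DW V w (D V i (fun z => a • G z)) x‖ ≤ R + 2 * Cs := by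
    intro i w hw x
    have hk : (0 : ℝ) ≤ t ^ 2 := by positivity
    have h := hup.scaled_D ht ht1 tA (by linarith) hCs0 (by linarith) hV
      (contMDiff_const_smul a hG) K (by omega) (fun x => hnorm _ (hfacts x).1) i w hw x
      (Set.mem_univ x)
    rw [norm_DW_sc hV hk (contMDiff_D hV i (contMDiff_const_smul a hG)), mul_one] at h
    refine le_trans (mul_le_mul_of_nonneg_right (pow_le_pow_left₀ (by positivity) ?_ _)
      (norm_nonneg _)) h
    exact pow_le_pow_of_le_one ht.le ht1 (by norm_num)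
  have hres : ∀ i k, ∀ w : List (Fin N), w.length ≤ K → ∀ x,
      (t ^ 4) ^ w.length * ‖DW V w (fun z => gV g V i k z - pullV G V i k z) x‖ ≤
        δ * (t ^ (4 * L)) ^ 2 := by
    intro i k w hw x
    have hn : Bd V (4 * L + 2) (Cs * t ^ (16 * L + 7)) (fun _ => 1) (fun z => G z - F z) := by
      have := hGnear (4 * L + 2) le_rfl
      rwa [show 20 * L + 9 - (4 * L + 2) = 16 * L + 7 by omega] at this
    refine (res_all hV g hF.smooth hG (W := K + 24 * L + 36 + 2) (by omega) (by omega) ht ht1 hA1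
      tA2 hCs0 hF.res (hF.high (4 * L + 2) (by omega)) hn hGup hg i k w hw x).trans ?_
    rw [← pow_mul, show 4 * L * 2 = 8 * L by ring, ← hCres]
    have hle : Cres ≤ Big := by rw [hBig]; linarith
    have htC : Cres * t ≤ δ := by
      rw [mul_comm] at htB
      exact le_trans (mul_le_mul_of_nonneg_right hle ht.le) htB
    calc Cres * t ^ (8 * L + 1) = Cres * t * t ^ (8 * L) := by ring
      _ ≤ δ * t ^ (8 * L) := mul_le_mul_of_nonneg_right htC (by positivity)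
  have hCF : CF ≤ B := by rw [hB]; linarith [le_abs_self CF]
  have hσ1 : (t ^ (4 * L)) ^ 2 ≤ 1 := pow_le_one₀ (by positivity) (pow_le_one₀ ht.le ht1)
  have hbS' : Bd (sc (t ^ 4) V) K Cd sS sS :=
    hbS.mono_const (by rw [hCd]; linarith) fun x _ => (hpos x).le
  refine ⟨fun z => a • G z, fun x => t ^ 4 * sS x, ?_, fun x => ?_, fun x => ?_,
    fun q hq => hclose q (Or.inl hq), fun q hq w hw x _ => ?_⟩
  · refine stageData_of hctx hG (by positivity) (pow_le_one₀ ht.le ht1) (by positivity) hσ1 ha2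
      (A := A) (Cd := Cd) (by rw [hB]; linarith) hCF (by rw [hB]; linarith) ?_
      (fun i k => (hg i k).mono_const (by rw [hB]; linarith [le_abs_self Bg])
        fun _ _ => zero_le_one)
      (fun p i => (hcy p i).mono_const ?_ fun _ _ => zero_le_one)
      (fun i w hw x => (hD i w hw x).trans (by rw [hCd]; linarith))
      hsS hsm hpos
      (fun x => (hle x).trans (mul_le_mul_of_nonneg_right (by rw [hCd]; linarith) (by linarith)))
      hbS'
      (fun i k => (hbu i k).mono_const (by rw [hCd]; linarith) fun x _ => (hpos x).le) hres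
    · calc t ^ 4 * (Cd * A) = Cd * (t ^ 3 * (t * A)) := by ring
        _ ≤ Cd * 1 := mul_le_mul_of_nonneg_left
            (mul_le_one₀ (pow_le_one₀ ht.le ht1) (by positivity) tA) (by rw [hCd]; linarith)
        _ ≤ B := by rw [hB]; linarith
    · have h1 : cy p i ≤ Cy :=
        (Finset.single_le_sum (fun z _ => hcy0 p z) (Finset.mem_univ i)).trans
          (Finset.single_le_sum (f := fun p => ∑ i, cy p i)
            (fun z _ => Finset.sum_nonneg fun i _ => hcy0 z i) (Finset.mem_univ p))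
      rw [hB]; linarith
  · calc t ^ (4 * L) ≤ t ^ 16 := h16
      _ = t ^ 10 * t ^ 6 := by ring
      _ ≤ t ^ 4 * t ^ 6 := mul_le_mul_of_nonneg_right
          (pow_le_pow_of_le_one ht.le ht1 (by norm_num)) (by positivity)
      _ ≤ t ^ 4 * ((3 * ((N : ℝ) ^ 2 + 1) * t) * t ^ 4 * sS x) :=
          mul_le_mul_of_nonneg_left (hlow x) (by positivity)
      _ ≤ t ^ 4 * (δ * t ^ 4 * sS x) := by
          refine mul_le_mul_of_nonneg_left (mul_le_mul_of_nonneg_right (mul_le_mul_of_nonneg_right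
            (le_trans ?_ htB) (by positivity)) (hpos x).le) (by positivity)
          rw [mul_comm t Big]
          refine mul_le_mul_of_nonneg_right ?_ ht.le
          rw [hBig, hCm]; linarith
      _ = δ * t ^ 4 * (t ^ 4 * sS x) := by ring
  · rw [div_le_iff₀ (mul_pos (by positivity) (mul_pos (by positivity) (hpos x)))]
    calc t ^ (4 * L) ≤ t ^ 16 := h16
      _ = t ^ 10 * t ^ 6 := by ring
      _ ≤ t ^ 8 * t ^ 6 := mul_le_mul_of_nonneg_right
          (pow_le_pow_of_le_one ht.le ht1 (by norm_num)) (by positivity)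
      _ ≤ t ^ 8 * (1 * t ^ 4 * sS x) := by
          refine mul_le_mul_of_nonneg_left ((hlow x).trans (mul_le_mul_of_nonneg_right
            (mul_le_mul_of_nonneg_right (le_trans ?_ htB1) (by positivity)) (hpos x).le))
            (by positivity)
          rw [mul_comm t Big]
          refine mul_le_mul_of_nonneg_right ?_ ht.le
          rw [hBig, hCm]; linarith
      _ = t ^ 4 * (t ^ 4 * (t ^ 4 * sS x)) := by ring
  · rw [mul_one]
    refine (hup 0 (by norm_num) w (by omega) x).trans ?_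
    rw [Nat.sub_zero, show (1 / t ^ 2) ^ w.length = (1 / t) ^ (2 * w.length) by
      simp only [one_div, inv_pow, ← pow_mul], hCm]
    have h1 : A ≤ 1 / t := by rw [le_div_iff₀ ht, mul_comm]; exact tA
    have h2 : (1 / t) ^ (2 * w.length) * A ≤ (1 / t) ^ (2 * q + 1) := by
      rw [pow_succ]
      refine mul_le_mul (pow_le_pow_right₀ ?_ (by omega)) h1 (by linarith) (by positivity)
      rw [le_div_iff₀ ht, one_mul]; exact ht1
    calc Cs * (1 / t) ^ (2 * w.length) * (2 * A)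
        = 2 * Cs * ((1 / t) ^ (2 * w.length) * A) := by ring
      _ ≤ (2 + 2 * Cs) * (1 / t) ^ (2 * q + 1) :=
          mul_le_mul (by linarith) h2 (by positivity) (by linarith)

/-- One stage applied to the prepared map: the estimates in the fixed frame. -/
theorem stage_unscale {P : ℕ} {g : Metric M} {V : Frame M N} {y : Fin P → M → ℝ}
    (hV : FrameSmooth V) {K L m j : ℕ} {B Cm δ t C : ℝ} {F F₁ F' : M → R4} {H : M → ℝ}
    (hmid : Mid g V y K L B Cm δ t F F₁ H) (hF' : ContMDiff (𝓡 2) 𝓘(ℝ, R4) ∞ F')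
    (ht : 0 < t) (ht1 : t ≤ 1) (hC : 0 ≤ C)
    (hosc : ∀ w : List (Fin N), w.length ≤ j → ∀ x,
      ‖DW (sc (t ^ 4) V) w (fun z => F' z - F₁ z) x‖ ≤
        C * (1 / t ^ 4) ^ w.length * (t ^ 4 * t ^ 4 * Real.sqrt ((t ^ (4 * L)) ^ 2)))
    (herr : ∀ i k, ∀ w : List (Fin N), w.length ≤ j → ∀ x,
      ‖DW (sc (t ^ 4) V) w (fun z => gV g (sc (t ^ 4) V) i k z -
          pullV F' (sc (t ^ 4) V) i k z) x‖ ≤
        C * (1 / t ^ 4) ^ w.length *
          (t ^ 4 + Real.sqrt ((t ^ (4 * L)) ^ 2) / (t ^ 4 * H x)) ^ m *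
          ((t ^ 4) ^ 2 * Real.sqrt ((t ^ (4 * L)) ^ 2) *
            (Real.sqrt ((t ^ (4 * L)) ^ 2) + t ^ 4 * H x))) :
    (∀ w : List (Fin N), w.length ≤ j → ∀ x, ‖DW V w (fun z => F' z - F₁ z) x‖ ≤
        C * (1 / t) ^ (8 * w.length) * t ^ (4 * L + 8)) ∧
    ∀ i k, ∀ w : List (Fin N), w.length ≤ j → ∀ x,
      ‖DW V w (fun z => gV g V i k z - pullV F' V i k z) x‖ ≤
        C * (1 + B) * 2 ^ m * (1 / t) ^ (8 * w.length) * t ^ (4 * m) := by
  set c : ℝ := t ^ 4 with hc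
  have hc0 : 0 < c := by positivity
  have hs : Real.sqrt ((t ^ (4 * L)) ^ 2) = t ^ (4 * L) := Real.sqrt_sq (by positivity)
  have key : ∀ n : ℕ, ∀ r z : ℝ, c ^ n * r ≤ C * (1 / c) ^ n * z →
      r ≤ C * (1 / t) ^ (8 * n) * z := by
    intro n r z h
    have e : (1 / t) ^ (8 * n) = ((1 / c) * (1 / c)) ^ n := by
      rw [pow_mul, hc]; congr 1; simp only [one_div, inv_pow, ← mul_inv, ← pow_add]
    rw [e, mul_pow]
    calc r = (1 / c) ^ n * (c ^ n * r) := by
          rw [← mul_assoc, ← mul_pow, one_div_mul_cancel hc0.ne', one_pow, one_mul]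
      _ ≤ (1 / c) ^ n * (C * (1 / c) ^ n * z) := mul_le_mul_of_nonneg_left h (by positivity)
      _ = _ := by ring
  refine ⟨fun w hw x => ?_, fun i k w hw x => ?_⟩
  · have h := hosc w hw x
    rw [norm_DW_sc hV hc0.le (hF'.sub hmid.data.smooth_F), hs] at h
    refine (key _ _ _ h).trans (le_of_eq ?_)
    rw [hc]; ring
  · have hgp : ContMDiff (𝓡 2) 𝓘(ℝ, ℝ) ∞ (fun z => gV g V i k z - pullV F' V i k z) :=
      (contMDiff_gV g hV i k).sub (contMDiff_pullV hV hF' i k)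
    have h := herr i k w hw x
    have e : (fun z => gV g (sc c V) i k z - pullV F' (sc c V) i k z) =
        fun z => c ^ 2 • (gV g V i k z - pullV F' V i k z) := by
      funext z; rw [gV_sc, pullV_sc, smul_eq_mul]; ring
    rw [e, norm_DW_sc hV hc0.le (contMDiff_const_smul _ hgp), DW_const_smul hV _ w (hgp x),
      norm_smul, Real.norm_eq_abs, abs_of_nonneg (sq_nonneg c), hs] at h
    have hH : 0 < H x := hmid.data.pos_H x
    have hpow : (c + t ^ (4 * L) / (c * H x)) ^ m ≤ 2 ^ m * t ^ (4 * m) := by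
      have h2 : c + t ^ (4 * L) / (c * H x) ≤ 2 * t ^ 4 :=
        le_trans (add_le_add le_rfl (hmid.ratio x)) (by rw [hc, two_mul])
      refine (pow_le_pow_left₀ (add_nonneg hc0.le (by positivity)) h2 m).trans (le_of_eq ?_)
      rw [mul_pow, pow_mul]
    have hrest : c ^ 2 * t ^ (4 * L) * (t ^ (4 * L) + c * H x) ≤ c ^ 2 * (1 + B) := by
      rw [mul_assoc]
      refine mul_le_mul_of_nonneg_left ?_ (sq_nonneg c)
      have hs1 : t ^ (4 * L) ≤ 1 := pow_le_one₀ ht.le ht1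
      refine (mul_le_of_le_one_left (add_nonneg (by positivity) (by positivity)) hs1).trans
        (add_le_add hs1 ?_)
      exact (mul_le_of_le_one_left hH.le (pow_le_one₀ ht.le ht1)).trans (hmid.data.le_H x)
    have h' : c ^ w.length * (c ^ 2 * ‖DW V w (fun z => gV g V i k z - pullV F' V i k z) x‖) ≤
        C * (1 / c) ^ w.length * (c ^ 2 * (2 ^ m * t ^ (4 * m) * (1 + B))) := by
      refine h.trans ?_
      rw [mul_assoc (C * (1 / c) ^ w.length)]
      refine mul_le_mul_of_nonneg_left ?_ (by positivity)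
      refine (mul_le_mul hpow hrest ?_ (by positivity)).trans (le_of_eq (by ring))
      have := hH.le
      positivity
    have hk := key _ _ _ h'
    rw [show C * (1 + B) * 2 ^ m * (1 / t) ^ (8 * w.length) * t ^ (4 * m) =
      C * (1 / t) ^ (8 * w.length) * (2 ^ m * t ^ (4 * m) * (1 + B)) by ring]
    refine le_of_mul_le_mul_left ?_ (pow_pos hc0 2)
    calc c ^ 2 * _ ≤ C * (1 / t) ^ (8 * w.length) * (c ^ 2 * (2 ^ m * t ^ (4 * m) * (1 + B))) := hk
      _ = _ := by ring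

/-- **O3.** The round follows from the stage lemma. -/
theorem round (hSt : StageProp) : RoundProp := by
  intro M _ _ _ _ _ N P V y CF ρ S hS hSU hρ
  obtain ⟨S', R, A₁, hS', hS'U, hR, hA₁, hnorm, hnear⟩ := exists_near hS hSU ρ hρ
  refine ⟨A₁, fun L hL => ?_⟩
  obtain ⟨K, hK⟩ := hSt N P (24 * L + 30) (24 * L + 36)
  refine ⟨K, fun Bg => ?_⟩
  by_cases hex : FrameSmooth V ∧ FrameSpans V ∧ ∀ p, ContMDiff (𝓡 2) 𝓘(ℝ, ℝ) ∞ (y p)
  swap
  · exact ⟨1 / 2, by norm_num, le_rfl,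
      fun g hctx => absurd ⟨hctx.smooth_V, hctx.spans, hctx.smooth_y⟩ hex⟩
  obtain ⟨hV, hs, hy⟩ := hex
  obtain ⟨B, Cm, hB, hCm, hmid⟩ := exists_mid V hV hs y hy CF ρ S S' hS' hS'U R A₁ hR hA₁ hnorm
    (fun g A F₀ F => hnear M P g V y CF A F₀ F) L hL K Bg
  obtain ⟨C, ε₀, hC, hε₀, hstage⟩ := hK B
  obtain ⟨θ, hθ, hθ2, hmid⟩ := hmid ε₀ hε₀
  set Big : ℝ := C * (1 + B) * 2 ^ (24 * L + 30) + (Cm + C) + 1 with hBig
  have hBig0 : 0 < Big := by
    have : 0 ≤ C * (1 + B) * 2 ^ (24 * L + 30) := by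
      have : 0 ≤ 1 + B := by linarith
      positivity
    rw [hBig]; linarith
  refine ⟨min θ (min ε₀ (1 / Big)), by positivity, (min_le_left _ _).trans hθ2, ?_⟩
  intro g hctx hg A F₀ hA hA1 hBase t ht htθ htA F hF
  have ht1 : t ≤ 1 := (htθ.trans (min_le_left _ _)).trans (hθ2.trans (by norm_num))
  have ht2 : t ≤ 1 / 2 := (htθ.trans (min_le_left _ _)).trans hθ2
  have htε : t ^ 4 ≤ ε₀ := (pow_le_of_le_one ht.le ht1 (by norm_num)).trans
    (htθ.trans ((min_le_right _ _).trans (min_le_left _ _)))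
  have htB : t * Big ≤ 1 := (le_div_iff₀ hBig0).1
    (htθ.trans ((min_le_right _ _).trans (min_le_right _ _)))
  obtain ⟨F₁, H, hm⟩ := hmid g hctx hg A F₀ hA hBase t ht (htθ.trans (min_le_left _ _)) htA F hF
  obtain ⟨F', hF', hosc, herr⟩ := hstage M g (sc (t ^ 4) V) F₁ _ H _ _ _ (t ^ 4) hm.data
    (by positivity) htε (fun x => by rw [Real.sqrt_sq (by positivity)]; exact hm.small x)
  obtain ⟨hosc', herr'⟩ := stage_unscale hV hm hF' ht ht1 hC.le hosc herr
  have hF₁s := hm.data.smooth_F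
  have hBigC : Cm + C ≤ Big := by
    rw [hBig]
    have : 0 ≤ C * (1 + B) * 2 ^ (24 * L + 30) := by
      have : 0 ≤ 1 + B := by linarith
      positivity
    linarith
  have hinc : ∀ q : ℕ, 2 * q ≤ L → Bd V q t (fun _ => 1) (fun x => F' x - F x) := by
    intro q hq w hw x hx
    have h1 := hosc' w (by omega) x
    have h2 := hm.close q hq w hw x hx
    rw [DW_sub hV w (hF' x) (hF₁s x)] at h1
    rw [DW_sub hV w (hF₁s x) (hF.smooth x), mul_one] at h2
    rw [DW_sub hV w (hF' x) (hF.smooth x), mul_one]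
    refine (norm_sub_le_norm_sub_add_norm_sub _ (DW V w F₁ x) _).trans
      ((add_le_add (h1.trans ?_) h2).trans (le_trans (b := (Cm + C) * t ^ 2)
        (le_of_eq (by ring : C * t ^ 2 + Cm * t ^ 2 = (Cm + C) * t ^ 2)) ?_))
    · rw [mul_assoc, mul_comm ((1 / t) ^ (8 * w.length))]
      exact mul_le_mul_of_nonneg_left (pow_mul_inv_pow_le ht ht1 (by omega)) hC.le
    · calc (Cm + C) * t ^ 2 = t * (t * (Cm + C)) := by ring
        _ ≤ t := mul_le_of_le_one_right ht.le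
            (le_trans (mul_le_mul_of_nonneg_left hBigC ht.le) htB)
  refine ⟨F', ⟨hF', fun w hw x hx => ?_, fun i k w hw x hx => ?_, fun q hq w hw x hx => ?_⟩, hinc⟩
  · have h1 := hinc 2 (by omega) w hw x hx
    have h2 := hF.near w hw x hx
    rw [DW_sub hV w (hF' x) (hF.smooth x), mul_one] at h1
    rw [DW_sub hV w (hF.smooth x) (hBase.smooth x), mul_one] at h2
    rw [DW_sub hV w (hF' x) (hBase.smooth x), mul_one]
    have h3 := norm_sub_le_norm_sub_add_norm_sub (DW V w F' x) (DW V w F x) (DW V w F₀ x)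
    have h4 : t ^ 8 ≤ t / 2 := by
      calc t ^ 8 ≤ t ^ 2 := pow_le_pow_of_le_one ht.le ht1 (by norm_num)
        _ = t * t := pow_two t
        _ ≤ t / 2 := by rw [div_eq_mul_one_div t 2]; exact mul_le_mul_of_nonneg_left ht2 ht.le
    linarith
  · refine (herr' i k w (by omega) x).trans ?_
    rw [mul_one, mul_assoc (C * (1 + B) * 2 ^ (24 * L + 30)), ← pow_mul,
      mul_comm ((1 / t) ^ (8 * w.length))]
    have h1 := pow_mul_inv_pow_le ht ht1 (a := 4 * (24 * L + 30)) (b := 8 * w.length)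
      (d := 8 * (8 * (L + 1) + 1) + 1) (by omega)
    refine (mul_le_mul_of_nonneg_left h1
      (mul_nonneg (mul_nonneg hC.le (by linarith)) (by positivity))).trans ?_
    have hle : C * (1 + B) * 2 ^ (24 * L + 30) ≤ Big := by rw [hBig]; linarith
    have htC : C * (1 + B) * 2 ^ (24 * L + 30) * t ≤ 1 := by
      rw [mul_comm] at htB
      exact le_trans (mul_le_mul_of_nonneg_right hle ht.le) htB
    calc C * (1 + B) * 2 ^ (24 * L + 30) * t ^ (8 * (8 * (L + 1) + 1) + 1)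
        = C * (1 + B) * 2 ^ (24 * L + 30) * t * t ^ (8 * (8 * (L + 1) + 1)) := by ring
      _ ≤ t ^ (8 * (8 * (L + 1) + 1)) := mul_le_of_le_one_left (by positivity) htC
  · rw [mul_one]
    have h1 := hm.grow q (by omega) w hw x hx
    have h2 := hosc' w (by omega) x
    rw [mul_one] at h1
    rw [DW_sub hV w (hF' x) (hF₁s x)] at h2
    refine (norm_le_insert' (DW V w F' x) (DW V w F₁ x)).trans ?_
    have h2' : ‖DW V w F' x - DW V w F₁ x‖ ≤ C * (1 / t) ^ (8 * q + 1) := by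
      refine h2.trans ?_
      rw [mul_assoc]
      refine mul_le_mul_of_nonneg_left ?_ hC.le
      refine (mul_le_of_le_one_right (by positivity) (pow_le_one₀ ht.le ht1)).trans ?_
      exact pow_le_pow_right₀ (by rw [le_div_iff₀ ht, one_mul]; exact ht1) (by omega)
    refine (add_le_add h1 h2').trans ?_
    have h0 : (1 / t) ^ (2 * q + 1) ≤ (1 / t) ^ (8 * q + 1) :=
      pow_le_pow_right₀ (by rw [le_div_iff₀ ht, one_mul]; exact ht1) (by omega)
    refine le_trans (b := (Cm + C) * (1 / t) ^ (8 * q + 1)) ?_ ?_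
    · rw [add_mul]
      exact add_le_add (mul_le_mul_of_nonneg_left h0 (by linarith)) le_rfl
    · have hb : Cm + C ≤ 1 / t := by
        rw [le_div_iff₀ ht, mul_comm]
        exact le_trans (mul_le_mul_of_nonneg_left hBigC ht.le) htB
      refine (mul_le_mul_of_nonneg_right hb (by positivity)).trans ?_
      rw [← pow_succ', show (1 : ℝ) / t ^ 8 = (1 / t) ^ 8 by rw [one_div_pow], ← pow_mul]
      exact pow_le_pow_right₀ (by rw [le_div_iff₀ ht, one_mul]; exact ht1) (by omega)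

end Vale.Agent.P205.Full.Open
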