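import Vale.Agent.P205.Full.Open.RoundDefs
import Vale.Agent.P205.Full.Open.Sff
import Vale.Agent.P205.Full.Stage.CalculusScale

/-!
# Module OPEN: preparations for one round

Scaled frames, elementary facts about powers of the scale, and the stability of the lower bound
of the second fundamental form near the start map.
-/

open scoped Manifold ContDiff RealInnerProductSpace Topology
open Bundle Filter

namespace Vale.Agent.P205.Full.Open

variable {M : Type} [TopologicalSpace M] [ChartedSpace R2 M] [IsManifold (𝓡 2) ∞ M]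
variable {E : Type} [NormedAddCommGroup E] [NormedSpace ℝ E]
variable {N P : ℕ}

/-- The frame scaled by a constant. -/
noncomputable abbrev sc (c : ℝ) (V : Frame M N) : Frame M N := fun i x => c • V i x

theorem norm_DW_sc {V : Frame M N} (hV : FrameSmooth V) {c : ℝ} (hc : 0 ≤ c) {f : M → E}
    (hf : ContMDiff (𝓡 2) 𝓘(ℝ, E) ∞ f) (w : List (Fin N)) (x : M) :
    ‖DW (sc c V) w f x‖ = c ^ w.length * ‖DW V w f x‖ := by
  rw [DW_smul_frame hV c w (hf x), norm_smul, Real.norm_eq_abs, abs_pow, abs_of_nonneg hc]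

theorem bd_sc {V : Frame M N} (hV : FrameSmooth V) {c : ℝ} (hc : 0 ≤ c) {f : M → E}
    (hf : ContMDiff (𝓡 2) 𝓘(ℝ, E) ∞ f) {K : ℕ} {C : ℝ} {μ : M → ℝ}
    (h : ∀ w : List (Fin N), w.length ≤ K → ∀ x, c ^ w.length * ‖DW V w f x‖ ≤ C * μ x) :
    Bd (sc c V) K C μ f := fun w hw x _ => by
  rw [norm_DW_sc hV hc hf]
  exact h w hw x

theorem D_sc (c : ℝ) (V : Frame M N) (i : Fin N) (f : M → E) :
    D (sc c V) i f = fun x => c • D V i f x :=
  funext fun x => map_smul (mfderiv (𝓡 2) 𝓘(ℝ, E) f x) c (V i x)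

theorem gV_sc (g : Metric M) (c : ℝ) (V : Frame M N) (i k : Fin N) (x : M) :
    gV g (sc c V) i k x = c ^ 2 * gV g V i k x := by
  simp [gV, pow_two, mul_assoc]

theorem pullV_sc (F : M → R4) (c : ℝ) (V : Frame M N) (i k : Fin N) (x : M) :
    pullV F (sc c V) i k x = c ^ 2 * pullV F V i k x := by
  simp [pullV, D_sc, real_inner_smul_left, real_inner_smul_right, pow_two, mul_assoc]

theorem sff_sc {F : M → R4} (hF : ContMDiff (𝓡 2) 𝓘(ℝ, R4) ∞ F) {V : Frame M N}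
    (hV : FrameSmooth V) (c : ℝ) (i k : Fin N) (x : M) :
    sff F (sc c V) i k x = c ^ 2 • sff F V i k x := by
  show (tanPlane F x)ᗮ.starProjection (D (sc c V) i (D (sc c V) k F) x) =
    c ^ 2 • (tanPlane F x)ᗮ.starProjection (D V i (D V k F) x)
  rw [D_sc c V k F, D_sc c V i]
  show (tanPlane F x)ᗮ.starProjection (c • D V i (fun x => c • D V k F x) x) = _
  rw [D_const_smul c (mdiffAt_of_smoothAt (contMDiffAt_D hV k (hF x))),
    smul_smul, map_smul, pow_two]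

/-! ## Powers of the scale -/

theorem mul_pow_le_one {t A : ℝ} (ht : 0 ≤ t) (hA : 1 ≤ A) (h : t * A ^ 8 ≤ 1) {n : ℕ}
    (hn : n ≤ 8) : t * A ^ n ≤ 1 :=
  (mul_le_mul_of_nonneg_left (pow_le_pow_right₀ hA hn) ht).trans h

theorem pow_div_pow {t : ℝ} (ht : 0 < t) (a b d : ℕ) (h : a = b + d) :
    t ^ a * (1 / t) ^ b = t ^ d := by
  subst h
  rw [pow_add, one_div, inv_pow]
  field_simp

theorem pow_mul_inv_pow_le {t : ℝ} (ht : 0 < t) (ht1 : t ≤ 1) {a b d : ℕ} (h : b + d ≤ a) :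
    t ^ a * (1 / t) ^ b ≤ t ^ d := by
  rw [show a = b + (a - b) from by omega, pow_div_pow ht _ b (a - b) rfl]
  exact pow_le_pow_of_le_one ht.le ht1 (by omega)

/-! ## The neighbourhood of the start map -/

theorem set_inv2 : {a : Fin N → R4 | inv2 (gram a) ≠ 0} =
    {a | (∑ i, (⟪a i, a i⟫ : ℝ)) ^ 2 ≠ ∑ i, ∑ k, (⟪a i, a k⟫ : ℝ) * ⟪a k, a i⟫} := by
  ext a
  simp [inv2, gram, sub_eq_zero]

/-- Stability near a start map. -/
theorem exists_near {S : Set (Fin N → R4)} (hS : IsCompact S)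
    (hSU : S ⊆ {a | (∑ i, (⟪a i, a i⟫ : ℝ)) ^ 2 ≠ ∑ i, ∑ k, (⟪a i, a k⟫ : ℝ) * ⟪a k, a i⟫})
    (ρ : ℝ) (hρ : 0 < ρ) :
    ∃ (S' : Set (Fin N → R4)) (R A₁ : ℝ), IsCompact S' ∧
      S' ⊆ {a | inv2 (gram a) ≠ 0} ∧ 1 ≤ R ∧ 2 ≤ A₁ ∧ (∀ a ∈ S', ‖a‖ ≤ R) ∧
      ∀ (M : Type) [TopologicalSpace M] [ChartedSpace R2 M] [IsManifold (𝓡 2) ∞ M]
        (P : ℕ) (g : Metric M) (V : Frame M N) (y : Fin P → M → ℝ) (CF A : ℝ) (F₀ F : M → R4),
        Ctx g V y CF ρ S → A₁ ≤ A → Base g V A F₀ → ContMDiff (𝓡 2) 𝓘(ℝ, R4) ∞ F →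
        Bd V 2 (4 * (A ^ 8)⁻¹) (fun _ => 1) (fun x => F x - F₀ x) →
        ∀ x, dF F V x ∈ S' ∧ 1 ≤ 3 * A * sffSize F V x := by
  rw [← set_inv2] at hSU
  obtain ⟨r₀, C, hr₀, hC, hnorm, hlip⟩ := exists_normalOp_lipschitz hS hSU
  obtain ⟨r₁, hr₁, hsub⟩ := hS.exists_cthickening_subset_open isOpen_immersive hSU
  obtain ⟨R, hR⟩ := (hS.cthickening (r := r₁)).exists_bound_of_continuousOn continuousOn_id
  set r := min r₀ r₁ with hr
  have hr0 : 0 < r := lt_min hr₀ hr₁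
  refine ⟨Metric.cthickening r₁ S, max R 1,
    max (max (max 2 ρ⁻¹) (4 / r)) (48 * C * ((N : ℝ) ^ 2 + 1)), hS.cthickening, hsub,
    le_max_right _ _,
    le_trans (le_max_left 2 ρ⁻¹) (le_trans (le_max_left _ _) (le_max_left _ _)),
    fun a ha => (hR a ha).trans (le_max_left _ _), ?_⟩
  intro M _ _ _ P g V y CF A F₀ F hctx hA hB hF hd x
  have hA2 : (2 : ℝ) ≤ A := le_trans (le_max_left 2 ρ⁻¹)
    (le_trans (le_max_left _ _) (le_trans (le_max_left _ _) hA))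
  have hA1 : (1 : ℝ) ≤ A := by linarith
  have hA0 : 0 < A := by linarith
  have hAρ : (A ^ 264)⁻¹ ≤ ρ := by
    have h1 : ρ⁻¹ ≤ A := le_trans (le_max_right 2 ρ⁻¹)
      (le_trans (le_max_left _ _) (le_trans (le_max_left _ _) hA))
    calc (A ^ 264)⁻¹ ≤ A⁻¹ := inv_anti₀ hA0 (le_self_pow₀ hA1 (by norm_num))
      _ ≤ ρ := inv_le_of_inv_le₀ hρ h1
  have hA8 : (A ^ 8)⁻¹ ≤ A⁻¹ := inv_anti₀ hA0 (le_self_pow₀ hA1 (by norm_num))
  have hdr : 4 * (A ^ 8)⁻¹ ≤ r := by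
    have h1 : 4 / r ≤ A := le_trans (le_max_right _ _) (le_trans (le_max_left _ _) hA)
    rw [div_le_iff₀ hr0] at h1
    calc 4 * (A ^ 8)⁻¹ ≤ 4 * A⁻¹ := mul_le_mul_of_nonneg_left hA8 (by norm_num)
      _ ≤ r := by rw [← div_eq_mul_inv, div_le_iff₀ hA0]; linarith
  have ha : dF F₀ V x ∈ S := hctx.jets F₀ x fun i k => by
    have := (hB.res i k) [] (Nat.zero_le _) x (Set.mem_univ x)
    simpa [DW] using this.trans (by rw [mul_one]; exact hAρ)
  have hV := hctx.smooth_V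
  have hsub' : ∀ y, ContMDiffAt (𝓡 2) 𝓘(ℝ, R4) ∞ F y ∧ ContMDiffAt (𝓡 2) 𝓘(ℝ, R4) ∞ F₀ y :=
    fun y => ⟨hF y, hB.smooth y⟩
  have hd1 : ∀ i, ‖D V i F x - D V i F₀ x‖ ≤ 4 * (A ^ 8)⁻¹ := fun i => by
    have := hd [i] (by simp) x (Set.mem_univ x)
    rw [DW_sub hV [i] (hsub' x).1 (hsub' x).2] at this
    simpa [DW] using this
  have hd2 : ∀ i k, ‖D V i (D V k F) x - D V i (D V k F₀) x‖ ≤ 4 * (A ^ 8)⁻¹ := fun i k => by
    have := hd [i, k] (by simp) x (Set.mem_univ x)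
    rw [DW_sub hV [i, k] (hsub' x).1 (hsub' x).2] at this
    simpa [DW] using this
  have hdiff : ‖dF F V x - dF F₀ V x‖ ≤ 4 * (A ^ 8)⁻¹ :=
    (pi_norm_le_iff_of_nonneg (by positivity)).2 fun i => hd1 i
  have hmem : dF F V x ∈ Metric.cthickening r₁ S :=
    Metric.mem_cthickening_of_dist_le _ _ r₁ S ha
      (by rw [dist_eq_norm]; exact hdiff.trans (hdr.trans (min_le_right _ _)))
  refine ⟨hmem, ?_⟩
  have hlip' := hlip _ ha _ (hdiff.trans (hdr.trans (min_le_left _ _)))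
  have hstep : ∀ i k, ‖sff F₀ V i k x‖ ≤ ‖sff F V i k x‖ + 16 * C * A * (A ^ 8)⁻¹ := by
    intro i k
    rw [sff_eq_normalOp V hctx.spans F₀ x (hSU ha) i k,
      sff_eq_normalOp V hctx.spans F x (hsub hmem) i k]
    set n := normalOp (dF F V x)
    set n₀ := normalOp (dF F₀ V x)
    set v := D V i (D V k F) x
    set v₀ := D V i (D V k F₀) x
    have hv₀ : ‖v₀‖ ≤ A := by
      simpa [DW] using hB.bd [i, k] (by simp) x (Set.mem_univ x)
    have hsplit : n₀ v₀ = n v + ((n₀ - n) v + n₀ (v₀ - v)) := by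
      simp only [map_sub, sub_apply]; abel
    rw [hsplit]
    refine (norm_add_le _ _).trans (add_le_add le_rfl ((norm_add_le _ _).trans ?_))
    have hv : ‖v‖ ≤ 3 * A := by
      have := norm_le_insert' v v₀
      have := hd2 i k
      nlinarith [inv_le_one_of_one_le₀ hA1]
    have e1 : ‖(n₀ - n) v‖ ≤ C * (4 * (A ^ 8)⁻¹) * (3 * A) := by
      refine (ContinuousLinearMap.le_opNorm _ _).trans (mul_le_mul ?_ hv (norm_nonneg _)
        (by positivity))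
      rw [norm_sub_rev]
      exact hlip'.trans (mul_le_mul_of_nonneg_left hdiff (by linarith))
    have e2 : ‖n₀ (v₀ - v)‖ ≤ C * (4 * (A ^ 8)⁻¹) := by
      refine (n₀.le_opNorm _).trans (mul_le_mul (hnorm _ ha) ?_ (norm_nonneg _) (by linarith))
      rw [norm_sub_rev]; exact hd2 i k
    have : C * (4 * (A ^ 8)⁻¹) ≤ C * (4 * (A ^ 8)⁻¹) * A :=
      le_mul_of_one_le_right (by positivity) hA1
    nlinarith
  have hsum : sffSize F₀ V x ≤ sffSize F V x + (N : ℝ) ^ 2 * (16 * C * A * (A ^ 8)⁻¹) := by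
    unfold sffSize
    refine (Finset.sum_le_sum fun i _ => Finset.sum_le_sum fun k _ => hstep i k).trans
      (le_of_eq ?_)
    simp only [Finset.sum_add_distrib, Finset.sum_const, Finset.card_univ, Fintype.card_fin,
      nsmul_eq_mul]
    ring
  have hsmall : A * ((N : ℝ) ^ 2 * (16 * C * A * (A ^ 8)⁻¹)) ≤ 1 / 3 := by
    have hbig : 48 * C * ((N : ℝ) ^ 2 + 1) ≤ A := le_trans (le_max_right _ _) hA
    have e : A * A * (A ^ 8)⁻¹ ≤ A⁻¹ := by
      rw [← div_eq_mul_inv, div_le_iff₀ (by positivity), show A ^ 8 = A * (A * A * A ^ 5) by ring,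
        ← mul_assoc A⁻¹, inv_mul_cancel₀ hA0.ne', one_mul]
      exact le_mul_of_one_le_right (by positivity) (one_le_pow₀ hA1)
    calc A * ((N : ℝ) ^ 2 * (16 * C * A * (A ^ 8)⁻¹))
        = (N : ℝ) ^ 2 * 16 * C * (A * A * (A ^ 8)⁻¹) := by ring
      _ ≤ (N : ℝ) ^ 2 * 16 * C * A⁻¹ := mul_le_mul_of_nonneg_left e (by positivity)
      _ ≤ 1 / 3 := by
        rw [← div_eq_mul_inv, div_le_iff₀ hA0]
        nlinarith
  have h0 := hB.sff_lower x
  nlinarith [mul_le_mul_of_nonneg_left hsum hA0.le]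

end Vale.Agent.P205.Full.Open
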