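import Vale.Agent.P205.Full.Open.SmoothChart

/-!
# P205 full, module O1: smoothing operators on a compact surface (helper9)

`smoothing` gives, for each order `p`, operators `S k` with
`‖S k f‖_w ≤ C k^-(w-v)₊ ‖f‖_v` and `‖S k f - f‖_w ≤ C k^q ‖f‖_(w+q)` for `q ≤ p`,
all norms being sup norms of frame derivatives.
-/

open scoped Manifold ContDiff
open Bundle

namespace Vale.Agent.P205.Full

/-- **O1.** Smoothing operators. -/
def SmoothingProp : Prop :=
  ∀ (M : Type) [TopologicalSpace M] [T2Space M] [CompactSpace M] [ChartedSpace R2 M]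
    [IsManifold (𝓡 2) ∞ M] (N : ℕ) (V : Frame M N), FrameSmooth V → FrameSpans V →
    ∀ (p : ℕ) (E : Type) [NormedAddCommGroup E] [NormedSpace ℝ E] [CompleteSpace E],
      ∃ S : ℝ → (M → E) → (M → E),
        (∀ k f, 0 < k → ContMDiff (𝓡 2) 𝓘(ℝ, E) ∞ f → ContMDiff (𝓡 2) 𝓘(ℝ, E) ∞ (S k f)) ∧
        (∀ w v : ℕ, ∃ C, 0 ≤ C ∧ ∀ k : ℝ, 0 < k → k ≤ 1 → ∀ f,
          ContMDiff (𝓡 2) 𝓘(ℝ, E) ∞ f → ∀ A, Bd V v A (fun _ => 1) f →
            Bd V w (C * (1 / k) ^ (w - v) * A) (fun _ => 1) (S k f)) ∧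
        (∀ w q : ℕ, q ≤ p → ∃ C, 0 ≤ C ∧ ∀ k : ℝ, 0 < k → k ≤ 1 → ∀ f,
          ContMDiff (𝓡 2) 𝓘(ℝ, E) ∞ f → ∀ A, Bd V (w + q) A (fun _ => 1) f →
            Bd V w (C * k ^ q * A) (fun _ => 1) (fun x => S k f x - f x))

open Smooth in
theorem smoothing : SmoothingProp := by
  intro M _ _ _ _ _ N V hV hs p E _ _ _
  obtain ⟨t, ht⟩ := isCompact_univ.elim_finite_subcover (fun x : M => (chartAt R2 x).source)
    (fun x => (chartAt R2 x).open_source) fun x _ => Set.mem_iUnion.mpr ⟨x, mem_chart_source R2 x⟩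
  obtain ⟨ρ, hρ⟩ := SmoothPartitionOfUnity.exists_isSubordinate (𝓡 2) isClosed_univ
    (fun a : t => (chartAt R2 (a : M)).source) (fun a => (chartAt R2 (a : M)).open_source)
    (fun x _ => by
      obtain ⟨a, ha, hxa⟩ := Set.mem_iUnion₂.mp (ht (Set.mem_univ x))
      exact Set.mem_iUnion.mpr ⟨⟨a, ha⟩, hxa⟩)
  have hsum : ∀ x : M, ∑ a : t, ρ a x = 1 := fun x => by
    rw [← finsum_eq_sum_of_fintype]
    exact ρ.sum_eq_one (Set.mem_univ x)
  have hK : ∀ a : t, IsCompact (tsupport (ρ a)) := fun a => (isClosed_tsupport _).isCompact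
  choose β hβ hβs hβ1 using fun a : t =>
    exists_cutoff (hK a) (chartAt R2 (a : M)).open_source (hρ a)
  have hρsm : ∀ a : t, Sm (ρ a : M → ℝ) := fun a => (ρ a).contMDiff
  -- the piece of `f` in the chart `a`
  let piece : t → (M → E) → R2 → E := fun a f => ext (a : M) (fun x => ρ a x • f x)
  have hpiece : ∀ a f, Sm f → Nice (piece a f) := fun a f hf =>
    nice_ext (contMDiff_smul (hρsm a) hf) ((tsupport_smul_subset_left _ _).trans (hρ a))
  -- derivatives of the pieces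
  have hpd : ∀ n : ℕ, ∃ C, 0 ≤ C ∧ ∀ f : M → E, Sm f → ∀ A, 0 ≤ A → Bd V n A (fun _ => 1) f →
      ∀ (a : t) (l : List (Fin 2)), l.length ≤ n → ∀ z, ‖pdW l (piece a f) z‖ ≤ C * A := by
    intro n
    have h1 : ∀ a : t, ∃ C, 0 ≤ C ∧ ∀ u : List (Fin N), u.length ≤ n →
        ∀ f : M → E, Sm f → ∀ A : ℝ, 0 ≤ A →
          (∀ u' : List (Fin N), u'.length ≤ u.length → ∀ x, ‖DW V u' f x‖ ≤ A) →
          ∀ x, ‖DW V u (fun y => ρ a y • f y) x‖ ≤ C * A := fun a =>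
      exists_uniform
        (fun u C C' hle hP f hf A hA0 hA x =>
          (hP f hf A hA0 hA x).trans (mul_le_mul_of_nonneg_right hle hA0))
        (fun u => by
          obtain ⟨C, hC0, hC⟩ := norm_DW_smul_le (E := E) hV u (ρ a) (hρsm a)
          exact ⟨C, hC0, fun f hf A _ hA => hC f hf A hA⟩) n
    choose C₁ hC₁0 hC₁ using h1
    have h2 : ∀ a : t, ∃ C, 0 ≤ C ∧ ∀ l : List (Fin 2), l.length ≤ n →
        ∀ h : M → E, Sm h → tsupport h ⊆ tsupport (ρ a) → ∀ A : ℝ, 0 ≤ A →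
          (∀ u : List (Fin N), u.length ≤ l.length → ∀ x, ‖DW V u h x‖ ≤ A) →
          ∀ z, ‖pdW l (ext (a : M) h) z‖ ≤ C * A := fun a =>
      exists_uniform
        (fun l C C' hle hP h hh hsh A hA0 hA z =>
          (hP h hh hsh A hA0 hA z).trans (mul_le_mul_of_nonneg_right hle hA0))
        (fun l => norm_pdW_ext_le hV hs (a : M) (hK a) (hρ a) l) n
    choose C₂ hC₂0 hC₂ using h2
    refine ⟨∑ a, C₂ a * C₁ a, Finset.sum_nonneg fun a _ => mul_nonneg (hC₂0 a) (hC₁0 a),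
      fun f hf A hA0 hfA a l hl z => ?_⟩
    refine (hC₂ a l hl _ (contMDiff_smul (hρsm a) hf) (tsupport_smul_subset_left _ _)
      (C₁ a * A) (mul_nonneg (hC₁0 a) hA0)
      (fun u hu x => hC₁ a u (hu.trans hl) f hf A hA0
        (fun u' hu' y => by simpa using hfA u' (by omega) y (Set.mem_univ y)) x) z).trans ?_
    rw [← mul_assoc]
    exact mul_le_mul_of_nonneg_right (Finset.single_le_sum (f := fun a => C₂ a * C₁ a)
      (fun a _ => mul_nonneg (hC₂0 a) (hC₁0 a)) (Finset.mem_univ a)) hA0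
  -- derivatives of what is pushed back
  have hback : ∀ n : ℕ, ∃ C, 0 ≤ C ∧ ∀ G : t → R2 → E, (∀ a, ContDiff ℝ ∞ (G a)) → ∀ B, 0 ≤ B →
      (∀ a (l : List (Fin 2)), l.length ≤ n → ∀ z, ‖pdW l (G a) z‖ ≤ B) →
      ∀ u : List (Fin N), u.length ≤ n → ∀ x,
        ‖DW V u (fun y => ∑ a : t, push (a : M) (β a) (G a) y) x‖ ≤ C * B := by
    intro n
    have h1 : ∀ a : t, ∃ C, 0 ≤ C ∧ ∀ u : List (Fin N), u.length ≤ n →
        ∀ G : R2 → E, ContDiff ℝ ∞ G → ∀ B : ℝ, 0 ≤ B →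
          (∀ l : List (Fin 2), l.length ≤ u.length → ∀ z, ‖pdW l G z‖ ≤ B) →
          ∀ x, ‖DW V u (push (a : M) (β a) G) x‖ ≤ C * B := fun a =>
      exists_uniform
        (fun u C C' hle hP G hG B hB0 hB x =>
          (hP G hG B hB0 hB x).trans (mul_le_mul_of_nonneg_right hle hB0))
        (fun u => by
          obtain ⟨C, hC0, hC⟩ := norm_DW_push_le (E := E) hV u (β a) (hβ a) (hβs a)
          exact ⟨C, hC0, fun G hG B _ hB => hC G hG B hB⟩) n
    choose C₁ hC₁0 hC₁ using h1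
    refine ⟨∑ a, C₁ a, Finset.sum_nonneg fun a _ => hC₁0 a, fun G hG B hB0 hB u hu x => ?_⟩
    rw [DW_sum hV Finset.univ _ (fun a => sm_push (hβ a) (hβs a) (hG a)) u, Finset.sum_mul]
    exact (norm_sum_le _ _).trans (Finset.sum_le_sum fun a _ =>
      hC₁ a u hu (G a) (hG a) B hB0 (fun l hl => hB a l (hl.trans hu)) x)
  refine ⟨fun k f x => ∑ a : t, push (a : M) (β a) (smo p k (piece a f)) x, ?_, ?_, ?_⟩
  · exact fun k f hk hf => contMDiff_finsetSum fun a _ =>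
      sm_push (hβ a) (hβs a) ((hpiece a f hf).smo hk p).1
  · intro w v
    obtain ⟨C₁, hC₁0, hC₁⟩ := hpd v
    obtain ⟨C₂, hC₂0, hC₂⟩ := hback w
    obtain ⟨C₃, hC₃0, hC₃⟩ := exists_uniform (β := Fin 2)
      (P := fun l C => ∀ k : ℝ, 0 < k → ∀ G : R2 → E, Nice G → ∀ A : ℝ,
        (∀ l' : List (Fin 2), l'.length ≤ v → ∀ z, ‖pdW l' G z‖ ≤ A) →
        ∀ z, ‖pdW l (smo p k G) z‖ ≤ C * (1 / k) ^ (l.length - v) * A)
      (fun l C C' hle hP k hk G hG A hA z => (hP k hk G hG A hA z).trans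
        (mul_le_mul_of_nonneg_right (mul_le_mul_of_nonneg_right hle (by positivity))
          ((norm_nonneg _).trans (hA [] (by simp) z))))
      (fun l => norm_pdW_smo_le p l v) w
    refine ⟨C₂ * C₃ * C₁, by positivity, fun k hk hk1 f hf A hfA u hu x _ => ?_⟩
    have hA0 : 0 ≤ A := by simpa using (norm_nonneg _).trans (hfA [] (by simp) x (Set.mem_univ x))
    have h1k : 1 ≤ 1 / k := (one_le_div hk).mpr hk1
    refine (hC₂ _ (fun a => ((hpiece a f hf).smo hk p).1) (C₃ * (1 / k) ^ (w - v) * (C₁ * A))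
      (by positivity) (fun a l hl z => ?_) u hu x).trans_eq (by ring)
    refine (hC₃ l hl k hk _ (hpiece a f hf) (C₁ * A)
      (fun l' hl' => hC₁ f hf A hA0 hfA a l' hl') z).trans ?_
    gcongr
  · intro w q hq
    obtain ⟨C₁, hC₁0, hC₁⟩ := hpd (w + q)
    obtain ⟨C₂, hC₂0, hC₂⟩ := hback w
    refine ⟨C₂ * 2 ^ p * C₁, by positivity, fun k hk _ f hf A hfA u hu x _ => ?_⟩
    have hA0 : 0 ≤ A := by simpa using (norm_nonneg _).trans (hfA [] (by simp) x (Set.mem_univ x))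
    have hfsum : ∀ y, f y = ∑ a : t, push (a : M) (β a) (piece a f) y := fun y => by
      conv_lhs => rw [← one_smul ℝ (f y), ← hsum y, Finset.sum_smul]
      refine Finset.sum_congr rfl fun a _ => ?_
      by_cases hy : y ∈ tsupport (ρ a)
      · have hys := hρ a hy
        simp only [push, piece, Smooth.ext, hβ1 a y hy, one_smul]
        rw [Set.indicator_of_mem ((chartAt R2 (a : M)).map_source hys), Function.comp_apply,
          (chartAt R2 (a : M)).left_inv hys]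
      · rw [image_eq_zero_of_notMem_tsupport hy, zero_smul]
        by_cases hys : y ∈ (chartAt R2 (a : M)).source
        · simp [push, piece, Smooth.ext, (chartAt R2 (a : M)).map_source hys,
            (chartAt R2 (a : M)).left_inv hys, image_eq_zero_of_notMem_tsupport hy]
        · simp [push, image_eq_zero_of_notMem_tsupport fun h => hys (hβs a h)]
    have heq : (fun y => (∑ a : t, push (a : M) (β a) (smo p k (piece a f)) y) - f y)
        = fun y => ∑ a : t, push (a : M) (β a) (smo p k (piece a f) - piece a f) y := by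
      funext y
      rw [hfsum y, ← Finset.sum_sub_distrib]
      exact Finset.sum_congr rfl fun a _ => (smul_sub _ _ _).symm
    rw [heq]
    refine (hC₂ _ (fun a => (((hpiece a f hf).smo hk p).sub (hpiece a f hf)).1)
      (2 ^ p * k ^ q * (C₁ * A)) (by positivity) (fun a l hl z => ?_) u hu x).trans_eq (by ring)
    exact norm_pdW_smo_sub_le hq l k hk _ (hpiece a f hf) (C₁ * A)
      (fun l' hl' => hC₁ f hf A hA0 hfA a l' (by omega)) z

end Vale.Agent.P205.Full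

/-- **O1**, as consumed by the openness iteration. -/
theorem Vale.Agent.P205.Full.Open.exists_smoothing {M : Type} [TopologicalSpace M] [T2Space M]
    [CompactSpace M] [ChartedSpace Vale.Agent.P205.Full.R2 M] [IsManifold (𝓡 2) ∞ M] {N : ℕ}
    (V : Vale.Agent.P205.Full.Frame M N) (hV : Vale.Agent.P205.Full.FrameSmooth V)
    (hs : Vale.Agent.P205.Full.FrameSpans V) (p : ℕ) (E : Type) [NormedAddCommGroup E]
    [NormedSpace ℝ E] [CompleteSpace E] :
    ∃ S : ℝ → (M → E) → (M → E),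
      (∀ k f, 0 < k → ContMDiff (𝓡 2) 𝓘(ℝ, E) ∞ f → ContMDiff (𝓡 2) 𝓘(ℝ, E) ∞ (S k f)) ∧
      (∀ w v : ℕ, ∃ C, 0 ≤ C ∧ ∀ k : ℝ, 0 < k → k ≤ 1 → ∀ f,
        ContMDiff (𝓡 2) 𝓘(ℝ, E) ∞ f → ∀ A, Vale.Agent.P205.Full.Bd V v A (fun _ => 1) f →
          Vale.Agent.P205.Full.Bd V w (C * (1 / k) ^ (w - v) * A) (fun _ => 1) (S k f)) ∧
      (∀ w q : ℕ, q ≤ p → ∃ C, 0 ≤ C ∧ ∀ k : ℝ, 0 < k → k ≤ 1 → ∀ f,
        ContMDiff (𝓡 2) 𝓘(ℝ, E) ∞ f → ∀ A, Vale.Agent.P205.Full.Bd V (w + q) A (fun _ => 1) f →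
          Vale.Agent.P205.Full.Bd V w (C * k ^ q * A) (fun _ => 1) (fun x => S k f x - f x)) :=
  Vale.Agent.P205.Full.smoothing M N V hV hs p E
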