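import Vale.Agent.P205.Full.Open.RoundAux
import Vale.Agent.P205.Full.Open.Smoothing

/-!
# Module OPEN: the smoothed map of one round
-/

open scoped Manifold ContDiff RealInnerProductSpace Topology
open Bundle Filter

namespace Vale.Agent.P205.Full.Open

/-- Smoothing at scale `t ^ 2`: closeness at low orders, growth at all orders up to `Wmax`. -/
theorem exists_smoothed {M : Type} [TopologicalSpace M] [T2Space M] [CompactSpace M]
    [ChartedSpace R2 M] [IsManifold (𝓡 2) ∞ M] {N : ℕ} (V : Frame M N) (hV : FrameSmooth V)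
    (hs : FrameSpans V) (L Wmax : ℕ) :
    ∃ Cs : ℝ, 1 ≤ Cs ∧ ∀ t : ℝ, 0 < t → t ≤ 1 → ∀ A : ℝ, 0 ≤ A → ∀ F : M → R4,
      ContMDiff (𝓡 2) 𝓘(ℝ, R4) ∞ F → Bd V 2 A (fun _ => 1) F →
      (∀ q : ℕ, q ≤ 24 * L + 12 → Bd V q ((1 / t) ^ (q + 1)) (fun _ => 1) F) →
      ∃ G : M → R4, ContMDiff (𝓡 2) 𝓘(ℝ, R4) ∞ G ∧
        (∀ q : ℕ, q ≤ 4 * L + 2 →
          Bd V q (Cs * t ^ (20 * L + 9 - q)) (fun _ => 1) (fun x => G x - F x)) ∧
        ∀ v : ℕ, v ≤ 2 → ∀ w : List (Fin N), w.length ≤ Wmax → ∀ x,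
          ‖DW V w G x‖ ≤ Cs * (1 / t ^ 2) ^ (w.length - v) * A := by
  obtain ⟨S, hsm, hup, herr⟩ := exists_smoothing V hV hs (20 * L + 10) R4
  choose Cu hCu0 hCu using hup
  choose Ce hCe0 hCe using fun w : ℕ => herr w (20 * L + 10) le_rfl
  set Cs : ℝ := 1 + (∑ w ∈ Finset.range (Wmax + 1), ∑ v ∈ Finset.range 3, Cu w v) +
    ∑ q ∈ Finset.range (4 * L + 3), Ce q with hCs
  have hu0 : 0 ≤ ∑ w ∈ Finset.range (Wmax + 1), ∑ v ∈ Finset.range 3, Cu w v :=
    Finset.sum_nonneg fun w _ => Finset.sum_nonneg fun v _ => hCu0 w v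
  have he0 : 0 ≤ ∑ q ∈ Finset.range (4 * L + 3), Ce q := Finset.sum_nonneg fun q _ => hCe0 q
  refine ⟨Cs, by rw [hCs]; linarith, fun t ht ht1 A hA F hF h2 hhigh => ?_⟩
  have hk : 0 < t ^ 2 := by positivity
  have hk1 : t ^ 2 ≤ 1 := pow_le_one₀ ht.le ht1
  refine ⟨S (t ^ 2) F, hsm _ _ hk hF, fun q hq => ?_, fun v hv w hw x => ?_⟩
  · have hb := hCe q (t ^ 2) hk hk1 F hF _ (hhigh (q + (20 * L + 10)) (by omega))
    refine hb.mono_const ?_ fun _ _ => zero_le_one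
    have hle : Ce q ≤ Cs := by
      have := Finset.single_le_sum (f := Ce) (fun z _ => hCe0 z)
        (Finset.mem_range.2 (show q < 4 * L + 3 by omega))
      rw [hCs]; linarith
    rw [← pow_mul, mul_assoc, pow_div_pow ht _ _ (20 * L + 9 - q) (by omega)]
    exact mul_le_mul_of_nonneg_right hle (by positivity)
  · have hb := hCu w.length v (t ^ 2) hk hk1 F hF A (BdOn.mono_order h2 hv)
      w le_rfl x (Set.mem_univ x)
    rw [mul_one] at hb
    refine hb.trans (mul_le_mul_of_nonneg_right (mul_le_mul_of_nonneg_right ?_ (by positivity)) hA)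
    have h1 : Cu w.length v ≤ ∑ v ∈ Finset.range 3, Cu w.length v :=
      Finset.single_le_sum (f := fun v => Cu w.length v) (fun z _ => hCu0 _ z)
        (Finset.mem_range.2 (by omega))
    have h2' : ∑ v ∈ Finset.range 3, Cu w.length v ≤
        ∑ w ∈ Finset.range (Wmax + 1), ∑ v ∈ Finset.range 3, Cu w v :=
      Finset.single_le_sum (f := fun w => ∑ v ∈ Finset.range 3, Cu w v)
        (fun z _ => Finset.sum_nonneg fun v _ => hCu0 z v) (Finset.mem_range.2 (by omega))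
    rw [hCs]; linarith

end Vale.Agent.P205.Full.Open
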