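import Vale.Agent.P205.Full.Open.RoundRes
import Vale.Agent.P205.Full.Open.RoundMid

/-!
# Module OPEN: the hypotheses of the stage in one round
-/

open scoped Manifold ContDiff RealInnerProductSpace Topology
open Bundle Filter

namespace Vale.Agent.P205.Full.Open

variable {M : Type} [TopologicalSpace M] [ChartedSpace R2 M] [IsManifold (𝓡 2) ∞ M] {N P : ℕ}

omit [IsManifold (𝓡 2) ∞ M] in
theorem contMDiff_const_smul {E : Type} [NormedAddCommGroup E] [NormedSpace ℝ E] (a : ℝ)
    {f : M → E} (hf : ContMDiff (𝓡 2) 𝓘(ℝ, E) ∞ f) :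
    ContMDiff (𝓡 2) 𝓘(ℝ, E) ∞ (fun x => a • f x) :=
  fun x => (a • ContinuousLinearMap.id ℝ E).contDiff.contDiffAt.comp_contMDiffAt (hf x)

theorem bd_const_self {V : Frame M N} {K : ℕ} {B r : ℝ} (hB : 1 ≤ B) (hr : 0 ≤ r) :
    Bd V K B (fun _ => r) (fun _ : M => r) :=
  bdOn_const r fun _ _ => by
    rw [Real.norm_eq_abs, abs_of_nonneg hr]; exact le_mul_of_one_le_left hr hB

theorem frame_sum_sc (g : Metric M) (V : Frame M N) (c : ℝ) (x : M)
    (v : TangentSpace (𝓡 2) x) :
    ∑ i, (g.inner x (sc c V i x) v) ^ 2 = c ^ 2 * ∑ i, (g.inner x (V i x) v) ^ 2 := by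
  simp only [sc, map_smul, smul_apply, smul_eq_mul, mul_pow, ← Finset.mul_sum]

/-- The hypotheses of the stage from the facts about one smoothed and shrunk map `a • G`. -/
theorem stageData_of {g : Metric M} {V : Frame M N} {y : Fin P → M → ℝ} {CF ρ : ℝ}
    {S : Set (Fin N → R4)} (hctx : Ctx g V y CF ρ S) {K : ℕ} {B Cd δ c a σ A : ℝ}
    {G : M → R4} (hG : ContMDiff (𝓡 2) 𝓘(ℝ, R4) ∞ G) (hc : 0 < c) (hc1 : c ≤ 1)
    (hσ : 0 < σ) (hσ1 : σ ≤ 1) (ha : a * a = 1 - σ) (hB : 1 ≤ B) (hCF : CF ≤ B)
    (hCd : Cd ≤ B) (hA : c * (Cd * A) ≤ B)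
    (hg : ∀ i k, Bd V K B (fun _ => 1) (gV g V i k))
    (hy : ∀ p i, Bd V K B (fun _ => 1) (D V i (y p)))
    (hD : ∀ i, ∀ w : List (Fin N), w.length ≤ K → ∀ x,
      c ^ w.length * ‖DW V w (D V i (fun z => a • G z)) x‖ ≤ Cd)
    (hsS : ContMDiff (𝓡 2) 𝓘(ℝ, ℝ) ∞ (sSize (fun z => a • G z) V))
    (hsm : ∀ i k, ContMDiff (𝓡 2) 𝓘(ℝ, R4) ∞ (sff (fun z => a • G z) V i k))
    (hpos : ∀ x, 0 < sSize (fun z => a • G z) V x)
    (hle : ∀ x, sSize (fun z => a • G z) V x ≤ Cd * A)
    (hbS : Bd (sc c V) K Cd (sSize (fun z => a • G z) V) (sSize (fun z => a • G z) V))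
    (hbu : ∀ i k, Bd (sc c V) K Cd (sSize (fun z => a • G z) V)
      (sff (fun z => a • G z) V i k))
    (hres : ∀ i k, ∀ w : List (Fin N), w.length ≤ K → ∀ x,
      c ^ w.length * ‖DW V w (fun z => gV g V i k z - pullV G V i k z) x‖ ≤ δ * σ) :
    StageData g (sc c V) (fun z => a • G z) (fun _ => c)
      (fun x => c * sSize (fun z => a • G z) V x) (fun _ => σ)
      (fun p x => c⁻¹ * y p x) (fun _ _ => 1) K B δ where
  smooth_V := frameSmooth_const_smul hctx.smooth_V c
  smooth_F := contMDiff_const_smul a hG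
  smooth_ℓ := contMDiff_const
  smooth_H := contMDiff_const_smul c hsS
  smooth_σ := contMDiff_const
  smooth_Y := fun p => contMDiff_const_smul c⁻¹ (hctx.smooth_y p)
  smooth_χ := fun p => contMDiff_const
  pos_ℓ := fun _ => hc
  pos_H := fun x => mul_pos hc (hpos x)
  le_H := fun x => (mul_le_mul_of_nonneg_left (hle x) hc.le).trans hA
  pos_σ := fun _ => hσ
  bd_ℓ := bd_const_self hB hc.le
  bd_H := (BdOn.const_smul (frameSmooth_const_smul hctx.smooth_V c) c (fun x _ => hsS x)
    hbS).mono_bound fun x _ => by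
      rw [abs_of_nonneg hc.le, mul_right_comm, mul_comm]
      exact mul_le_mul_of_nonneg_right hCd (mul_nonneg hc.le (hpos x).le)
  bd_σ := bd_const_self hB hσ.le
  frame_lower := fun x v => by
    rw [frame_sum_sc]
    refine (mul_le_mul_of_nonneg_left (hctx.lower x v) (sq_nonneg c)).trans ?_
    rw [mul_left_comm]
    exact mul_le_mul_of_nonneg_right hCF (by positivity)
  frame_upper := fun x v => by
    rw [frame_sum_sc, mul_left_comm B]
    refine mul_le_mul_of_nonneg_left ((hctx.upper x v).trans ?_) (sq_nonneg c)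
    refine mul_le_mul_of_nonneg_right hCF ?_
    rcases eq_or_ne v 0 with rfl | hv
    · simp
    · exact (g.pos x v hv).le
  bd_g := fun i k => by
    have hV := hctx.smooth_V
    have e : gV g (sc c V) i k = fun x => c ^ 2 • gV g V i k x :=
      funext fun x => gV_sc g c V i k x
    rw [e]
    refine bd_sc hV hc.le (contMDiff_const_smul _ (contMDiff_gV g hV i k)) fun w hw x => ?_
    rw [DW_const_smul hV _ w (contMDiff_gV g hV i k x), norm_smul, Real.norm_eq_abs,
      abs_of_nonneg (sq_nonneg c), mul_left_comm, mul_comm B]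
    refine mul_le_mul_of_nonneg_left ((mul_le_of_le_one_left (norm_nonneg _)
      (pow_le_one₀ hc.le hc1)).trans ?_) (sq_nonneg c)
    simpa using hg i k w hw x (Set.mem_univ x)
  bd_dF := fun i => by
    have hV := hctx.smooth_V
    have hD1 := contMDiff_D hV i (contMDiff_const_smul a hG)
    rw [D_sc]
    refine bd_sc hV hc.le (contMDiff_const_smul c hD1) fun w hw x => ?_
    rw [DW_const_smul hV _ w (hD1 x), norm_smul, Real.norm_eq_abs, abs_of_nonneg hc.le,
      mul_left_comm, mul_comm B]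
    exact mul_le_mul_of_nonneg_left ((hD i w hw x).trans hCd) hc.le
  bd_sff := fun i k => by
    have hV := hctx.smooth_V
    have hF := contMDiff_const_smul a hG
    have e : sff (fun z => a • G z) (sc c V) i k =
        fun x => c ^ 2 • sff (fun z => a • G z) V i k x :=
      funext fun x => sff_sc hF hV c i k x
    rw [e]
    refine (BdOn.const_smul (frameSmooth_const_smul hV c) (c ^ 2) (fun x _ => hsm i k x)
      (hbu i k)).mono_bound fun x _ => ?_
    rw [abs_of_nonneg (sq_nonneg c)]
    calc c ^ 2 * Cd * sSize (fun z => a • G z) V x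
        = Cd * (c * (c * sSize (fun z => a • G z) V x)) := by ring
      _ ≤ B * (c * (c * sSize (fun z => a • G z) V x)) := mul_le_mul_of_nonneg_right hCd
          (mul_nonneg hc.le (mul_nonneg hc.le (hpos x).le))
  sff_lower := fun x => by
    have h : c * (c * sSize (fun z => a • G z) V x) ≤
        sffSize (fun z => a • G z) (sc c V) x := by
      have e : sffSize (fun z => a • G z) (sc c V) x =
          c ^ 2 * sffSize (fun z => a • G z) V x := by
        simp only [sffSize, sff_sc (contMDiff_const_smul a hG) hctx.smooth_V, norm_smul,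
          Real.norm_eq_abs, abs_of_nonneg (sq_nonneg c), ← Finset.mul_sum]
      rw [e, pow_two, mul_assoc]
      exact mul_le_mul_of_nonneg_left
        (mul_le_mul_of_nonneg_left (sSize_le_sffSize _ V x) hc.le) hc.le
    exact h.trans (le_mul_of_one_le_left
      (Finset.sum_nonneg fun i _ => Finset.sum_nonneg fun k _ => norm_nonneg _) hB)
  bd_res := fun i k => by
    have hV := hctx.smooth_V
    have hgp : ContMDiff (𝓡 2) 𝓘(ℝ, ℝ) ∞ (fun z => gV g V i k z - pullV G V i k z) :=
      (contMDiff_gV g hV i k).sub (contMDiff_pullV hV hG i k)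
    have e : (fun x => gV g (sc c V) i k x - pullV (fun z => a • G z) (sc c V) i k x -
        σ * gV g (sc c V) i k x) =
        fun x => (c ^ 2 * (1 - σ)) • (gV g V i k x - pullV G V i k x) := by
      funext x
      rw [gV_sc, pullV_sc, smul_eq_mul]
      have : pullV (fun z => a • G z) V i k x = a * a * pullV G V i k x := by
        simp only [pullV, D_const_smul a (mdiffAt_of_smoothAt (hG x)), real_inner_smul_left,
          real_inner_smul_right, mul_assoc]
      rw [this, ha]; ring
    rw [e]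
    refine bd_sc hV hc.le (contMDiff_const_smul _ hgp) fun w hw x => ?_
    rw [DW_const_smul hV _ w (hgp x), norm_smul, Real.norm_eq_abs,
      abs_of_nonneg (mul_nonneg (sq_nonneg c) (by linarith)), mul_left_comm]
    refine (mul_le_mul (mul_le_of_le_one_right (sq_nonneg c) (by linarith)) (hres i k w hw x)
      (by positivity) (sq_nonneg c)).trans (le_of_eq (by ring))
  bd_χ := fun p => bdOn_const (1 : ℝ) fun _ _ => by simpa using hB
  bd_dY := fun p i => by
    have hV := hctx.smooth_V
    have hyp := hctx.smooth_y p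
    have e : D (sc c V) i (fun z => c⁻¹ * y p z) = D V i (y p) := by
      funext x
      rw [D_sc]
      show c • D V i (fun z => c⁻¹ • y p z) x = _
      rw [D_const_smul _ (mdiffAt_of_smoothAt (hyp x)), smul_smul, mul_inv_cancel₀ hc.ne', one_smul]
    rw [e]
    exact (bd_sc hV hc.le (contMDiff_D hV i hyp) (C := B) (μ := fun _ => (1 : ℝ))
      fun w hw x => (mul_le_of_le_one_left (norm_nonneg _) (pow_le_one₀ hc.le hc1)).trans
        (hy p i w hw x (Set.mem_univ x))).bdOn _
  rich := fun x v hv => by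
    obtain ⟨p, hp⟩ := hctx.rich x v hv
    refine ⟨p, rfl, fun v' => ?_⟩
    have e : dR (fun z => c⁻¹ * y p z) x v' = c⁻¹ * dR (y p) x v' := by
      have h := ((c⁻¹ • ContinuousLinearMap.id ℝ ℝ).hasMFDerivAt (x := y p x)).comp x
        (mdiffAt_of_smoothAt (hctx.smooth_y p x)).hasMFDerivAt
      exact congrArg (fun T : TangentSpace (𝓡 2) x →L[ℝ] ℝ => T v') h.mfderiv
    rw [e, ← mul_assoc, mul_inv_cancel₀ hc.ne', one_mul]
    exact hp v'

end Vale.Agent.P205.Full.Open
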