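import Vale.Agent.P205.Full.Stmts

/-!
# Module OPEN: interface between the round (O3) and the schedule (O4)

The scale `t` is that of the previous oscillation. A round at level `L` smooths at scale `t ^ 2`,
oscillates at scale `t ^ 4` with slack `t ^ (8 * L)` and leaves the new scale `t ^ 8`. The first
scale is `(A ^ 8)⁻¹`. The constants of `Ctx` and the bound on the metric are the only dependence
on the metric, so they may be uniform in a neighbourhood of one.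
-/

open scoped Manifold ContDiff RealInnerProductSpace
open Bundle

namespace Vale.Agent.P205.Full.Open

section

variable {M : Type} [TopologicalSpace M] [ChartedSpace R2 M] [IsManifold (𝓡 2) ∞ M]
variable {N P : ℕ}

/-- The fixed data of the iteration: comparison of `g` with the frame, finitely many phases, and a
set `S` containing the derivatives of every map nearly isometric for `g`. -/
structure Ctx (g : Metric M) (V : Frame M N) (y : Fin P → M → ℝ) (CF ρ : ℝ)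
    (S : Set (Fin N → R4)) : Prop where
  smooth_V : FrameSmooth V
  spans : FrameSpans V
  smooth_y : ∀ p, ContMDiff (𝓡 2) 𝓘(ℝ, ℝ) ∞ (y p)
  lower : ∀ x (v : TangentSpace (𝓡 2) x),
    g.inner x v v ≤ CF * ∑ i, (g.inner x (V i x) v) ^ 2
  upper : ∀ x (v : TangentSpace (𝓡 2) x),
    ∑ i, (g.inner x (V i x) v) ^ 2 ≤ CF * g.inner x v v
  rich : ∀ x (u : TangentSpace (𝓡 2) x), g.inner x u u = 1 →
    ∃ p, ∀ v : TangentSpace (𝓡 2) x,
      |dR (y p) x v - g.inner x u v| ≤ (1 / 100) * Real.sqrt (g.inner x v v)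
  jets : ∀ (F : M → R4) x, (∀ i k, |gV g V i k x - pullV F V i k x| ≤ ρ) →
    (fun i => D V i F x) ∈ S

/-- A start map: the hypotheses of openness with `J = 108` and `e = 264`. -/
structure Base (g : Metric M) (V : Frame M N) (A : ℝ) (F₀ : M → R4) : Prop where
  smooth : ContMDiff (𝓡 2) 𝓘(ℝ, R4) ∞ F₀
  bd : Bd V 108 A (fun _ => 1) F₀
  sff_lower : ∀ x, 1 ≤ A * sffSize F₀ V x
  res : ∀ i k, Bd V 108 (A ^ 264)⁻¹ (fun _ => 1) (fun x => gV g V i k x - pullV F₀ V i k x)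

/-- The invariant at level `L` and scale `t`. -/
structure State (g : Metric M) (V : Frame M N) (F₀ : M → R4) (A : ℝ) (L : ℕ) (t : ℝ)
    (F : M → R4) : Prop where
  smooth : ContMDiff (𝓡 2) 𝓘(ℝ, R4) ∞ F
  near : Bd V 2 (2 * (A ^ 8)⁻¹ - 2 * t) (fun _ => 1) (fun x => F x - F₀ x)
  res : ∀ i k, Bd V (4 * L + 1) (t ^ (8 * L + 1)) (fun _ => 1)
    (fun x => gV g V i k x - pullV F V i k x)
  high : ∀ q : ℕ, q ≤ 24 * L + 12 → Bd V q ((1 / t) ^ (q + 1)) (fun _ => 1) F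

end

/-- **O3.** One round. `A₁` does not depend on the level, `K` only on the level and `N, P`, and
`θ` also on the bound `Bg` of the metric, but not on `A`. -/
def RoundProp : Prop :=
  ∀ (M : Type) [TopologicalSpace M] [T2Space M] [CompactSpace M] [ChartedSpace R2 M]
    [IsManifold (𝓡 2) ∞ M] (N P : ℕ) (V : Frame M N) (y : Fin P → M → ℝ) (CF ρ : ℝ)
    (S : Set (Fin N → R4)), IsCompact S →
    S ⊆ {a | (∑ i, (⟪a i, a i⟫ : ℝ)) ^ 2 ≠ ∑ i, ∑ k, (⟪a i, a k⟫ : ℝ) * ⟪a k, a i⟫} →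
    0 < ρ →
    ∃ A₁ : ℝ, ∀ L : ℕ, 4 ≤ L → ∃ K : ℕ, ∀ Bg : ℝ, ∃ θ : ℝ, 0 < θ ∧ θ ≤ 1 / 2 ∧
      ∀ g : Metric M, Ctx g V y CF ρ S → (∀ i k, Bd V K Bg (fun _ => 1) (gV g V i k)) →
      ∀ (A : ℝ) (F₀ : M → R4), A₁ ≤ A → 1 ≤ A → Base g V A F₀ →
      ∀ t : ℝ, 0 < t → t ≤ θ → t * A ^ 8 ≤ 1 → ∀ F : M → R4, State g V F₀ A L t F →
        ∃ F' : M → R4, State g V F₀ A (L + 1) (t ^ 8) F' ∧
          ∀ q : ℕ, 2 * q ≤ L → Bd V q t (fun _ => 1) (fun x => F' x - F x)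

/-- Existence of the fixed data for a given metric. -/
def CtxProp : Prop :=
  ∀ (M : Type) [TopologicalSpace M] [T2Space M] [CompactSpace M] [ChartedSpace R2 M]
    [IsManifold (𝓡 2) ∞ M] (g : Metric M) (N : ℕ) (V : Frame M N), FrameSmooth V → FrameSpans V →
    ∃ (P : ℕ) (y : Fin P → M → ℝ) (CF ρ : ℝ) (S : Set (Fin N → R4)), IsCompact S ∧
      S ⊆ {a | (∑ i, (⟪a i, a i⟫ : ℝ)) ^ 2 ≠ ∑ i, ∑ k, (⟪a i, a k⟫ : ℝ) * ⟪a k, a i⟫} ∧
      0 < ρ ∧ Ctx g V y CF ρ S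

end Vale.Agent.P205.Full.Open
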