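import Vale.Agent.P205.Full.Open.RoundShape

/-!
# Module OPEN: the residual of a smoothed map at scale `t ^ 4`
-/

open scoped Manifold ContDiff RealInnerProductSpace Topology
open Bundle Filter

namespace Vale.Agent.P205.Full.Open

variable {M : Type} [TopologicalSpace M] [ChartedSpace R2 M] [IsManifold (𝓡 2) ∞ M] {N : ℕ}

/-- Orders up to `4 L + 1`: the old residual and the smoothing error. -/
theorem res_low {V : Frame M N} (hV : FrameSmooth V) (g : Metric M) {F G : M → R4}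
    (hF : ContMDiff (𝓡 2) 𝓘(ℝ, R4) ∞ F) (hG : ContMDiff (𝓡 2) 𝓘(ℝ, R4) ∞ G) {L W : ℕ}
    {Cs A t : ℝ} (hW : 4 * L + 2 ≤ W) (ht : 0 < t) (ht1 : t ≤ 1) (hA : 0 ≤ A) (htA : t * A ≤ 1)
    (hCs : 0 ≤ Cs) (hres : ∀ i k, Bd V (4 * L + 1) (t ^ (8 * L + 1)) (fun _ => 1)
      (fun x => gV g V i k x - pullV F V i k x))
    (hhigh : Bd V (4 * L + 2) ((1 / t) ^ (4 * L + 3)) (fun _ => 1) F)
    (hnear : Bd V (4 * L + 2) (Cs * t ^ (16 * L + 7)) (fun _ => 1) (fun x => G x - F x))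
    (hup : Up V W Cs A t G) (i k : Fin N) :
    Bd V (4 * L + 1) ((1 + (2 ^ (4 * L + 1) * Cs + 2 ^ (4 * L + 1) * (2 * Cs * Cs))) *
      t ^ (8 * L + 1)) (fun _ => 1) (fun z => gV g V i k z - pullV G V i k z) := by
  have sF := fun l => contMDiff_D hV l hF
  have sG := fun l => contMDiff_D hV l hG
  have hf : ∀ l, Bd V (4 * L + 1) ((1 / t) ^ (4 * L + 3)) (fun _ => 1) (D V l F) :=
    fun l => BdOn.deriv hhigh l
  have hd : ∀ l, Bd V (4 * L + 1) (Cs * t ^ (16 * L + 7)) (fun _ => 1)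
      (fun z => D V l F z - D V l G z) := fun l w hw x hx => by
    have := hnear (w ++ [l]) (by simp only [List.length_append, List.length_singleton]; omega) x hx
    rw [DW_sub hV _ (hG x) (hF x), DW_snoc, DW_snoc, norm_sub_rev] at this
    rwa [DW_sub hV w (sF l x) (sG l x)]
  have hg' : ∀ l, Bd V (4 * L + 1) (Cs * (1 / t ^ 2) ^ (4 * L + 1) * (2 * A)) (fun _ => 1)
      (D V l G) := fun l w hw x _ => by
    have := hup 1 (by norm_num) (w ++ [l])
      (by simp only [List.length_append, List.length_singleton]; omega) x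
    rw [DW_snoc, List.length_append, List.length_singleton, Nat.add_sub_cancel] at this
    rw [mul_one]
    refine this.trans (mul_le_mul_of_nonneg_right (mul_le_mul_of_nonneg_left
      (pow_le_pow_right₀ ?_ hw) hCs) (by linarith))
    rw [le_div_iff₀ (by positivity), one_mul]
    exact pow_le_one₀ ht.le ht1
  set a : M → ℝ := fun z => gV g V i k z - pullV F V i k z with ha
  set b : M → ℝ := fun z => (⟪D V i F z - D V i G z, D V k F z⟫ : ℝ) with hb
  set c : M → ℝ := fun z => (⟪D V i G z, D V k F z - D V k G z⟫ : ℝ) with hc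
  have e : (fun z => gV g V i k z - pullV G V i k z) = fun z => a z + (b z + c z) := by
    funext z; simp only [ha, hb, hc, pullV, inner_sub_left, inner_sub_right]; ring
  have sb : ContMDiff (𝓡 2) 𝓘(ℝ, ℝ) ∞ b := fun x =>
    contMDiffAt_inner_fun (((sF i).sub (sG i)) x) (sF k x)
  have sc' : ContMDiff (𝓡 2) 𝓘(ℝ, ℝ) ∞ c := fun x =>
    contMDiffAt_inner_fun (sG i x) (((sF k).sub (sG k)) x)
  have pb : Bd V (4 * L + 1) (2 ^ (4 * L + 1) * Cs * t ^ (8 * L + 1)) (fun _ => 1) b := by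
    refine (BdOn.inner hV (fun x _ => ((sF i).sub (sG i)) x) (fun x _ => sF k x) (hd i)
      (hf k)).mono_bound fun x _ => ?_
    simp only [mul_one]
    rw [mul_assoc, mul_assoc, mul_assoc]
    exact mul_le_mul_of_nonneg_left (mul_le_mul_of_nonneg_left
      (pow_mul_inv_pow_le ht ht1 (by omega)) hCs) (by positivity)
  have pc : Bd V (4 * L + 1) (2 ^ (4 * L + 1) * (2 * Cs * Cs) * t ^ (8 * L + 1))
      (fun _ => 1) c := by
    refine (BdOn.inner hV (fun x _ => sG i x) (fun x _ => ((sF k).sub (sG k)) x) (hg' i)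
      (hd k)).mono_bound fun x _ => ?_
    simp only [mul_one]
    have h2 : t ^ (16 * L + 7) * (1 / t) ^ (2 * (4 * L + 1)) * A ≤ t ^ (8 * L + 1) := by
      refine (mul_le_mul_of_nonneg_right
        (pow_mul_inv_pow_le ht ht1 (d := 8 * L + 2) (by omega)) hA).trans ?_
      rw [pow_succ, mul_assoc]
      exact mul_le_of_le_one_right (by positivity) htA
    have e2 : (1 / t ^ 2) ^ (4 * L + 1) = (1 / t) ^ (2 * (4 * L + 1)) := by
      simp only [one_div, inv_pow, ← pow_mul]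
    rw [e2]
    calc 2 ^ (4 * L + 1) * (Cs * (1 / t) ^ (2 * (4 * L + 1)) * (2 * A)) *
          (Cs * t ^ (16 * L + 7))
        = 2 ^ (4 * L + 1) * (2 * Cs * Cs) *
          (t ^ (16 * L + 7) * (1 / t) ^ (2 * (4 * L + 1)) * A) := by ring
      _ ≤ _ := mul_le_mul_of_nonneg_left h2 (by positivity)
  rw [e]
  exact (BdOn.add hV (fun x _ => ((contMDiff_gV g hV i k).sub (contMDiff_pullV hV hF i k)) x)
    (fun x _ => (sb.add sc') x) (hres i k)
    (BdOn.add hV (fun x _ => sb x) (fun x _ => sc' x) pb pc)).mono_bound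
      fun x _ => le_of_eq (by ring)

/-- All orders up to `K`, with the weight of the frame `t ^ 4 • V`. -/
theorem res_all {V : Frame M N} (hV : FrameSmooth V) (g : Metric M) {F G : M → R4}
    (hF : ContMDiff (𝓡 2) 𝓘(ℝ, R4) ∞ F) (hG : ContMDiff (𝓡 2) 𝓘(ℝ, R4) ∞ G) {L W K : ℕ}
    {Cs A t Bg : ℝ} (hW : 4 * L + 2 ≤ W) (hK : K + 1 ≤ W) (ht : 0 < t) (ht1 : t ≤ 1)
    (hA : 1 ≤ A) (htA2 : t * A ^ 2 ≤ 1) (hCs : 0 ≤ Cs)
    (hres : ∀ i k, Bd V (4 * L + 1) (t ^ (8 * L + 1)) (fun _ => 1)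
      (fun x => gV g V i k x - pullV F V i k x))
    (hhigh : Bd V (4 * L + 2) ((1 / t) ^ (4 * L + 3)) (fun _ => 1) F)
    (hnear : Bd V (4 * L + 2) (Cs * t ^ (16 * L + 7)) (fun _ => 1) (fun x => G x - F x))
    (hup : Up V W Cs A t G) (hg : ∀ i k, Bd V K Bg (fun _ => 1) (gV g V i k)) (i k : Fin N)
    (w : List (Fin N)) (hw : w.length ≤ K) (x : M) :
    (t ^ 4) ^ w.length * ‖DW V w (fun z => gV g V i k z - pullV G V i k z) x‖ ≤
      (1 + |Bg| + (2 ^ (4 * L + 1) * Cs + 2 ^ (4 * L + 1) * (2 * Cs * Cs)) +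
        2 ^ K * (2 * Cs) * (2 * Cs)) * t ^ (8 * L + 1) := by
  have htA : t * A ≤ 1 :=
    (mul_le_mul_of_nonneg_left (le_self_pow₀ hA two_ne_zero) ht.le).trans htA2
  have hpos : 0 ≤ 2 ^ K * (2 * Cs) * (2 * Cs) := by positivity
  have hc0 : (0 : ℝ) ≤ t ^ 4 := by positivity
  by_cases hw0 : w.length ≤ 4 * L + 1
  · refine (mul_le_of_le_one_left (norm_nonneg _)
      (pow_le_one₀ hc0 (pow_le_one₀ ht.le ht1))).trans ?_
    refine ((res_low hV g hF hG hW ht ht1 (by linarith) htA hCs hres hhigh hnear hup i k) w hw0 x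
      (Set.mem_univ x)).trans ?_
    rw [mul_one]
    exact mul_le_mul_of_nonneg_right (by linarith [abs_nonneg Bg]) (by positivity)
  have hk : (0 : ℝ) ≤ t ^ 2 := by positivity
  have sG := fun l => contMDiff_D hV l hG
  have hg' : ∀ l, Bd (sc (t ^ 2) V) K (2 * Cs * A) (fun _ => 1) (D V l G) := fun l =>
    bd_sc hV hk (sG l) fun w' hw' z => by
      have h := hup.scaled ht (v := 1) (by norm_num) w' [l] rfl (by omega) z
      rw [DW_snoc] at h
      rw [mul_one]; exact h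
  have hp : (t ^ 2) ^ w.length * ‖DW V w (pullV G V i k) x‖ ≤
      2 ^ K * (2 * Cs * A) * (2 * Cs * A) := by
    have h := BdOn.inner (frameSmooth_const_smul hV (t ^ 2)) (fun x _ => sG i x) (fun x _ => sG k x)
      (hg' i) (hg' k) w hw x (Set.mem_univ x)
    rw [norm_DW_sc hV hk (fun x => contMDiffAt_inner_fun (sG i x) (sG k x))] at h
    simp only [mul_one] at h
    exact h
  rw [DW_sub hV w (contMDiff_gV g hV i k x) (contMDiff_pullV hV hG i k x)]
  refine (mul_le_mul_of_nonneg_left (norm_sub_le _ _) (by positivity)).trans ?_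
  rw [mul_add]
  have h1 : (t ^ 4) ^ w.length * ‖DW V w (gV g V i k) x‖ ≤ t ^ (8 * L + 1) * |Bg| := by
    refine mul_le_mul ?_ ((hg i k w hw x (Set.mem_univ x)).trans ?_) (norm_nonneg _) (by positivity)
    · rw [← pow_mul]; exact pow_le_pow_of_le_one ht.le ht1 (by omega)
    · rw [mul_one]; exact le_abs_self _
  have h2 : (t ^ 4) ^ w.length * ‖DW V w (pullV G V i k) x‖ ≤
      2 ^ K * (2 * Cs) * (2 * Cs) * t ^ (8 * L + 1) := by
    rw [show (t ^ 4) ^ w.length = (t ^ 2) ^ w.length * (t ^ 2) ^ w.length by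
      rw [← mul_pow, ← pow_add], mul_assoc]
    refine (mul_le_mul (show (t ^ 2) ^ w.length ≤ t ^ (8 * L + 2) by
      rw [← pow_mul]; exact pow_le_pow_of_le_one ht.le ht1 (by omega)) hp
      (by positivity) (by positivity)).trans ?_
    calc t ^ (8 * L + 2) * (2 ^ K * (2 * Cs * A) * (2 * Cs * A))
        = 2 ^ K * (2 * Cs) * (2 * Cs) * t ^ (8 * L + 1) * (t * A ^ 2) := by ring
      _ ≤ _ := mul_le_of_le_one_right (by positivity) htA2
  refine (add_le_add h1 h2).trans ?_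
  rw [mul_comm (t ^ (8 * L + 1)) |Bg|, ← add_mul]
  refine mul_le_mul_of_nonneg_right ?_ (by positivity)
  have : 0 ≤ 2 ^ (4 * L + 1) * Cs + 2 ^ (4 * L + 1) * (2 * Cs * Cs) := by positivity
  linarith

end Vale.Agent.P205.Full.Open
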