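import Vale.Agent.P205.Full.Open.RoundAux

/-!
# Module OPEN: bounds of the second fundamental form of a smoothed map and of its size
-/

open scoped Manifold ContDiff RealInnerProductSpace Topology
open Bundle Filter

namespace Vale.Agent.P205.Full.Open

/-- `sff` inherits, linearly, the bounds of the second derivatives. -/
theorem exists_sff_bd {N : ℕ} (K : ℕ) (C₀ : ℝ) {S : Set (Fin N → R4)} (hS : IsCompact S)
    (hSU : S ⊆ {a | inv2 (gram a) ≠ 0}) :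
    ∃ C : ℝ, 0 ≤ C ∧
      ∀ (M : Type) [TopologicalSpace M] [ChartedSpace R2 M] [IsManifold (𝓡 2) ∞ M]
        (V W : Frame M N) (F : M → R4), FrameSmooth V → FrameSpans V → FrameSmooth W →
        ContMDiff (𝓡 2) 𝓘(ℝ, R4) ∞ F → (∀ x, dF F V x ∈ S) →
        (∀ l, Bd W K C₀ (fun _ => 1) (D V l F)) →
        (∀ i k, ContMDiff (𝓡 2) 𝓘(ℝ, R4) ∞ (sff F V i k)) ∧
        ∀ (B : ℝ) (i k : Fin N), Bd W K B (fun _ => 1) (D V i (D V k F)) →
          Bd W K (C * B) (fun _ => 1) (sff F V i k) := by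
  obtain ⟨C, hC0, hC⟩ := exists_bdOn_comp N K (max C₀ 0) isOpen_immersive
    (contDiffOn_normalOp (N := N)) hS hSU
  refine ⟨2 ^ K * C, by positivity, fun M _ _ _ V W F hV hs hW hF hmem hb => ?_⟩
  have hd : ContMDiff (𝓡 2) 𝓘(ℝ, Fin N → R4) ∞ (dF F V) :=
    contMDiff_pi_space.2 fun l => contMDiff_D hV l hF
  have hn : ContMDiff (𝓡 2) 𝓘(ℝ, R4 →L[ℝ] R4) ∞ (fun x => normalOp (dF F V x)) := fun x =>
    ((contDiffOn_normalOp (N := N)).contDiffAt
      (isOpen_immersive.mem_nhds (hSU (hmem x)))).comp_contMDiffAt (hd x)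
  have heq : ∀ i k, sff F V i k = fun x => normalOp (dF F V x) (D V i (D V k F) x) := fun i k =>
    funext fun x => sff_eq_normalOp V hs F x (hSU (hmem x)) i k
  have h2 : ∀ i k, ContMDiff (𝓡 2) 𝓘(ℝ, R4) ∞ (D V i (D V k F)) := fun i k =>
    contMDiff_D hV i (contMDiff_D hV k hF)
  refine ⟨fun i k => ?_, fun B i k hB => ?_⟩
  · rw [heq]; exact hn.clm_apply (h2 i k)
  · rw [heq]
    have h1 : Bd W K (max C₀ 0) (fun _ => 1) (dF F V) :=
      bdOn_pi hW (fun l x _ => contMDiff_D hV l hF x)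
        (fun x _ => mul_nonneg (le_max_right _ _) zero_le_one)
        fun l => (hb l).mono_const (le_max_left _ _) fun _ _ => zero_le_one
    have hP := hC M W Set.univ (dF F V) hW (fun x _ => hd x) (fun x _ => hmem x) h1
    have := BdOn.bilin hW (ContinuousLinearMap.id ℝ (R4 →L[ℝ] R4)) (b := 1)
      (fun T v => by rw [one_mul]; exact T.le_opNorm v) zero_le_one
      (fun x _ => hn x) (fun x _ => h2 i k x) hP hB
    exact this.mono_bound fun x _ => le_of_eq (by ring)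

/-- The square root of the sum of squares inherits the relative bounds. -/
theorem exists_sqrt_sumsq (N K : ℕ) (C₁ : ℝ) :
    ∃ C : ℝ, 1 ≤ C ∧
      ∀ (M : Type) [TopologicalSpace M] [ChartedSpace R2 M] [IsManifold (𝓡 2) ∞ M]
        (W : Frame M N) (u : Fin N → Fin N → M → R4), FrameSmooth W →
        (∀ i k, ContMDiff (𝓡 2) 𝓘(ℝ, R4) ∞ (u i k)) →
        (∀ x, 0 < ∑ i, ∑ k, ‖u i k x‖ ^ 2) →
        (∀ i k, Bd W K C₁ (fun x => Real.sqrt (∑ a, ∑ b, ‖u a b x‖ ^ 2)) (u i k)) →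
        ContMDiff (𝓡 2) 𝓘(ℝ, ℝ) ∞ (fun x => Real.sqrt (∑ a, ∑ b, ‖u a b x‖ ^ 2)) ∧
          Bd W K C (fun x => Real.sqrt (∑ a, ∑ b, ‖u a b x‖ ^ 2))
            (fun x => Real.sqrt (∑ a, ∑ b, ‖u a b x‖ ^ 2)) := by
  obtain ⟨C, hC1, hC⟩ := exists_bdOn_sqrt N K ((N : ℝ) * ((N : ℝ) * (2 ^ K * C₁ * C₁)))
  refine ⟨C, hC1, fun M _ _ _ W u hW hu hpos hb => ?_⟩
  set S := fun x => ∑ a, ∑ b, ‖u a b x‖ ^ 2 with hS
  have heq : S = fun x => ∑ a, ∑ b, (⟪u a b x, u a b x⟫ : ℝ) := by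
    funext x; simp only [hS, real_inner_self_eq_norm_sq]
  have hsm : ∀ a b, ContMDiff (𝓡 2) 𝓘(ℝ, ℝ) ∞ (fun x => (⟪u a b x, u a b x⟫ : ℝ)) :=
    fun a b x => contMDiffAt_inner_fun (hu a b x) (hu a b x)
  have hsum : ∀ a, ContMDiff (𝓡 2) 𝓘(ℝ, ℝ) ∞ (fun x => ∑ b, (⟪u a b x, u a b x⟫ : ℝ)) :=
    fun a => contMDiff_finsetSum fun b _ => hsm a b
  have hSs : ContMDiff (𝓡 2) 𝓘(ℝ, ℝ) ∞ S := heq ▸ contMDiff_finsetSum fun a _ => hsum a
  refine ⟨fun x => ContDiffAt.comp_contMDiffAt (f := S) (Real.contDiffAt_sqrt (hpos x).ne') (hSs x), ?_⟩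
  refine hC M W Set.univ S hW (fun x _ => hSs x) (fun x _ => hpos x) ?_
  have h1 : ∀ a b, Bd W K (2 ^ K * C₁ * C₁) S (fun x => (⟪u a b x, u a b x⟫ : ℝ)) := fun a b =>
    (BdOn.inner hW (fun x _ => hu a b x) (fun x _ => hu a b x) (hb a b) (hb a b)).mono_bound
      fun x _ => le_of_eq (by rw [Real.mul_self_sqrt (hpos x).le])
  have h2 : ∀ a, Bd W K ((N : ℝ) * (2 ^ K * C₁ * C₁)) S
      (fun x => ∑ b, (⟪u a b x, u a b x⟫ : ℝ)) := fun a =>
    (BdOn.sum hW Finset.univ (fun b _ x _ => hsm a b x) fun b _ => h1 a b).mono_bound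
      fun x _ => le_of_eq (by simp)
  exact heq ▸ (BdOn.sum hW Finset.univ (fun a _ x _ => hsum a x) fun a _ => h2 a).mono_bound
    fun x _ => le_of_eq (by simp [hS]; try ring)

end Vale.Agent.P205.Full.Open
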