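import Vale.Agent.P205.Full.Open.RoundSff

/-!
# Module OPEN: the shape of a smoothed map at scale `t ^ 4`
-/

open scoped Manifold ContDiff RealInnerProductSpace Topology
open Bundle Filter

namespace Vale.Agent.P205.Full.Open

variable {M : Type} [TopologicalSpace M] [ChartedSpace R2 M] [IsManifold (𝓡 2) ∞ M] {N : ℕ}

/-- The size of the second fundamental form used for the weight `H`. -/
noncomputable def sSize (F : M → R4) (V : Frame M N) (x : M) : ℝ :=
  Real.sqrt (∑ i, ∑ k, ‖sff F V i k x‖ ^ 2)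

theorem norm_sff_le_sSize (F : M → R4) (V : Frame M N) (i k : Fin N) (x : M) :
    ‖sff F V i k x‖ ≤ sSize F V x := by
  refine (Real.le_sqrt (norm_nonneg _) (by positivity)).2 ?_
  exact le_trans (Finset.single_le_sum (f := fun k => ‖sff F V i k x‖ ^ 2)
    (fun z _ => sq_nonneg _) (Finset.mem_univ k))
    (Finset.single_le_sum (f := fun i => ∑ k, ‖sff F V i k x‖ ^ 2)
    (fun z _ => Finset.sum_nonneg fun w _ => sq_nonneg _) (Finset.mem_univ i))

theorem sSize_le_sffSize (F : M → R4) (V : Frame M N) (x : M) :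
    sSize F V x ≤ sffSize F V x := by
  refine (Real.sqrt_le_left
    (Finset.sum_nonneg fun i _ => Finset.sum_nonneg fun k _ => norm_nonneg _)).2 ?_
  refine le_trans (Finset.sum_le_sum fun i _ =>
    Finset.sum_sq_le_sq_sum_of_nonneg fun k _ => norm_nonneg _) ?_
  exact Finset.sum_sq_le_sq_sum_of_nonneg fun i _ =>
    Finset.sum_nonneg fun k _ => norm_nonneg _

theorem sffSize_le_sSize (F : M → R4) (V : Frame M N) (x : M) :
    sffSize F V x ≤ ((N : ℝ) ^ 2 + 1) * sSize F V x := by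
  calc sffSize F V x ≤ ∑ _i : Fin N, ∑ _k : Fin N, sSize F V x :=
        Finset.sum_le_sum fun i _ => Finset.sum_le_sum fun k _ => norm_sff_le_sSize F V i k x
    _ = (N : ℝ) ^ 2 * sSize F V x := by simp [pow_two, mul_assoc]
    _ ≤ ((N : ℝ) ^ 2 + 1) * sSize F V x :=
        mul_le_mul_of_nonneg_right (by linarith) (Real.sqrt_nonneg _)

/-- A map with the growth of a map smoothed at scale `t ^ 2`. -/
def Up (V : Frame M N) (Wmax : ℕ) (Cs A t : ℝ) (F : M → R4) : Prop :=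
  ∀ v : ℕ, v ≤ 2 → ∀ w : List (Fin N), w.length ≤ Wmax → ∀ x,
    ‖DW V w F x‖ ≤ Cs * (1 / t ^ 2) ^ (w.length - v) * (2 * A)

theorem Up.mono {V : Frame M N} {W W' : ℕ} {Cs A t : ℝ} {F : M → R4} (h : Up V W Cs A t F)
    (hW : W' ≤ W) : Up V W' Cs A t F := fun v hv w hw => h v hv w (hw.trans hW)

/-- `(t ^ 2) ^ n` absorbs the growth of order `n`. -/
theorem Up.scaled {V : Frame M N} {W : ℕ} {Cs A t : ℝ} {F : M → R4} (h : Up V W Cs A t F)
    (ht : 0 < t) {v : ℕ} (hv : v ≤ 2) (w u : List (Fin N)) (hu : u.length = v)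
    (hw : w.length + v ≤ W) (x : M) :
    (t ^ 2) ^ w.length * ‖DW V (w ++ u) F x‖ ≤ 2 * Cs * A := by
  have h1 := h v hv (w ++ u) (by simp only [List.length_append]; omega) x
  rw [List.length_append, hu, Nat.add_sub_cancel] at h1
  refine (mul_le_mul_of_nonneg_left h1 (by positivity)).trans (le_of_eq ?_)
  calc (t ^ 2) ^ w.length * (Cs * (1 / t ^ 2) ^ w.length * (2 * A))
      = (t ^ 2 * (1 / t ^ 2)) ^ w.length * (2 * Cs * A) := by rw [mul_pow]; ring
    _ = 2 * Cs * A := by rw [mul_one_div_cancel (by positivity), one_pow, one_mul]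

theorem Up.scaled_D {V : Frame M N} {W : ℕ} {Cs A t R : ℝ} {F : M → R4} (h : Up V W Cs A t F)
    (ht : 0 < t) (ht1 : t ≤ 1) (htA : t * A ≤ 1) (hA : 0 ≤ A) (hCs : 0 ≤ Cs) (hR : 0 ≤ R)
    (hV : FrameSmooth V) (hF : ContMDiff (𝓡 2) 𝓘(ℝ, R4) ∞ F) (K : ℕ) (hK : K + 2 ≤ W)
    (hRb : ∀ x, ‖dF F V x‖ ≤ R) (l : Fin N) :
    Bd (sc (t ^ 2) V) K (R + 2 * Cs) (fun _ => 1) (D V l F) := by
  refine bd_sc hV (by positivity) (contMDiff_D hV l hF) fun w hw x => ?_
  rw [mul_one]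
  cases w with
  | nil =>
    simp only [DW, List.foldr_nil, List.length_nil, pow_zero, one_mul]
    exact le_add_of_le_of_nonneg ((norm_le_pi_norm (dF F V x) l).trans (hRb x))
      (show 0 ≤ 2 * Cs by positivity)
  | cons a w =>
    have h1 := h 2 le_rfl (a :: w ++ [l]) (by simp at hw ⊢; omega) x
    rw [DW_snoc, show (a :: w ++ [l]).length - 2 = w.length by simp] at h1
    refine (mul_le_mul_of_nonneg_left h1 (by positivity)).trans ?_
    calc (t ^ 2) ^ (a :: w).length * (Cs * (1 / t ^ 2) ^ w.length * (2 * A))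
        = (t ^ 2 * (1 / t ^ 2)) ^ w.length * (t * (t * A)) * (2 * Cs) := by
          rw [List.length_cons, pow_succ, mul_pow]; ring
      _ ≤ 1 * (1 * 1) * (2 * Cs) := by
          rw [mul_one_div_cancel (by positivity), one_pow]; gcongr
      _ ≤ R + 2 * Cs := by linarith

/-- The second fundamental form and its size in the frame `t ^ 4 • V`. -/
theorem exists_shape (N K : ℕ) {S : Set (Fin N → R4)} (hS : IsCompact S)
    (hSU : S ⊆ {a | inv2 (gram a) ≠ 0}) (R Cs : ℝ) (hR : 0 ≤ R) (hCs : 0 ≤ Cs)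
    (hnorm : ∀ a ∈ S, ‖a‖ ≤ R) :
    ∃ C : ℝ, 1 ≤ C ∧
      ∀ (M : Type) [TopologicalSpace M] [ChartedSpace R2 M] [IsManifold (𝓡 2) ∞ M]
        (V : Frame M N) (F : M → R4) (A t : ℝ) (W : ℕ), FrameSmooth V → FrameSpans V →
        ContMDiff (𝓡 2) 𝓘(ℝ, R4) ∞ F → 0 < t → t ≤ 1 → 1 ≤ A → t * A ^ 2 ≤ 1 →
        K + 2 ≤ W → Up V W Cs A t F → (∀ x, dF F V x ∈ S) →
        (∀ x, 1 ≤ 3 * A * sffSize F V x) →
        ContMDiff (𝓡 2) 𝓘(ℝ, ℝ) ∞ (sSize F V) ∧
        (∀ i k, ContMDiff (𝓡 2) 𝓘(ℝ, R4) ∞ (sff F V i k)) ∧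
        (∀ x, 1 ≤ 3 * A * (((N : ℝ) ^ 2 + 1) * sSize F V x)) ∧
        (∀ x, sSize F V x ≤ C * A) ∧
        Bd (sc (t ^ 4) V) K C (sSize F V) (sSize F V) ∧
        (∀ i k, Bd (sc (t ^ 4) V) K C (sSize F V) (sff F V i k)) := by
  obtain ⟨Csf, hCsf, hsff⟩ := exists_sff_bd K (R + 2 * Cs) hS hSU
  set C₁ : ℝ := 1 + 6 * ((N : ℝ) ^ 2 + 1) * Csf * Cs with hC₁
  have hC₁1 : 1 ≤ C₁ := le_add_of_nonneg_right (by positivity)
  obtain ⟨CH, hCH1, hH⟩ := exists_sqrt_sumsq N K C₁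
  have hn : 0 ≤ (N : ℝ) ^ 2 * (Csf * (2 * Cs)) := by positivity
  refine ⟨CH + C₁ + (N : ℝ) ^ 2 * (Csf * (2 * Cs)), by linarith, ?_⟩
  intro M _ _ _ V F A t W hV hs hF ht ht1 hA htA2 hK hup hmem hlow
  have hA0 : 0 ≤ A := by linarith
  have htA : t * A ≤ 1 :=
    (mul_le_mul_of_nonneg_left (le_self_pow₀ hA two_ne_zero) ht.le).trans htA2
  have hk : (0 : ℝ) ≤ t ^ 2 := by positivity
  obtain ⟨husm, hub⟩ := hsff M V (sc (t ^ 2) V) F hV hs (frameSmooth_const_smul hV _) hF hmem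
    (fun l => hup.scaled_D ht ht1 htA hA0 hCs hR hV hF K hK (fun x => hnorm _ (hmem x)) l)
  have hu : ∀ i k, ∀ w : List (Fin N), w.length ≤ K → ∀ x,
      (t ^ 2) ^ w.length * ‖DW V w (sff F V i k) x‖ ≤ Csf * (2 * Cs * A) := fun i k w hw x => by
    have h := hub (2 * Cs * A) i k (bd_sc hV hk (contMDiff_D hV i (contMDiff_D hV k hF))
      fun w' hw' z => by
        have h1 := hup.scaled ht le_rfl w' [i, k] rfl (by omega) z
        rw [DW_append] at h1
        rw [mul_one]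
        exact h1) w hw x (Set.mem_univ x)
    rwa [norm_DW_sc hV hk (husm i k), mul_one] at h
  have hsize : ∀ x, 1 ≤ 3 * A * (((N : ℝ) ^ 2 + 1) * sSize F V x) := fun x =>
    (hlow x).trans (mul_le_mul_of_nonneg_left (sffSize_le_sSize F V x) (by positivity))
  have hpos : ∀ x, 0 < sSize F V x := fun x => by
    by_contra h
    have h0 := mul_nonpos_of_nonneg_of_nonpos
      (show 0 ≤ 3 * A * ((N : ℝ) ^ 2 + 1) by positivity) (not_lt.1 h)
    linarith [hsize x]
  have hrel : ∀ i k, Bd (sc (t ^ 4) V) K C₁ (sSize F V) (sff F V i k) := fun i k => by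
    refine bd_sc hV (by positivity) (husm i k) fun w hw x => ?_
    cases w with
    | nil =>
      simpa [DW] using (norm_sff_le_sSize F V i k x).trans
        (le_mul_of_one_le_left (hpos x).le hC₁1)
    | cons a w =>
      have h := hu i k (a :: w) hw x
      rw [show (t ^ 4) ^ (a :: w).length = (t ^ 2) ^ (a :: w).length * (t ^ 2) ^ (a :: w).length
        by rw [← mul_pow, ← pow_add], mul_assoc]
      refine (mul_le_mul (pow_le_of_le_one hk (pow_le_one₀ ht.le ht1) (by simp)) h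
        (by positivity) hk).trans ?_
      calc t ^ 2 * (Csf * (2 * Cs * A))
          ≤ t ^ 2 * (Csf * (2 * Cs * A)) * (3 * A * (((N : ℝ) ^ 2 + 1) * sSize F V x)) :=
            le_mul_of_one_le_right (by positivity) (hsize x)
        _ = 6 * ((N : ℝ) ^ 2 + 1) * Csf * Cs * sSize F V x * (t * (t * A ^ 2)) := by ring
        _ ≤ 6 * ((N : ℝ) ^ 2 + 1) * Csf * Cs * sSize F V x :=
            mul_le_of_le_one_right (by have := (hpos x).le; positivity)
              (mul_le_one₀ ht1 (by positivity) htA2)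
        _ ≤ C₁ * sSize F V x :=
            mul_le_mul_of_nonneg_right (le_add_of_nonneg_left zero_le_one) (hpos x).le
  obtain ⟨hs1, hs2⟩ := hH M (sc (t ^ 4) V) (fun i k => sff F V i k)
    (frameSmooth_const_smul hV _) husm (fun x => Real.sqrt_pos.1 (hpos x)) hrel
  refine ⟨hs1, husm, hsize, fun x => (sSize_le_sffSize F V x).trans ?_,
    hs2.mono_const (by linarith) fun x _ => (hpos x).le,
    fun i k => (hrel i k).mono_const (by linarith) fun x _ => (hpos x).le⟩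
  calc sffSize F V x ≤ ∑ _i : Fin N, ∑ _k : Fin N, Csf * (2 * Cs * A) :=
        Finset.sum_le_sum fun i _ => Finset.sum_le_sum fun k _ => by
          simpa [DW] using hu i k [] (Nat.zero_le _) x
    _ = (N : ℝ) ^ 2 * (Csf * (2 * Cs)) * A := by simp; ring
    _ ≤ _ := mul_le_mul_of_nonneg_right (by linarith) hA0

end Vale.Agent.P205.Full.Open
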