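import Vale.Agent.P205.Full.Open.SmoothEuclid

/-!
# P205 full, module O1 (part 2): frame derivatives and chart derivatives (helper9)

For functions supported in a compact subset of a chart, frame derivatives and coordinate
derivatives bound each other linearly.
-/

open scoped Manifold ContDiff Topology
open Bundle Set Filter

namespace Vale.Agent.P205.Full.Smooth

variable {M : Type} [TopologicalSpace M] [ChartedSpace R2 M] [IsManifold (𝓡 2) ∞ M]
variable {E : Type} [NormedAddCommGroup E] [NormedSpace ℝ E]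
variable {N : ℕ} {V : Frame M N}

/-- Smooth maps on the surface. -/
abbrev Sm (f : M → E) : Prop := ContMDiff (𝓡 2) 𝓘(ℝ, E) ∞ f

theorem D_zero (i : Fin N) : D V i (0 : M → E) = 0 := by
  funext x
  change mfderiv (𝓡 2) 𝓘(ℝ, E) (fun _ : M => (0 : E)) x (V i x) = 0
  rw [mfderiv_const]
  rfl

theorem DW_nil (f : M → E) : DW V [] f = f := rfl

theorem DW_snoc (w : List (Fin N)) (i : Fin N) (f : M → E) :
    DW V (w ++ [i]) f = DW V w (D V i f) := by
  simp [DW, List.foldr_append]

theorem DW_zero : ∀ w : List (Fin N), DW V w (0 : M → E) = 0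
  | [] => rfl
  | i :: w => by
    change D V i (DW V w 0) = 0
    rw [DW_zero w, D_zero]

theorem tsupport_D_subset (i : Fin N) (f : M → E) : tsupport (D V i f) ⊆ tsupport f := by
  refine closure_minimal (fun x hx => ?_) (isClosed_tsupport f)
  by_contra h
  refine hx ?_
  have hz : f =ᶠ[𝓝 x] fun _ => (0 : E) := notMem_tsupport_iff_eventuallyEq.mp h
  change mfderiv (𝓡 2) 𝓘(ℝ, E) f x (V i x) = 0
  rw [hz.mfderiv_eq, mfderiv_const]
  rfl

/-- The frame in the coordinates of a chart. -/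
noncomputable def aV (x₀ : M) (V : Frame M N) (i : Fin N) : M → R2 :=
  D V i (chartAt R2 x₀)

/-- Chain rule through a chart. -/
theorem D_eq_fderiv (x₀ : M) {x : M} (hx : x ∈ (chartAt R2 x₀).source) {f : M → E}
    (hf : MDifferentiableAt (𝓡 2) 𝓘(ℝ, E) f x) (i : Fin N) :
    D V i f x = fderiv ℝ (f ∘ (chartAt R2 x₀).symm) (chartAt R2 x₀ x) (aV x₀ V i x) := by
  set e := chartAt R2 x₀ with he
  have hsymm : MDifferentiableAt (𝓡 2) (𝓡 2) e.symm (e x) :=
    mdifferentiableAt_atlas_symm (chart_mem_atlas R2 x₀) (e.map_source hx)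
  have hg : MDifferentiableAt (𝓡 2) 𝓘(ℝ, E) (f ∘ e.symm) (e x) :=
    MDifferentiableAt.comp (e x) (by rwa [e.left_inv hx]) hsymm
  have hev : f =ᶠ[𝓝 x] (f ∘ e.symm) ∘ e := by
    filter_upwards [e.open_source.mem_nhds hx] with y hy
    simp [e.left_inv hy]
  unfold D
  rw [hev.mfderiv_eq]
  refine (mfderiv_comp_apply x hg (mdifferentiableAt_atlas (chart_mem_atlas R2 x₀) hx)
    (V i x)).trans ?_
  rw [mfderiv_eq_fderiv]
  rfl

theorem differentiableAt_read (x₀ : M) {x : M} (hx : x ∈ (chartAt R2 x₀).source) {f : M → E}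
    (hf : MDifferentiableAt (𝓡 2) 𝓘(ℝ, E) f x) :
    DifferentiableAt ℝ (f ∘ (chartAt R2 x₀).symm) (chartAt R2 x₀ x) := by
  set e := chartAt R2 x₀
  exact mdifferentiableAt_iff_differentiableAt.mp (MDifferentiableAt.comp (e x)
    (by rwa [e.left_inv hx])
    (mdifferentiableAt_atlas_symm (chart_mem_atlas R2 x₀) (e.map_source hx)))

theorem D_add {f g : M → E} {x : M} (hf : MDifferentiableAt (𝓡 2) 𝓘(ℝ, E) f x)
    (hg : MDifferentiableAt (𝓡 2) 𝓘(ℝ, E) g x) (i : Fin N) :
    D V i (f + g) x = D V i f x + D V i g x := by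
  have hx := mem_chart_source R2 x
  rw [D_eq_fderiv x hx (hf.add hg) i, D_eq_fderiv x hx hf i, D_eq_fderiv x hx hg i]
  change fderiv ℝ (f ∘ (chartAt R2 x).symm + g ∘ (chartAt R2 x).symm) _ _ = _
  rw [fderiv_add (differentiableAt_read x hx hf) (differentiableAt_read x hx hg)]
  rfl

omit [IsManifold (𝓡 2) ∞ M] in
theorem contMDiff_smul {b : M → ℝ} {f : M → E} (hb : Sm b) (hf : Sm f) :
    Sm (fun y => b y • f y) :=
  (contDiff_smul (𝕜 := ℝ) (F := E)).contMDiff.comp (hb.prodMk_space hf)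

theorem D_smul {b : M → ℝ} {f : M → E} (hb : Sm b) (hf : Sm f) (i : Fin N) :
    D V i (fun y => b y • f y) = (fun y => D V i b y • f y) + fun y => b y • D V i f y := by
  funext x
  have hx := mem_chart_source R2 x
  have hb' : MDifferentiableAt (𝓡 2) 𝓘(ℝ, ℝ) b x := hb.mdifferentiableAt (by simp)
  have hf' : MDifferentiableAt (𝓡 2) 𝓘(ℝ, E) f x := hf.mdifferentiableAt (by simp)
  rw [Pi.add_apply, D_eq_fderiv x hx ((contMDiff_smul hb hf).mdifferentiableAt (by simp)) i,
    D_eq_fderiv x hx hb' i, D_eq_fderiv x hx hf' i]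
  change fderiv ℝ (fun z => (b ∘ (chartAt R2 x).symm) z • (f ∘ (chartAt R2 x).symm) z) _ _ = _
  rw [fderiv_fun_smul (differentiableAt_read x hx hb') (differentiableAt_read x hx hf')]
  simp [(chartAt R2 x).left_inv hx, Function.comp_def, add_comm]

theorem contMDiffOn_D (hV : FrameSmooth V) {O : Set M} (hO : IsOpen O) {f : M → E}
    (hf : ContMDiffOn (𝓡 2) 𝓘(ℝ, E) ∞ f O) (i : Fin N) :
    ContMDiffOn (𝓡 2) 𝓘(ℝ, E) ∞ (D V i f) O := by
  have h1 := hf.contMDiffOn_tangentMapWithin (m := ∞) (by simp) hO.uniqueMDiffOn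
  have h2 := ((contMDiff_snd_tangentBundle_modelSpace E 𝓘(ℝ, E)).contMDiffOn (s := univ)).comp
    (h1.comp ((hV i).contMDiffOn (s := O)) fun y hy => hy) fun y _ => mem_univ _
  refine h2.congr fun y hy => ?_
  change mfderiv (𝓡 2) 𝓘(ℝ, E) f y (V i y) = mfderivWithin (𝓡 2) 𝓘(ℝ, E) f O y (V i y)
  rw [mfderivWithin_of_isOpen hO hy]

theorem sm_D (hV : FrameSmooth V) {f : M → E} (hf : Sm f) (i : Fin N) : Sm (D V i f) :=
  contMDiffOn_univ.mp (contMDiffOn_D hV isOpen_univ hf.contMDiffOn i)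

theorem sm_DW (hV : FrameSmooth V) {f : M → E} (hf : Sm f) :
    ∀ w : List (Fin N), Sm (DW V w f)
  | [] => hf
  | i :: w => sm_D hV (sm_DW hV hf w) i

theorem DW_add (hV : FrameSmooth V) {f g : M → E} (hf : Sm f) (hg : Sm g) :
    ∀ w : List (Fin N), DW V w (f + g) = DW V w f + DW V w g
  | [] => rfl
  | i :: w => by
    change D V i (DW V w (f + g)) = D V i (DW V w f) + D V i (DW V w g)
    rw [DW_add hV hf hg w]
    funext x
    exact D_add ((sm_DW hV hf w).mdifferentiableAt (by simp))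
      ((sm_DW hV hg w).mdifferentiableAt (by simp)) i

theorem DW_sum (hV : FrameSmooth V) {ι : Type} (s : Finset ι) (h : ι → M → E)
    (hh : ∀ a, Sm (h a)) (w : List (Fin N)) :
    DW V w (fun x => ∑ a ∈ s, h a x) = fun x => ∑ a ∈ s, DW V w (h a) x := by
  classical
  induction s using Finset.induction_on with
  | empty =>
    simp only [Finset.sum_empty]
    exact DW_zero w
  | @insert a s has ih =>
    have hsum : Sm (fun x => ∑ a ∈ s, h a x) := contMDiff_finsetSum fun a _ => hh a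
    have h1 : (fun x => ∑ b ∈ insert a s, h b x) = h a + fun x => ∑ b ∈ s, h b x := by
      funext x
      simp [Finset.sum_insert has]
    rw [h1, DW_add hV (hh a) hsum w, ih]
    funext x
    simp [Finset.sum_insert has]

/-- Turns a constant for each word into a constant for all short words. -/
theorem exists_uniform {β : Type} [Finite β] {P : List β → ℝ → Prop}
    (mono : ∀ w C C', C ≤ C' → P w C → P w C') (h : ∀ w, ∃ C, 0 ≤ C ∧ P w C) (n : ℕ) :
    ∃ C, 0 ≤ C ∧ ∀ w, w.length ≤ n → P w C := by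
  choose C hC0 hC using h
  refine ⟨∑ w ∈ (List.finite_length_le β n).toFinset, C w,
    Finset.sum_nonneg fun w _ => hC0 w, fun w hw => mono w _ _ ?_ (hC w)⟩
  exact Finset.single_le_sum (fun w _ => hC0 w) ((List.finite_length_le β n).mem_toFinset.mpr hw)

variable [CompactSpace M]

omit [ChartedSpace R2 M] [IsManifold (𝓡 2) ∞ M] in
theorem exists_sup {F : Type} [NormedAddCommGroup F] {f : M → F} (hf : Continuous f) :
    ∃ C, 0 ≤ C ∧ ∀ x, ‖f x‖ ≤ C := by
  obtain ⟨C, hC⟩ := isCompact_univ.exists_bound_of_continuousOn hf.continuousOn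
  exact ⟨max C 0, le_max_right _ _, fun x => (hC x (mem_univ x)).trans (le_max_left _ _)⟩

/-- Multiplication by a fixed smooth function. -/
theorem norm_DW_smul_le (hV : FrameSmooth V) (w : List (Fin N)) :
    ∀ b : M → ℝ, Sm b → ∃ C, 0 ≤ C ∧ ∀ f : M → E, Sm f → ∀ A : ℝ,
      (∀ w' : List (Fin N), w'.length ≤ w.length → ∀ x, ‖DW V w' f x‖ ≤ A) →
      ∀ x, ‖DW V w (fun y => b y • f y) x‖ ≤ C * A := by
  induction w using List.reverseRecOn with
  | nil =>
    intro b hb
    obtain ⟨C, hC0, hC⟩ := exists_sup hb.continuous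
    refine ⟨C, hC0, fun f _ A hA x => ?_⟩
    rw [DW_nil, norm_smul]
    exact mul_le_mul (hC x) (by simpa [DW_nil] using hA [] le_rfl x) (norm_nonneg _) hC0
  | append_singleton w i ih =>
    intro b hb
    obtain ⟨C₁, hC₁0, hC₁⟩ := ih _ (sm_D hV hb i)
    obtain ⟨C₂, hC₂0, hC₂⟩ := ih b hb
    refine ⟨C₁ + C₂, by positivity, fun f hf A hA x => ?_⟩
    rw [DW_snoc, D_smul hb hf i,
      DW_add hV (contMDiff_smul (sm_D hV hb i) hf) (contMDiff_smul hb (sm_D hV hf i))]
    refine (norm_add_le _ _).trans ?_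
    rw [add_mul]
    refine add_le_add (hC₁ f hf A (fun w' hw' => hA w' (by simp; omega)) x)
      (hC₂ _ (sm_D hV hf i) A (fun w' hw' y => ?_) x)
    rw [← DW_snoc]
    exact hA _ (by simpa using hw') y

/-! ## From the chart to the surface -/

/-- `b • (G ∘ chart)`. -/
noncomputable def push (x₀ : M) (b : M → ℝ) (G : R2 → E) : M → E :=
  fun x => b x • G (chartAt R2 x₀ x)

omit [CompactSpace M] in
theorem sm_push {x₀ : M} {b : M → ℝ} (hb : Sm b) (hsb : tsupport b ⊆ (chartAt R2 x₀).source)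
    {G : R2 → E} (hG : ContDiff ℝ ∞ G) : Sm (push x₀ b G) := by
  refine contMDiff_of_tsupport fun x hx => ?_
  have hx' : x ∈ (chartAt R2 x₀).source := hsb (tsupport_smul_subset_left _ _ hx)
  have hc : ContMDiffAt (𝓡 2) (𝓡 2) ∞ (chartAt R2 x₀) x :=
    contMDiffOn_chart.contMDiffAt ((chartAt R2 x₀).open_source.mem_nhds hx')
  exact (contDiff_smul (𝕜 := ℝ) (F := E)).contMDiff.contMDiffAt.comp x
    ((hb x).prodMk_space (hG.contMDiff.contMDiffAt.comp x hc))

/-- A coefficient of the derivative of `push`. -/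
noncomputable def coef (x₀ : M) (V : Frame M N) (b : M → ℝ) (i : Fin N) (l : Fin 2) : M → ℝ :=
  fun x => b x * aV x₀ V i x l

omit [CompactSpace M] in
theorem contMDiffAt_aV_apply (hV : FrameSmooth V) {x₀ x : M}
    (hx : x ∈ (chartAt R2 x₀).source) (i : Fin N) (l : Fin 2) :
    ContMDiffAt (𝓡 2) 𝓘(ℝ, ℝ) ∞ (fun y => aV x₀ V i y l) x :=
  (EuclideanSpace.proj (𝕜 := ℝ) l).contMDiff.contMDiffAt.comp x
    ((contMDiffOn_D hV (chartAt R2 x₀).open_source contMDiffOn_chart i).contMDiffAt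
      ((chartAt R2 x₀).open_source.mem_nhds hx))

omit [CompactSpace M] in
theorem sm_coef (hV : FrameSmooth V) {x₀ : M} {b : M → ℝ} (hb : Sm b)
    (hsb : tsupport b ⊆ (chartAt R2 x₀).source) (i : Fin N) (l : Fin 2) :
    Sm (coef x₀ V b i l) := by
  refine contMDiff_of_tsupport fun x hx => (hb x).mul ?_
  exact contMDiffAt_aV_apply hV (hsb (tsupport_mul_subset_left hx)) i l

omit [CompactSpace M] in
theorem D_push {x₀ : M} {b : M → ℝ} (hb : Sm b) (hsb : tsupport b ⊆ (chartAt R2 x₀).source)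
    {G : R2 → E} (hG : ContDiff ℝ ∞ G) (i : Fin N) :
    D V i (push x₀ b G) = push x₀ (D V i b) G
      + (push x₀ (coef x₀ V b i 0) (pd 0 G) + push x₀ (coef x₀ V b i 1) (pd 1 G)) := by
  funext x
  by_cases hx : x ∈ (chartAt R2 x₀).source
  · set e := chartAt R2 x₀ with he
    have hb' : MDifferentiableAt (𝓡 2) 𝓘(ℝ, ℝ) b x := hb.mdifferentiableAt (by simp)
    rw [D_eq_fderiv x₀ hx ((sm_push hb hsb hG).mdifferentiableAt (by simp)) i]
    have hev : push x₀ b G ∘ e.symm =ᶠ[𝓝 (e x)] fun z => (b ∘ e.symm) z • G z := by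
      filter_upwards [e.open_target.mem_nhds (e.map_source hx)] with z hz
      simp [push, ← he, e.right_inv hz]
    have hdb := D_eq_fderiv (V := V) x₀ hx hb' i
    rw [hev.fderiv_eq, fderiv_fun_smul (differentiableAt_read x₀ hx hb')
      (hG.differentiable (by simp) (e x))]
    have hv : aV x₀ V i x = aV x₀ V i x 0 • EuclideanSpace.single (0 : Fin 2) (1 : ℝ)
        + aV x₀ V i x 1 • EuclideanSpace.single (1 : Fin 2) (1 : ℝ) := by
      ext j
      fin_cases j <;> simp
    simp only [add_apply, smul_apply, ContinuousLinearMap.smulRight_apply, Pi.add_apply, push,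
      coef, ← he, mul_smul, pd]
    rw [← hdb, show (b ∘ e.symm) (e x) = b x from congrArg b (e.left_inv hx)]
    conv_lhs => enter [1, 2]; rw [hv]
    rw [map_add, map_smul, map_smul, smul_add]
    abel
  · have h0 : x ∉ tsupport b := fun h => hx (hsb h)
    have h1 : x ∉ tsupport (push x₀ b G) := fun h => h0 (tsupport_smul_subset_left _ _ h)
    rw [image_eq_zero_of_notMem_tsupport fun h => h1 (tsupport_D_subset i _ h)]
    simp [push, coef, image_eq_zero_of_notMem_tsupport h0,
      image_eq_zero_of_notMem_tsupport fun h => h0 (tsupport_D_subset i b h)]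

/-- Frame derivatives of a pushed function. -/
theorem norm_DW_push_le (hV : FrameSmooth V) {x₀ : M} (w : List (Fin N)) :
    ∀ b : M → ℝ, Sm b → tsupport b ⊆ (chartAt R2 x₀).source →
      ∃ C, 0 ≤ C ∧ ∀ G : R2 → E, ContDiff ℝ ∞ G → ∀ A : ℝ,
        (∀ w' : List (Fin 2), w'.length ≤ w.length → ∀ z, ‖pdW w' G z‖ ≤ A) →
        ∀ x, ‖DW V w (push x₀ b G) x‖ ≤ C * A := by
  induction w using List.reverseRecOn with
  | nil =>
    intro b hb _
    obtain ⟨C, hC0, hC⟩ := exists_sup hb.continuous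
    refine ⟨C, hC0, fun G _ A hA x => ?_⟩
    rw [DW_nil, push, norm_smul]
    exact mul_le_mul (hC x) (by simpa [pdW_nil] using hA [] le_rfl _) (norm_nonneg _) hC0
  | append_singleton w i ih =>
    intro b hb hsb
    have hsD : tsupport (D V i b) ⊆ (chartAt R2 x₀).source := (tsupport_D_subset i b).trans hsb
    have hsc : ∀ l, tsupport (coef x₀ V b i l) ⊆ (chartAt R2 x₀).source :=
      fun l => (tsupport_mul_subset_left).trans hsb
    obtain ⟨C₁, hC₁0, hC₁⟩ := ih _ (sm_D hV hb i) hsD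
    obtain ⟨C₂, hC₂0, hC₂⟩ := ih _ (sm_coef hV hb hsb i 0) (hsc 0)
    obtain ⟨C₃, hC₃0, hC₃⟩ := ih _ (sm_coef hV hb hsb i 1) (hsc 1)
    refine ⟨C₁ + (C₂ + C₃), by positivity, fun G hG A hA x => ?_⟩
    have hGl : ∀ l, ContDiff ℝ ∞ (pd l G) := fun l =>
      (hG.fderiv_right (m := ∞) (by simp)).clm_apply contDiff_const
    have hAl : ∀ l, ∀ w' : List (Fin 2), w'.length ≤ w.length →
        ∀ z, ‖pdW w' (pd l G) z‖ ≤ A := fun l w' hw' z => by
      have h := hA (w' ++ [l]) (by simpa using hw') z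
      rwa [pdW_append] at h
    have h2 := sm_push (sm_coef hV hb hsb i 0) (hsc 0) (hGl 0)
    have h3 := sm_push (sm_coef hV hb hsb i 1) (hsc 1) (hGl 1)
    rw [DW_snoc, D_push hb hsb hG i, DW_add hV (sm_push (sm_D hV hb i) hsD hG) (h2.add h3),
      DW_add hV h2 h3]
    refine (norm_add_le _ _).trans ?_
    rw [add_mul, add_mul]
    exact add_le_add (hC₁ G hG A (fun w' hw' => hA w' (by simp; omega)) x)
      ((norm_add_le _ _).trans (add_le_add (hC₂ _ (hGl 0) A (hAl 0) x) (hC₃ _ (hGl 1) A (hAl 1) x)))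

/-! ## From the surface to the chart -/

/-- A function in a chart, extended by zero. -/
noncomputable def ext (x₀ : M) (h : M → E) : R2 → E :=
  (chartAt R2 x₀).target.indicator (h ∘ (chartAt R2 x₀).symm)

variable [T2Space M]

omit [CompactSpace M] in
theorem exists_cutoff {K O : Set M} [LocallyCompactSpace M] [SigmaCompactSpace M]
    (hK : IsCompact K) (hO : IsOpen O) (hKO : K ⊆ O) :
    ∃ β : M → ℝ, Sm β ∧ tsupport β ⊆ O ∧ ∀ x ∈ K, β x = 1 := by
  obtain ⟨L, hL, hKL, hLO⟩ := exists_compact_between hK hO hKO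
  obtain ⟨f, hf0, hf1, -⟩ := exists_contMDiffMap_zero_one_of_isClosed (n := (⊤ : ℕ∞)) (𝓡 2)
    isOpen_interior.isClosed_compl hK.isClosed (disjoint_compl_left_iff_subset.mpr hKL)
  refine ⟨f, f.contMDiff, (closure_minimal (fun x hx => ?_) hL.isClosed).trans hLO,
    fun x hx => hf1 hx⟩
  exact interior_subset (by_contra fun h => hx (hf0 h))

omit [T2Space M] in
theorem nice_ext {x₀ : M} {h : M → E} (hh : Sm h)
    (hsh : tsupport h ⊆ (chartAt R2 x₀).source) : Nice (ext x₀ h) := by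
  set e := chartAt R2 x₀ with he
  have hK : IsCompact (e '' tsupport h) :=
    (isClosed_tsupport h).isCompact.image_of_continuousOn (e.continuousOn.mono hsh)
  have hzero : ∀ z, z ∉ e '' tsupport h → ext x₀ h z = 0 := fun z hz => by
    unfold ext
    by_cases hzt : z ∈ e.target
    · rw [← he, indicator_of_mem hzt]
      exact image_eq_zero_of_notMem_tsupport (f := h)
        fun hm => hz ⟨e.symm z, hm, e.right_inv hzt⟩
    · rw [← he, indicator_of_notMem hzt]
  refine ⟨contDiff_iff_contDiffAt.mpr fun z => ?_, HasCompactSupport.intro hK hzero⟩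
  by_cases hz : z ∈ e '' tsupport h
  · obtain ⟨x, hx, rfl⟩ := hz
    have hzt : e x ∈ e.target := e.map_source (hsh hx)
    have hev : ext x₀ h =ᶠ[𝓝 (e x)] h ∘ e.symm := by
      filter_upwards [e.open_target.mem_nhds hzt] with z hz'
      simp [ext, ← he, indicator_of_mem hz']
    refine (contMDiffAt_iff_contDiffAt.mp ?_).congr_of_eventuallyEq hev
    exact (hh _).comp (e x) (contMDiffOn_chart_symm.contMDiffAt (e.open_target.mem_nhds hzt))
  · exact contDiffAt_const.congr_of_eventuallyEq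
      (eventually_of_mem (hK.isClosed.isOpen_compl.mem_nhds hz) hzero)

/-- Smooth coefficients of the coordinate fields in the frame near a compact set. -/
theorem exists_coord_coef (hV : FrameSmooth V) (hs : FrameSpans V) (x₀ : M) {K : Set M}
    (hK : IsCompact K) (hKs : K ⊆ (chartAt R2 x₀).source) :
    ∃ c : Fin 2 → Fin N → M → ℝ, (∀ l i, Sm (c l i)) ∧
      ∀ x ∈ K, ∀ l, ∑ i, c l i x • aV x₀ V i x = EuclideanSpace.single l (1 : ℝ) := by
  obtain ⟨β, hβ, hβs, hβ1⟩ := exists_cutoff hK (chartAt R2 x₀).open_source hKs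
  let G : Fin 2 → Fin 2 → M → ℝ := fun l m x => ∑ i, aV x₀ V i x l * aV x₀ V i x m
  let d : M → ℝ := fun x => G 0 0 x * G 1 1 x - G 0 1 x * G 0 1 x
  have hGs : ∀ l m, ∀ x ∈ (chartAt R2 x₀).source,
      ContMDiffAt (𝓡 2) 𝓘(ℝ, ℝ) ∞ (G l m) x := fun l m x hx =>
    ContMDiffAt.sum fun i _ => (contMDiffAt_aV_apply hV hx i l).mul (contMDiffAt_aV_apply hV hx i m)
  have hd : ∀ x ∈ (chartAt R2 x₀).source, d x ≠ 0 := by
    intro x hx
    have hkey : ∀ u v : ℝ, (∀ i, u * aV x₀ V i x 0 + v * aV x₀ V i x 1 = 0) → u = 0 ∧ v = 0 := by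
      intro u v huv
      obtain ⟨hinj, hsurj⟩ :=
        mdifferentiable_chart (I := 𝓡 2) x₀ |>.mfderiv_bijective hx
      let de : TangentSpace (𝓡 2) x →L[ℝ] R2 := mfderiv (𝓡 2) (𝓡 2) (chartAt R2 x₀) x
      let L : R2 →L[ℝ] ℝ := u • EuclideanSpace.proj 0 + v • EuclideanSpace.proj 1
      have hall : ∀ y : TangentSpace (𝓡 2) x, L (de y) = 0 := fun y => by
        have hy : y ∈ Submodule.span ℝ (range fun i => V i x) := by
          rw [hs x]
          exact Submodule.mem_top
        induction hy using Submodule.span_induction with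
        | mem y hy =>
          obtain ⟨i, rfl⟩ := hy
          change L (aV x₀ V i x) = 0
          simpa [L] using huv i
        | zero => simp
        | add y z _ _ hy hz => simp [map_add, hy, hz]
        | smul r y _ hy => simp [map_smul, hy]
      obtain ⟨y₀, hy₀⟩ := hsurj (EuclideanSpace.single (0 : Fin 2) (1 : ℝ))
      obtain ⟨y₁, hy₁⟩ := hsurj (EuclideanSpace.single (1 : Fin 2) (1 : ℝ))
      constructor
      · have h := hall y₀
        rw [show de y₀ = _ from hy₀] at h
        simpa [L] using h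
      · have h := hall y₁
        rw [show de y₁ = _ from hy₁] at h
        simpa [L] using h
    have h11 : G 1 1 x ≠ 0 := fun h0 => by
      have h0' := (Finset.sum_eq_zero_iff_of_nonneg fun i _ => mul_self_nonneg (aV x₀ V i x 1)).mp h0
      have h1 := hkey 0 1 fun i => by simpa using mul_self_eq_zero.mp (h0' i (Finset.mem_univ i))
      exact one_ne_zero h1.2
    intro hd0
    have hsq : ∑ i, (G 1 1 x * aV x₀ V i x 0 + (-G 0 1 x) * aV x₀ V i x 1) ^ 2
        = G 1 1 x * d x := by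
      have hexp : ∀ i, (G 1 1 x * aV x₀ V i x 0 + (-G 0 1 x) * aV x₀ V i x 1) ^ 2
          = G 1 1 x ^ 2 * (aV x₀ V i x 0 * aV x₀ V i x 0)
            + (-2 * G 1 1 x * G 0 1 x) * (aV x₀ V i x 0 * aV x₀ V i x 1)
            + G 0 1 x ^ 2 * (aV x₀ V i x 1 * aV x₀ V i x 1) := fun i => by ring
      simp_rw [hexp, Finset.sum_add_distrib, ← Finset.mul_sum]
      change G 1 1 x ^ 2 * G 0 0 x + -2 * G 1 1 x * G 0 1 x * G 0 1 x
        + G 0 1 x ^ 2 * G 1 1 x = _
      ring
    rw [hd0, mul_zero] at hsq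
    have h0' := (Finset.sum_eq_zero_iff_of_nonneg fun i _ => sq_nonneg _).mp hsq
    exact h11 (hkey _ _ fun i => pow_eq_zero_iff two_ne_zero |>.mp (h0' i (Finset.mem_univ i))).1
  refine ⟨fun l i x => β x * ((![G 1 1 x * aV x₀ V i x 0 - G 0 1 x * aV x₀ V i x 1,
      G 0 0 x * aV x₀ V i x 1 - G 0 1 x * aV x₀ V i x 0] l) / d x), fun l i => ?_, ?_⟩
  · refine contMDiff_of_tsupport fun x hx => (hβ x).mul ?_
    have hx' := hβs (tsupport_mul_subset_left hx)
    have hd' : ContMDiffAt (𝓡 2) 𝓘(ℝ, ℝ) ∞ d x :=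
      ((hGs 0 0 x hx').mul (hGs 1 1 x hx')).sub ((hGs 0 1 x hx').mul (hGs 0 1 x hx'))
    refine ContMDiffAt.div₀ ?_ hd' (hd x hx')
    fin_cases l
    · exact ((hGs 1 1 x hx').mul (contMDiffAt_aV_apply hV hx' i 0)).sub
        ((hGs 0 1 x hx').mul (contMDiffAt_aV_apply hV hx' i 1))
    · exact ((hGs 0 0 x hx').mul (contMDiffAt_aV_apply hV hx' i 1)).sub
        ((hGs 0 1 x hx').mul (contMDiffAt_aV_apply hV hx' i 0))
  · intro x hx l
    have hd' := hd x (hKs hx)
    have hsum : ∀ (A B : ℝ) (p q r : Fin N → ℝ), ∑ i, (A * p i - B * q i) / d x * r i =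
        (A * ∑ i, p i * r i - B * ∑ i, q i * r i) / d x := fun A B p q r => by
      rw [Finset.mul_sum, Finset.mul_sum, ← Finset.sum_sub_distrib, Finset.sum_div]
      exact Finset.sum_congr rfl fun i _ => by ring
    have h00 : ∑ i, aV x₀ V i x 0 * aV x₀ V i x 0 = G 0 0 x := rfl
    have h01 : ∑ i, aV x₀ V i x 0 * aV x₀ V i x 1 = G 0 1 x := rfl
    have h11 : ∑ i, aV x₀ V i x 1 * aV x₀ V i x 1 = G 1 1 x := rfl
    have h10 : ∑ i, aV x₀ V i x 1 * aV x₀ V i x 0 = G 0 1 x :=
      Finset.sum_congr rfl fun i _ => mul_comm _ _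
    ext m
    simp only [hβ1 x hx, one_mul, WithLp.ofLp_sum, Finset.sum_apply, PiLp.smul_apply,
      smul_eq_mul]
    fin_cases l <;> fin_cases m <;>
      simp only [Fin.mk_one, Matrix.cons_val_zero, Matrix.cons_val_one, Fin.zero_eta, hsum, h00,
        h01, h10, h11, PiLp.single_apply, EuclideanSpace.single]
    · rw [if_pos trivial, div_eq_one_iff_eq hd']
      simp only [d]
      ring
    · rw [if_neg one_ne_zero, div_eq_zero_iff]
      left
      ring
    · rw [if_neg zero_ne_one, div_eq_zero_iff]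
      left
      ring
    · rw [if_pos trivial, div_eq_one_iff_eq hd']

omit [T2Space M] in
/-- Coordinate derivative of an extended function. -/
theorem pd_ext {x₀ : M} {K : Set M} (hKs : K ⊆ (chartAt R2 x₀).source)
    {c : Fin 2 → Fin N → M → ℝ}
    (hc : ∀ x ∈ K, ∀ l, ∑ i, c l i x • aV x₀ V i x = EuclideanSpace.single l (1 : ℝ))
    {h : M → E} (hh : Sm h) (hsh : tsupport h ⊆ K) (l : Fin 2) :
    pd l (ext x₀ h) = ext x₀ (fun x => ∑ i, c l i x • D V i h x) := by
  funext z
  set e := chartAt R2 x₀ with he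
  have hn := nice_ext hh (hsh.trans hKs)
  have hR : ∀ x, x ∉ tsupport h → ∀ i, D V i h x = 0 := fun x hx i =>
    image_eq_zero_of_notMem_tsupport fun hm => hx (tsupport_D_subset i h hm)
  by_cases hz : z ∈ e '' tsupport h
  · obtain ⟨x, hx, rfl⟩ := hz
    have hxs : x ∈ e.source := hKs (hsh hx)
    have hzt := e.map_source hxs
    have hev : ext x₀ h =ᶠ[𝓝 (e x)] h ∘ e.symm := by
      filter_upwards [e.open_target.mem_nhds hzt] with z hz'
      simp [ext, ← he, indicator_of_mem hz']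
    have hR' : ext x₀ (fun x => ∑ i, c l i x • D V i h x) (e x) = ∑ i, c l i x • D V i h x := by
      simp [ext, ← he, indicator_of_mem hzt, e.left_inv hxs]
    rw [hR']
    change fderiv ℝ (ext x₀ h) (e x) _ = _
    rw [hev.fderiv_eq, ← hc x (hsh hx) l, map_sum]
    refine Finset.sum_congr rfl fun i _ => ?_
    rw [map_smul, D_eq_fderiv x₀ hxs (hh.mdifferentiableAt (by simp)) i]
  · have hK : IsCompact (e '' tsupport h) :=
      (isClosed_tsupport h).isCompact.image_of_continuousOn (e.continuousOn.mono (hsh.trans hKs))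
    have hev : ext x₀ h =ᶠ[𝓝 z] fun _ => 0 :=
      eventually_of_mem (hK.isClosed.isOpen_compl.mem_nhds hz) fun y hy => by
        unfold ext
        by_cases hyt : y ∈ e.target
        · rw [← he, indicator_of_mem hyt]
          exact image_eq_zero_of_notMem_tsupport (f := h)
            fun hm => hy ⟨e.symm y, hm, e.right_inv hyt⟩
        · rw [← he, indicator_of_notMem hyt]
    have hR' : ext x₀ (fun x => ∑ i, c l i x • D V i h x) z = 0 := by
      unfold ext
      by_cases hzt : z ∈ e.target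
      · rw [← he, indicator_of_mem hzt]
        exact Finset.sum_eq_zero fun i _ => by
          rw [hR _ (fun hm => hz ⟨e.symm z, hm, e.right_inv hzt⟩) i, smul_zero]
      · rw [← he, indicator_of_notMem hzt]
    rw [hR']
    change fderiv ℝ (ext x₀ h) z _ = 0
    rw [hev.fderiv_eq]
    simp

/-- Coordinate derivatives of an extended function. -/
theorem norm_pdW_ext_le (hV : FrameSmooth V) (hs : FrameSpans V) (x₀ : M) {K : Set M}
    (hK : IsCompact K) (hKs : K ⊆ (chartAt R2 x₀).source) (w : List (Fin 2)) :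
    ∃ C, 0 ≤ C ∧ ∀ h : M → E, Sm h → tsupport h ⊆ K → ∀ A : ℝ, 0 ≤ A →
      (∀ w' : List (Fin N), w'.length ≤ w.length → ∀ x, ‖DW V w' h x‖ ≤ A) →
      ∀ z, ‖pdW w (ext x₀ h) z‖ ≤ C * A := by
  obtain ⟨c, hc, hcK⟩ := exists_coord_coef hV hs x₀ hK hKs
  induction w using List.reverseRecOn with
  | nil =>
    refine ⟨1, zero_le_one, fun h _ _ A hA0 hA z => ?_⟩
    rw [pdW_nil, one_mul]
    unfold ext
    by_cases hz : z ∈ (chartAt R2 x₀).target
    · rw [indicator_of_mem hz]
      exact hA [] le_rfl _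
    · rw [indicator_of_notMem hz, norm_zero]
      exact hA0
  | append_singleton w l ih =>
    obtain ⟨C, hC0, hC⟩ := ih
    have hmul : ∀ i, ∃ C', 0 ≤ C' ∧ ∀ w' : List (Fin N), w'.length ≤ w.length →
        ∀ f : M → E, Sm f → ∀ A : ℝ,
          (∀ u : List (Fin N), u.length ≤ w'.length → ∀ x, ‖DW V u f x‖ ≤ A) →
          ∀ x, ‖DW V w' (fun y => c l i y • f y) x‖ ≤ C' * A := fun i =>
      exists_uniform (P := fun w' C' => ∀ f : M → E, Sm f → ∀ A : ℝ,
          (∀ u : List (Fin N), u.length ≤ w'.length → ∀ x, ‖DW V u f x‖ ≤ A) →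
          ∀ x, ‖DW V w' (fun y => c l i y • f y) x‖ ≤ C' * A)
        (fun w' C₁ C₂ hle hP f hf A hA x => (hP f hf A hA x).trans
          (mul_le_mul_of_nonneg_right hle ((norm_nonneg _).trans (hA [] (by simp) x))))
        (fun w' => norm_DW_smul_le hV w' (c l i) (hc l i)) w.length
    choose C' hC'0 hC' using hmul
    refine ⟨C * ∑ i, C' i, mul_nonneg hC0 (Finset.sum_nonneg fun i _ => hC'0 i),
      fun h hh hsh A hA0 hA z => ?_⟩
    have hsm : ∀ i, Sm (fun x => c l i x • D V i h x) := fun i =>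
      contMDiff_smul (hc l i) (sm_D hV hh i)
    rw [pdW_append, show pdW [l] (ext x₀ h) = pd l (ext x₀ h) from rfl, pd_ext hKs hcK hh hsh l,
      mul_assoc]
    refine hC _ (contMDiff_finsetSum fun i _ => hsm i) ?_ _
      (mul_nonneg (Finset.sum_nonneg fun i _ => hC'0 i) hA0) (fun w' hw' x => ?_) z
    · refine (closure_minimal (fun x hx => ?_) (isClosed_tsupport h)).trans hsh
      by_contra hn
      exact hx (Finset.sum_eq_zero fun i _ => by
        rw [image_eq_zero_of_notMem_tsupport fun hm => hn (tsupport_D_subset i h hm), smul_zero])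
    · rw [DW_sum hV Finset.univ _ hsm w', Finset.sum_mul]
      refine (norm_sum_le _ _).trans (Finset.sum_le_sum fun i _ => ?_)
      refine hC' i w' hw' _ (sm_D hV hh i) A (fun u hu y => ?_) x
      rw [← DW_snoc]
      exact hA _ (by simp; omega) y

end Vale.Agent.P205.Full.Smooth
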