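import Vale.Agent.P205.Full.Defs

/-!
# P205 full, module O1 (part 1): smoothing operators on `R²` (helper9)

`mol t` is convolution with a bump at scale `t`, `res t = 1 - mol t`, and `smo p t = 1 - (res t)^p`.
Since `‖res t g‖ ≤ 2t ‖Dg‖` and `res` commutes with derivatives, the error of `smo p t` is
`O(t^p ‖D^p g‖)`; no vanishing moments are needed.
-/

open scoped ContDiff Convolution
open MeasureTheory ContinuousLinearMap Module

namespace Vale.Agent.P205.Full.Smooth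

variable {E : Type} [NormedAddCommGroup E] [NormedSpace ℝ E]

/-- Coordinate derivative. -/
noncomputable def pd (l : Fin 2) (G : R2 → E) : R2 → E :=
  fun z => fderiv ℝ G z (EuclideanSpace.single l (1 : ℝ))

/-- Iterated coordinate derivative along a word. -/
noncomputable def pdW (w : List (Fin 2)) (G : R2 → E) : R2 → E :=
  w.foldr pd G

theorem pdW_nil (G : R2 → E) : pdW [] G = G := rfl

theorem pdW_cons (l : Fin 2) (w : List (Fin 2)) (G : R2 → E) :
    pdW (l :: w) G = pd l (pdW w G) := rfl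

theorem pdW_append (a b : List (Fin 2)) (G : R2 → E) : pdW (a ++ b) G = pdW a (pdW b G) := by
  simp [pdW, List.foldr_append]

/-- Smooth with compact support. -/
def Nice (G : R2 → E) : Prop := ContDiff ℝ ∞ G ∧ HasCompactSupport G

theorem nice_zero : Nice (0 : R2 → E) := ⟨contDiff_const, HasCompactSupport.zero⟩

theorem Nice.add {F G : R2 → E} (hF : Nice F) (hG : Nice G) : Nice (F + G) :=
  ⟨hF.1.add hG.1, hF.2.add hG.2⟩

theorem Nice.sub {F G : R2 → E} (hF : Nice F) (hG : Nice G) : Nice (F - G) :=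
  ⟨hF.1.sub hG.1, by
    rw [sub_eq_add_neg]
    exact hF.2.add hG.2.neg⟩

theorem Nice.locallyIntegrable {G : R2 → E} (hG : Nice G) : LocallyIntegrable G volume :=
  hG.1.continuous.locallyIntegrable

theorem Nice.differentiable {G : R2 → E} (hG : Nice G) : Differentiable ℝ G :=
  hG.1.differentiable (by simp)

theorem Nice.pd {G : R2 → E} (hG : Nice G) (l : Fin 2) : Nice (pd l G) :=
  ⟨(hG.1.fderiv_right (m := ∞) (by simp)).clm_apply contDiff_const, hG.2.fderiv_apply ℝ _⟩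

theorem Nice.pdW {G : R2 → E} (hG : Nice G) : ∀ w : List (Fin 2), Nice (pdW w G)
  | [] => hG
  | l :: w => (Nice.pdW hG w).pd l

theorem pd_add {F G : R2 → E} (hF : Nice F) (hG : Nice G) (l : Fin 2) :
    pd l (F + G) = pd l F + pd l G := by
  funext z
  simp [pd, fderiv_add (hF.differentiable z) (hG.differentiable z)]

theorem pd_sub {F G : R2 → E} (hF : Nice F) (hG : Nice G) (l : Fin 2) :
    pd l (F - G) = pd l F - pd l G := by
  funext z
  simp [pd, fderiv_sub (hF.differentiable z) (hG.differentiable z)]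

theorem pdW_sub {F G : R2 → E} (hF : Nice F) (hG : Nice G) :
    ∀ w : List (Fin 2), pdW w (F - G) = pdW w F - pdW w G
  | [] => rfl
  | l :: w => by
    rw [pdW_cons, pdW_sub hF hG w, pd_sub (hF.pdW w) (hG.pdW w)]
    rfl

theorem pd_zero (l : Fin 2) : pd l (0 : R2 → E) = 0 := by
  funext z
  simp [pd]

/-- Convolution of a kernel with a vector valued function. -/
noncomputable def cv (ψ : R2 → ℝ) (G : R2 → E) : R2 → E :=
  ψ ⋆[lsmul ℝ ℝ, volume] G

theorem cv_apply (ψ : R2 → ℝ) (G : R2 → E) (x : R2) :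
    cv ψ G x = ∫ t, ψ t • G (x - t) := rfl

theorem Nice.cv {ψ : R2 → ℝ} {G : R2 → E} (hψ : Nice ψ) (hG : Nice G) : Nice (cv ψ G) :=
  ⟨hψ.2.contDiff_convolution_left _ hψ.1 hG.locallyIntegrable, hψ.2.convolution _ hG.2⟩

theorem cv_add {ψ : R2 → ℝ} {F G : R2 → E} (hψ : Nice ψ) (hF : Nice F) (hG : Nice G) :
    cv ψ (F + G) = cv ψ F + cv ψ G :=
  ConvolutionExists.distrib_add
    (hF.2.convolutionExists_right _ hψ.locallyIntegrable hF.1.continuous)
    (hG.2.convolutionExists_right _ hψ.locallyIntegrable hG.1.continuous)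

theorem pd_cv {ψ : R2 → ℝ} {G : R2 → E} [CompleteSpace E] (hψ : Nice ψ) (hG : Nice G)
    (l : Fin 2) : pd l (cv ψ G) = cv ψ (pd l G) := by
  funext x
  have h := hG.2.hasFDerivAt_convolution_right (lsmul ℝ ℝ) (μ := volume) hψ.locallyIntegrable
    (hG.1.of_le (by simp)) x
  change fderiv ℝ (ψ ⋆[lsmul ℝ ℝ, volume] G) x _ = _
  rw [h.fderiv, convolution_precompR_apply _ hψ.locallyIntegrable (hG.2.fderiv ℝ)
    (hG.1.continuous_fderiv (by simp))]
  rfl

theorem pd_cv_left {ψ : R2 → ℝ} {G : R2 → E} [CompleteSpace E] (hψ : Nice ψ) (hG : Nice G)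
    (l : Fin 2) : pd l (cv ψ G) = cv (pd l ψ) G := by
  funext x
  have h := hψ.2.hasFDerivAt_convolution_left (lsmul ℝ ℝ) (μ := volume)
    (hψ.1.of_le (by simp)) hG.locallyIntegrable x
  change fderiv ℝ (ψ ⋆[lsmul ℝ ℝ, volume] G) x _ = _
  rw [h.fderiv]
  have hex := (hψ.2.fderiv ℝ).convolutionExists_left ((lsmul ℝ ℝ).precompL R2 :
      (R2 →L[ℝ] ℝ) →L[ℝ] E →L[ℝ] R2 →L[ℝ] E)
    (hψ.1.continuous_fderiv (by simp)) hG.locallyIntegrable x
  rw [cv_apply]
  simp_rw [convolution_def, ContinuousLinearMap.integral_apply hex]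
  rfl

theorem pdW_cv {ψ : R2 → ℝ} {G : R2 → E} [CompleteSpace E] (hψ : Nice ψ) (hG : Nice G) :
    ∀ w : List (Fin 2), pdW w (cv ψ G) = cv ψ (pdW w G)
  | [] => rfl
  | l :: w => by rw [pdW_cons, pdW_cv hψ hG w, pd_cv hψ (hG.pdW w), pdW_cons]

theorem pdW_cv_left {ψ : R2 → ℝ} {G : R2 → E} [CompleteSpace E] (hψ : Nice ψ) (hG : Nice G) :
    ∀ w : List (Fin 2), pdW w (cv ψ G) = cv (pdW w ψ) G
  | [] => rfl
  | l :: w => by rw [pdW_cons, pdW_cv_left hψ hG w, pd_cv_left (hψ.pdW w) hG, pdW_cons]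

theorem norm_cv_le {ψ : R2 → ℝ} {G : R2 → E} (hψ : Nice ψ) {A : ℝ}
    (hA : ∀ z, ‖G z‖ ≤ A) (x : R2) : ‖cv ψ G x‖ ≤ (∫ t, |ψ t|) * A := by
  rw [cv_apply]
  refine (norm_integral_le_of_norm_le (g := fun t => |ψ t| * A)
    ((hψ.1.continuous.integrable_of_hasCompactSupport hψ.2).abs.mul_const A)
    (Filter.Eventually.of_forall fun t => ?_)).trans_eq (integral_mul_const A _)
  rw [norm_smul, Real.norm_eq_abs]
  exact mul_le_mul_of_nonneg_left (hA _) (abs_nonneg _)

/-- The bump. -/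
noncomputable def bmp : ContDiffBump (0 : R2) := ⟨1 / 2, 1, by norm_num, by norm_num⟩

/-- The mollifier. -/
noncomputable def phi : R2 → ℝ := bmp.normed volume

theorem nice_phi : Nice phi := ⟨bmp.contDiff_normed, bmp.hasCompactSupport_normed⟩

/-- Rescaling of a kernel to scale `t`. -/
noncomputable def scl (t : ℝ) (ψ : R2 → ℝ) : R2 → ℝ :=
  fun z => (t ^ 2)⁻¹ * ψ (t⁻¹ • z)

theorem Nice.scl {ψ : R2 → ℝ} (hψ : Nice ψ) {t : ℝ} (ht : 0 < t) : Nice (scl t ψ) :=
  ⟨contDiff_const.mul (hψ.1.comp (contDiff_id.const_smul t⁻¹)),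
    (hψ.2.comp_smul (inv_ne_zero ht.ne')).mul_left⟩

theorem pd_scl {ψ : R2 → ℝ} (hψ : Nice ψ) (t : ℝ) (l : Fin 2) (z : R2) :
    pd l (scl t ψ) z = t⁻¹ * scl t (pd l ψ) z := by
  have h : HasFDerivAt (scl t ψ)
      ((t ^ 2)⁻¹ • (fderiv ℝ ψ (t⁻¹ • z)).comp (t⁻¹ • ContinuousLinearMap.id ℝ R2)) z :=
    ((hψ.differentiable (t⁻¹ • z)).hasFDerivAt.comp z ((hasFDerivAt_id z).const_smul t⁻¹)).const_mul _
  unfold pd
  rw [h.fderiv]
  simp [scl]
  ring

theorem pdW_scl {ψ : R2 → ℝ} (hψ : Nice ψ) {t : ℝ} (ht : 0 < t) :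
    ∀ w : List (Fin 2), pdW w (scl t ψ) = fun z => t⁻¹ ^ w.length * scl t (pdW w ψ) z
  | [] => by simp [pdW_nil]
  | l :: w => by
    rw [pdW_cons, pdW_scl hψ ht w]
    funext z
    have h := fderiv_const_mul (((hψ.pdW w).scl ht).differentiable z) (t⁻¹ ^ w.length)
    have h2 := pd_scl (hψ.pdW w) t l z
    unfold pd at h2
    change fderiv ℝ (fun y => t⁻¹ ^ w.length * scl t (pdW w ψ) y) z _ = _
    rw [h, smul_apply, smul_eq_mul, h2, List.length_cons, pow_succ, pdW_cons]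
    unfold pd
    ring

theorem integral_abs_scl (ψ : R2 → ℝ) {t : ℝ} (ht : 0 < t) :
    ∫ z, |scl t ψ z| = ∫ z, |ψ z| := by
  simp_rw [scl, abs_mul, abs_inv, abs_of_pos (pow_pos ht 2), integral_const_mul]
  rw [Measure.integral_comp_inv_smul_of_nonneg (μ := volume) (fun z => |ψ z|) ht.le,
    finrank_euclideanSpace_fin, smul_eq_mul, ← mul_assoc, inv_mul_cancel₀ (by positivity), one_mul]

theorem integral_scl_phi {t : ℝ} (ht : 0 < t) : ∫ z, scl t phi z = 1 := by
  simp_rw [scl, integral_const_mul]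
  rw [Measure.integral_comp_inv_smul_of_nonneg (μ := volume) phi ht.le,
    finrank_euclideanSpace_fin, phi, bmp.integral_normed, smul_eq_mul, mul_one,
    inv_mul_cancel₀ (by positivity)]

theorem scl_phi_nonneg {t : ℝ} (z : R2) : 0 ≤ scl t phi z :=
  mul_nonneg (by positivity) (bmp.nonneg_normed _)

theorem support_scl_phi {t : ℝ} (ht : 0 < t) : Function.support (scl t phi) ⊆ Metric.ball 0 t := by
  intro z hz
  have h : t⁻¹ • z ∈ Function.support phi := right_ne_zero_of_mul hz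
  rw [phi, bmp.support_normed_eq] at h
  simp only [bmp, Metric.mem_ball, dist_zero_right, norm_smul, Real.norm_eq_abs,
    abs_of_pos (inv_pos.mpr ht)] at h
  rw [inv_mul_lt_iff₀ ht, mul_one] at h
  simpa using h

/-- Mollification at scale `t`. -/
noncomputable def mol (t : ℝ) (G : R2 → E) : R2 → E := cv (scl t phi) G

/-- `1 - mol`. -/
noncomputable def res (t : ℝ) (G : R2 → E) : R2 → E := G - mol t G

/-- `∑_{i<p} res^i`. -/
noncomputable def qsum : ℕ → ℝ → (R2 → E) → R2 → E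
  | 0, _, _ => 0
  | p + 1, t, G => qsum p t G + (res t)^[p] G

/-- The smoothing operator of order `p`. -/
noncomputable def smo (p : ℕ) (t : ℝ) (G : R2 → E) : R2 → E := mol t (qsum p t G)

section

variable {G : R2 → E} {t : ℝ}

theorem Nice.mol (hG : Nice G) (ht : 0 < t) : Nice (mol t G) := (nice_phi.scl ht).cv hG

theorem Nice.res (hG : Nice G) (ht : 0 < t) : Nice (res t G) := hG.sub (hG.mol ht)

theorem Nice.res_iter (hG : Nice G) (ht : 0 < t) : ∀ n : ℕ, Nice ((Smooth.res t)^[n] G)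
  | 0 => hG
  | n + 1 => by
    rw [Function.iterate_succ_apply']
    exact (hG.res_iter ht n).res ht

theorem Nice.qsum (hG : Nice G) (ht : 0 < t) : ∀ p : ℕ, Nice (qsum p t G)
  | 0 => nice_zero
  | p + 1 => (hG.qsum ht p).add (hG.res_iter ht p)

theorem Nice.smo (hG : Nice G) (ht : 0 < t) (p : ℕ) : Nice (smo p t G) := (hG.qsum ht p).mol ht

theorem norm_mol_le {A : ℝ} (ht : 0 < t) (hA : ∀ z, ‖G z‖ ≤ A) (x : R2) : ‖mol t G x‖ ≤ A := by
  refine (norm_cv_le (nice_phi.scl ht) hA x).trans_eq ?_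
  simp_rw [abs_of_nonneg (scl_phi_nonneg _)]
  rw [integral_scl_phi ht, one_mul]

theorem norm_res_le {A : ℝ} (ht : 0 < t) (hA : ∀ z, ‖G z‖ ≤ A) (x : R2) :
    ‖res t G x‖ ≤ 2 * A := by
  refine (norm_sub_le _ _).trans ?_
  linarith [hA x, norm_mol_le ht hA x]

theorem norm_qsum_le (ht : 0 < t) : ∀ (p : ℕ) (G : R2 → E) (A : ℝ), 0 ≤ A → (∀ z, ‖G z‖ ≤ A) →
    ∀ x, ‖qsum p t G x‖ ≤ (2 ^ p - 1) * A := by
  have hiter : ∀ (p : ℕ) (G : R2 → E) (A : ℝ), (∀ z, ‖G z‖ ≤ A) →
      ∀ x, ‖(res t)^[p] G x‖ ≤ 2 ^ p * A := by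
    intro p
    induction p with
    | zero => intro G A hA x; simpa using hA x
    | succ p ih =>
      intro G A hA x
      rw [Function.iterate_succ_apply', pow_succ']
      exact (norm_res_le ht (ih G A hA) x).trans_eq (by ring)
  intro p
  induction p with
  | zero => intro G A hA0 hA x; simp [qsum]
  | succ p ih =>
    intro G A hA0 hA x
    refine (norm_add_le _ _).trans ?_
    have h1 := ih G A hA0 hA x
    have h2 := hiter p G A hA x
    rw [pow_succ]
    linarith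

theorem res_iter_eq (hG : Nice G) (ht : 0 < t) :
    ∀ p : ℕ, (res t)^[p] G = G - smo p t G
  | 0 => by
    have h : mol t (0 : R2 → E) = 0 := convolution_zero (L := lsmul ℝ ℝ)
    simp [smo, qsum, h]
  | p + 1 => by
    rw [Function.iterate_succ_apply', smo, qsum, mol, cv_add (nice_phi.scl ht) (hG.qsum ht p)
      (hG.res_iter ht p), res]
    conv_lhs => arg 1; rw [res_iter_eq hG ht p]
    rw [sub_add_eq_sub_sub]
    rfl

variable [CompleteSpace E]

theorem pdW_res_iter (hG : Nice G) (ht : 0 < t) (w : List (Fin 2)) :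
    ∀ n : ℕ, pdW w ((res t)^[n] G) = (res t)^[n] (pdW w G)
  | 0 => rfl
  | n + 1 => by
    have hcomm : ∀ H : R2 → E, Nice H → pdW w (res t H) = res t (pdW w H) := fun H hH => by
      rw [res, pdW_sub hH (hH.mol ht), mol, pdW_cv (nice_phi.scl ht) hH]
      rfl
    rw [Function.iterate_succ_apply', Function.iterate_succ_apply', ← pdW_res_iter hG ht w n,
      hcomm _ (hG.res_iter ht n)]

theorem pdW_qsum (hG : Nice G) (ht : 0 < t) (w : List (Fin 2)) :
    ∀ p : ℕ, pdW w (qsum p t G) = qsum p t (pdW w G)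
  | 0 => by
    induction w with
    | nil => rfl
    | cons l w ih => rw [pdW_cons, ih]; exact pd_zero l
  | p + 1 => by
    rw [qsum, qsum, ← pdW_qsum hG ht w p, ← pdW_res_iter hG ht w p]
    induction w with
    | nil => rfl
    | cons l w ih =>
      rw [pdW_cons, ih, pd_add ((hG.qsum ht p).pdW w) ((hG.res_iter ht p).pdW w)]
      rfl

omit [CompleteSpace E] in
theorem norm_fderiv_le_of_pd {A : ℝ} (hA : ∀ l z, ‖pd l G z‖ ≤ A) (z : R2) :
    ‖fderiv ℝ G z‖ ≤ 2 * A := by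
  have h0 := (norm_nonneg _).trans (hA 0 z)
  refine ContinuousLinearMap.opNorm_le_bound _ (by linarith) fun v => ?_
  have hv : v = v 0 • EuclideanSpace.single (0 : Fin 2) (1 : ℝ)
      + v 1 • EuclideanSpace.single (1 : Fin 2) (1 : ℝ) := by
    ext i
    fin_cases i <;> simp
  conv_lhs => rw [hv]
  rw [map_add, map_smul, map_smul]
  refine (norm_add_le _ _).trans ?_
  rw [norm_smul, norm_smul]
  have b0 := mul_le_mul (PiLp.norm_apply_le v 0) (hA 0 z) (norm_nonneg _) (norm_nonneg _)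
  have b1 := mul_le_mul (PiLp.norm_apply_le v 1) (hA 1 z) (norm_nonneg _) (norm_nonneg _)
  unfold pd at b0 b1
  linarith

theorem norm_res_le_pd {A : ℝ} (hG : Nice G) (ht : 0 < t) (hA : ∀ l z, ‖pd l G z‖ ≤ A) (x : R2) :
    ‖res t G x‖ ≤ 2 * t * A := by
  have hA0 := (norm_nonneg _).trans (hA 0 x)
  have h := dist_convolution_le (μ := volume) (g := G) (f := scl t phi) (x₀ := x) (R := t)
    (ε := 2 * t * A) (z₀ := G x) (by positivity) (support_scl_phi ht) scl_phi_nonneg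
    (integral_scl_phi ht) hG.1.continuous.aestronglyMeasurable (fun y hy => ?_)
  · rw [dist_comm, dist_eq_norm] at h
    exact h
  · rw [dist_eq_norm]
    refine (convex_univ.norm_image_sub_le_of_norm_fderiv_le (fun z _ => hG.differentiable z)
      (fun z _ => norm_fderiv_le_of_pd hA z) (Set.mem_univ x) (Set.mem_univ y)).trans ?_
    rw [Metric.mem_ball, dist_eq_norm] at hy
    nlinarith

theorem norm_res_iter_le (ht : 0 < t) : ∀ (q : ℕ) (G : R2 → E), Nice G → ∀ A : ℝ,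
    (∀ w : List (Fin 2), w.length ≤ q → ∀ z, ‖pdW w G z‖ ≤ A) →
    ∀ x, ‖(res t)^[q] G x‖ ≤ (2 * t) ^ q * A := by
  intro q
  induction q with
  | zero => intro G _ A hA x; simpa [pdW_nil] using hA [] le_rfl x
  | succ q ih =>
    intro G hG A hA x
    rw [Function.iterate_succ_apply']
    refine (norm_res_le_pd (hG.res_iter ht q) ht (A := (2 * t) ^ q * A) (fun l z => ?_) x).trans_eq
      (by ring)
    have h := pdW_res_iter hG ht [l] q
    change pd l ((res t)^[q] G) = (res t)^[q] (pd l G) at h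
    rw [h]
    refine ih (pd l G) (hG.pd l) A (fun w hw z => ?_) z
    have hw' := hA (w ++ [l]) (by simpa using hw) z
    rwa [pdW_append] at hw'

/-- The smoothing estimate. -/
theorem norm_pdW_smo_le (p : ℕ) (w : List (Fin 2)) (v : ℕ) :
    ∃ C, 0 ≤ C ∧ ∀ t : ℝ, 0 < t → ∀ G : R2 → E, Nice G → ∀ A : ℝ,
      (∀ w' : List (Fin 2), w'.length ≤ v → ∀ z, ‖pdW w' G z‖ ≤ A) →
      ∀ x, ‖pdW w (smo p t G) x‖ ≤ C * (1 / t) ^ (w.length - v) * A := by
  have hp : (0 : ℝ) ≤ 2 ^ p - 1 := sub_nonneg.mpr (one_le_pow₀ one_le_two)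
  refine ⟨(∫ z, |pdW (w.take (w.length - v)) phi z|) * (2 ^ p - 1),
    mul_nonneg (integral_nonneg fun _ => abs_nonneg _) hp, fun t ht G hG A hA x => ?_⟩
  have hA0 := (norm_nonneg _).trans (hA [] (by simp) x)
  conv_lhs => rw [← List.take_append_drop (w.length - v) w]
  unfold smo mol
  rw [pdW_append, pdW_cv (nice_phi.scl ht) (hG.qsum ht p),
    pdW_cv_left (nice_phi.scl ht) ((hG.qsum ht p).pdW _), pdW_qsum hG ht]
  refine (norm_cv_le ((nice_phi.scl ht).pdW _) (A := (2 ^ p - 1) * A)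
    (norm_qsum_le ht p _ A hA0 (hA _ (by rw [List.length_drop]; omega))) x).trans_eq ?_
  rw [pdW_scl nice_phi ht]
  simp_rw [abs_mul]
  rw [integral_const_mul, integral_abs_scl _ ht, List.length_take, min_eq_left (Nat.sub_le _ _),
    abs_of_pos (pow_pos (inv_pos.mpr ht) _), one_div]
  ring

/-- The approximation estimate. -/
theorem norm_pdW_smo_sub_le {p q : ℕ} (hq : q ≤ p) (w : List (Fin 2)) :
    ∀ t : ℝ, 0 < t → ∀ G : R2 → E, Nice G → ∀ A : ℝ,
      (∀ w' : List (Fin 2), w'.length ≤ w.length + q → ∀ z, ‖pdW w' G z‖ ≤ A) →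
      ∀ x, ‖pdW w (smo p t G - G) x‖ ≤ 2 ^ p * t ^ q * A := by
  intro t ht G hG A hA x
  have hneg : ‖pdW w (smo p t G - G) x‖ = ‖pdW w ((res t)^[p] G) x‖ := by
    rw [res_iter_eq hG ht, pdW_sub (hG.smo ht p) hG, pdW_sub hG (hG.smo ht p)]
    exact norm_sub_rev _ _
  rw [hneg, pdW_res_iter hG ht]
  have hq' : ∀ z, ‖(res t)^[q] (pdW w G) z‖ ≤ (2 * t) ^ q * A :=
    norm_res_iter_le ht q _ (hG.pdW w) A fun w' hw' z => by
      rw [← pdW_append]
      exact hA _ (by rw [List.length_append]; omega) z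
  have hstep : ∀ (n : ℕ) (H : R2 → E) (B : ℝ), (∀ z, ‖H z‖ ≤ B) →
      ∀ z, ‖(res t)^[n] H z‖ ≤ 2 ^ n * B := by
    intro n
    induction n with
    | zero => intro H B hB z; simpa using hB z
    | succ n ih =>
      intro H B hB z
      rw [Function.iterate_succ_apply', pow_succ']
      exact (norm_res_le ht (ih H B hB) z).trans_eq (by ring)
  obtain ⟨n, rfl⟩ := Nat.exists_eq_add_of_le hq
  rw [add_comm q n, Function.iterate_add_apply]
  refine (hstep n _ _ hq' x).trans_eq ?_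
  rw [mul_pow, pow_add]
  ring

end

end Vale.Agent.P205.Full.Smooth
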